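import Vale.Agent.P290.H445.Bridge
import Vale.Agent.P290.H437.FLExact

/-!
# P290Z, part III: K3 surfaces in the weak sense

`W.K3` is `All.K3` with simple connectivity replaced by connectedness and `B1` (the vanishing of
the first Cech cohomology with complex coefficients, a property of the topological space).
The declarations of `P290.H445.Bridge` are repeated for `W.K3` in the namespace `W.H445`.
-/

set_option linter.unusedVariables false
set_option linter.unusedSectionVars false

open scoped Manifold ContDiff ComplexConjugate Topology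
open Set Filter

noncomputable section

namespace Vale.Agent.P290Z.W

open Vale.Agent.P290 Vale.Agent.P267

/-- every family of germs with locally constant differences comes from one function -/
class B1 (X : Type*) [TopologicalSpace X] : Prop where
  out : ∀ u : X → X → ℂ, (∀ p, ∀ᶠ q in 𝓝 p, ∀ᶠ y in 𝓝 q, u p y - u q y = u p q - u q q) →
    ∃ s : X → ℂ, ∀ p, ∀ᶠ y in 𝓝 p, s y - u p y = s p - u p p

theorem B1.homeo {X Y : Type*} [TopologicalSpace X] [TopologicalSpace Y] [h : B1 X]
    (e : X ≃ₜ Y) : B1 Y := by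
  refine ⟨fun u hu => ?_⟩
  obtain ⟨s, hs⟩ := h.out (fun p y => u (e p) (e y)) (fun p => by
    filter_upwards [e.continuous.continuousAt.eventually (hu (e p))] with q hq
    exact e.continuous.continuousAt.eventually hq)
  refine ⟨fun y => s (e.symm y), fun p => ?_⟩
  filter_upwards [e.symm.continuous.continuousAt.eventually (hs (e.symm p))] with y hy
  simpa using hy

theorem b1_of_sc (X : Type*) [TopologicalSpace X] [SimplyConnectedSpace X]
    [LocallyPathConnectedSpace X] : B1 X := by
  refine ⟨fun u hu => ?_⟩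
  have H : P211.HK.LocSys (X := X) (F := fun _ => ℂ)
      (fun p s => ∀ᶠ y in 𝓝 p, s y - u p y = s p - u p p) := by
    refine ⟨fun p s hs => ?_, fun p s s' hs hs' he => ?_, fun p s s' hs hs' hf => ?_,
      fun p s s' hs he => ?_, fun p => ?_⟩
    · filter_upwards [hs.eventually_nhds, hu p, hs] with q h1 h2 h3
      filter_upwards [h1, h2] with y h4 h5
      linear_combination h4 + h5 - h3
    · filter_upwards [hs, hs'] with q h1 h2
      linear_combination h1 - h2 + he
    · obtain ⟨q, h0, h1, h2⟩ := (hf.and_eventually (hs.and hs')).exists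
      linear_combination h2 - h1 + h0
    · filter_upwards [hs, he] with y h1 h2
      rw [← h2, ← he.self_of_nhds]
      exact h1
    · refine ⟨_, hu p, fun q hq v => ⟨fun y => u p y + (v - u p q), by simp, fun q' hq' => ?_⟩⟩
      have h1 : ∀ᶠ y in 𝓝 q', u p y - u q' y = u p q' - u q' q' := hq'
      filter_upwards [h1] with y hy
      linear_combination hy
  obtain ⟨p⟩ := (inferInstance : Nonempty X)
  obtain ⟨s, ⟨-, hs⟩, -⟩ := H.existsUnique p 0
  exact ⟨s, hs⟩

/-- closed one-forms are exact -/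
theorem exists_dF0 {X : Type*} [TopologicalSpace X] [ChartedSpace FL.C2 X]
    [IsManifold 𝓘(ℂ, FL.C2) ω X] [h : B1 X] {A : FL.OneF X} (hA : H437.ClosedF A) :
    ∃ u : X → ℂ, FL.Reg0 ∞ 0 u ∧ FL.dF0 u = A := by
  choose u hu using H437.exists_primFL hA
  obtain ⟨s, hs⟩ := h.out u (fun p => by
    filter_upwards [(hu p).eventually] with q hq
    exact hq.eventually_sub_eq (hu q))
  have h1 : ∀ p, H437.PrimFL A s p := fun p =>
    ((hu p).add_const (s p - u p p)).congr (by
      filter_upwards [hs p] with y hy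
      linear_combination -hy)
  refine ⟨s, ?_, ?_⟩
  · rw [FL.reg0_iff]
    intro x
    rw [← H437.comp_symm_eq]
    exact (h1 x).self_of_nhds.1
  · have h2 : FL.del0 s = A.f10 := funext fun x => (h1 x).self_of_nhds.2.1
    have h3 : FL.dbar0 0 s = A.f01 := funext fun x => (h1 x).self_of_nhds.2.2
    rw [FL.dF0, h2, h3]

/-- a K3 surface in the weak sense -/
structure K3 where
  X : Type
  [top : TopologicalSpace X]
  [charts : ChartedSpace All.C2 X]
  [manifold : IsManifold 𝓘(ℂ, All.C2) ω X]
  [t2 : T2Space X]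
  [compact : CompactSpace X]
  [conn : ConnectedSpace X]
  [b1 : B1 X]
  vol : OpenPartialHomeomorph X All.C2 → All.C2 → ℂ
  holo : ∀ e ∈ atlas All.C2 X, DifferentiableOn ℂ (vol e) e.target ∧ ∀ y ∈ e.target, vol e y ≠ 0 ∧
    ∀ t ∈ atlas All.C2 X, e.symm y ∈ t.source →
      vol e y = vol t (t (e.symm y)) * (fderiv ℂ (fun z => t (e.symm z)) y).det

attribute [instance] K3.top K3.charts

/-- a K3 surface is a K3 surface in the weak sense -/
def toW (X : All.K3) : K3 where
  X := X.X
  manifold := X.manifold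
  t2 := X.t2
  compact := X.compact
  conn := inferInstance
  b1 := b1_of_sc X.X
  vol := X.vol
  holo := X.holo

theorem toW_X (X : All.K3) : (toW X).X = X.X := rfl

namespace H445

open Vale.Agent.P290.H445 (φ toFL flCharted flManifold φ_apply φ_symm_apply toFL_source toFL_target
  toFL_apply toFL_symm_apply)

/-! ### instances on K3 surfaces -/

section K3

variable (X : K3)

instance instFLCharted : ChartedSpace FL.C2 X.X := flCharted X.X

instance instManifold : IsManifold 𝓘(ℂ, ℂ × ℂ) ω X.X := X.manifold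

instance instManifoldFL : IsManifold 𝓘(ℂ, FL.C2) ω X.X := flManifold

instance instT2 : T2Space X.X := X.t2

instance instCompact : CompactSpace X.X := X.compact

instance instB1 : B1 X.X := X.b1

instance instConnected : ConnectedSpace X.X := X.conn

instance instSecondCountable : SecondCountableTopology X.X :=
  ChartedSpace.secondCountable_of_sigmaCompact FL.C2 X.X

instance instLocPathConnected : LocallyPathConnectedSpace X.X :=
  ChartedSpace.locallyPathConnectedSpace FL.C2 X.X

theorem mem_atlas_toFL {e : OpenPartialHomeomorph X.X (ℂ × ℂ)} (he : e ∈ atlas (ℂ × ℂ) X.X) :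
    toFL e ∈ atlas FL.C2 X.X := mem_image_of_mem _ he

theorem mem_atlas_iff {e' : FL.Ch X.X} :
    e' ∈ atlas FL.C2 X.X ↔ ∃ e ∈ atlas (ℂ × ℂ) X.X, toFL e = e' := Iff.rfl

@[simp] theorem chartAt_FL (x : X.X) : chartAt FL.C2 x = toFL (chartAt (ℂ × ℂ) x) := rfl

theorem jacM_det {e e' : OpenPartialHomeomorph X.X (ℂ × ℂ)} (he : e ∈ atlas (ℂ × ℂ) X.X)
    (he' : e' ∈ atlas (ℂ × ℂ) X.X) {x : X.X} (hx : x ∈ e.source) (hx' : x ∈ e'.source) :
    (FL.jacM (toFL e) (toFL e') x).det = (fderiv ℂ (fun z => e' (e.symm z)) (e x)).det := by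
  have h0 := FL.trans_differentiableAt (mem_atlas_toFL X he) (mem_atlas_toFL X he') (x := x) hx hx'
  have h1 : (fun z => e' (e.symm z)) =
      φ.symm ∘ (fun z => toFL e' ((toFL e).symm z)) ∘ φ := by
    funext z
    simp
  have h2 : fderiv ℂ (fun z => e' (e.symm z)) (e x) =
      (φ.symm : FL.C2 →L[ℂ] ℂ × ℂ).comp
        ((fderiv ℂ (fun z => toFL e' ((toFL e).symm z)) (toFL e x)).comp
          (φ : ℂ × ℂ →L[ℂ] FL.C2)) := by
    rw [h1]
    refine HasFDerivAt.fderiv ?_
    refine (φ.symm : FL.C2 →L[ℂ] ℂ × ℂ).hasFDerivAt.comp _ ?_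
    exact HasFDerivAt.comp (e x) h0.hasFDerivAt (φ : ℂ × ℂ →L[ℂ] FL.C2).hasFDerivAt
  have h3 : (FL.jacM (toFL e) (toFL e') x).toLin' =
      (fderiv ℂ (fun z => toFL e' ((toFL e).symm z)) (toFL e x) : FL.C2 →ₗ[ℂ] FL.C2) := by
    ext1 v
    ext1
    rw [LinearMap.comp_apply, LinearMap.comp_apply, Matrix.toLin'_apply,
      FL.jacM_mulVec (mem_atlas_toFL X he) (mem_atlas_toFL X he') hx hx']
    rfl
  rw [h2, ← LinearMap.det_toLin', h3, ContinuousLinearMap.det]
  symm
  exact LinearMap.det_conj _ φ.symm.toLinearEquiv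

/-- the holomorphic two-form: `Om X x` is its coefficient at `x` in the preferred coordinates -/
def Om (x : X.X) : ℂ := X.vol (chartAt (ℂ × ℂ) x) (chartAt (ℂ × ℂ) x x)

theorem Om_ne_zero (x : X.X) : Om X x ≠ 0 :=
  (X.holo _ (chart_mem_atlas _ x)).2 _ (mem_chart_target _ x) |>.1

theorem loc_Om {e : OpenPartialHomeomorph X.X (ℂ × ℂ)} (he : e ∈ atlas (ℂ × ℂ) X.X) {z : FL.C2}
    (hz : z ∈ (toFL e).target) : FL.loc0 1 (toFL e) (Om X) z = X.vol e (φ.symm z) := by
  have hz' : φ.symm z ∈ e.target := hz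
  have h := ((X.holo e he).2 _ hz').2 (chartAt (ℂ × ℂ) (e.symm (φ.symm z))) (chart_mem_atlas _ _)
    (mem_chart_source _ _)
  have h2 := jacM_det X he (chart_mem_atlas _ (e.symm (φ.symm z))) (e.map_target hz')
    (mem_chart_source _ _)
  rw [e.right_inv hz'] at h2
  rw [FL.loc0, zpow_one, toFL_symm_apply, FL.jac, chartAt_FL, h2, h, smul_eq_mul, mul_comm]
  rfl

theorem HolOn_Om : FL.HolOn 1 (Om X) univ := by
  rintro _ ⟨e, he, rfl⟩
  have h := (X.holo e he).1.comp (φ.symm : FL.C2 →L[ℂ] ℂ × ℂ).differentiableOn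
    (s := (toFL e).target) (fun z hz => hz)
  rw [preimage_univ, inter_univ]
  exact h.congr fun z hz => loc_Om X he hz

theorem Reg0_Om : FL.Reg0 ∞ 1 (Om X) := by
  intro e he
  have h := HolOn_Om X e he
  rw [preimage_univ, inter_univ] at h
  exact (contDiffOn_infty.2
    (Vale.Agent.P268.contDiffOn_of_differentiableOn e.open_target h)).restrict_scalars ℝ

/-- `FL.HolOn 0` in terms of the charts in `ℂ × ℂ` -/
theorem holOn_zero_iff {V : Type*} [NormedAddCommGroup V] [NormedSpace ℂ V] {f : X.X → V}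
    {U : Set X.X} : FL.HolOn 0 f U ↔ ∀ e ∈ atlas (ℂ × ℂ) X.X,
      DifferentiableOn ℂ (f ∘ e.symm) (e.target ∩ e.symm ⁻¹' U) := by
  constructor
  · intro h e he
    have h1 := h _ (mem_atlas_toFL X he)
    rw [FL.LB.loc0_zero] at h1
    exact (h1.comp (φ : ℂ × ℂ →L[ℂ] FL.C2).differentiableOn
      (s := e.target ∩ e.symm ⁻¹' U) (fun z hz => hz))
  · rintro h _ ⟨e, he, rfl⟩
    rw [FL.LB.loc0_zero]
    exact ((h e he).comp (φ.symm : FL.C2 →L[ℂ] ℂ × ℂ).differentiableOn
      (s := (toFL e).target ∩ (toFL e).symm ⁻¹' U) (fun z hz => hz))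

/-- holomorphic functions are constant -/
theorem const_of_hol {V : Type*} [NormedAddCommGroup V] [NormedSpace ℂ V] {f : X.X → V}
    (hf : FL.HolOn 0 f univ) : ∃ c, ∀ x, f x = c := by
  have n1 : IsManifold 𝓘(ℂ, FL.C2) 1 X.X := IsManifold.of_le (n := ω) le_top
  have h1 : MDifferentiable 𝓘(ℂ, FL.C2) 𝓘(ℂ, V) f := by
    intro x
    have h := hf (chartAt FL.C2 x) (chart_mem_atlas _ x)
    rw [preimage_univ, inter_univ] at h
    have h2 : DifferentiableAt ℂ (FL.loc0 0 (chartAt FL.C2 x) f) (chartAt FL.C2 x x) :=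
      h.differentiableAt ((chartAt FL.C2 x).open_target.mem_nhds (mem_chart_target _ x))
    rw [FL.LB.loc0_zero] at h2
    rw [mdifferentiableAt_iff]
    constructor
    · have h3 := h2.continuousAt
      have h4 : ContinuousAt ((f ∘ (chartAt FL.C2 x).symm) ∘ chartAt FL.C2 x) x :=
        ContinuousAt.comp (g := f ∘ (chartAt FL.C2 x).symm) h3
          ((chartAt FL.C2 x).continuousAt (mem_chart_source _ x))
      refine h4.congr ?_
      filter_upwards [(chartAt FL.C2 x).open_source.mem_nhds (mem_chart_source _ x)] with y hy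
      simp only [Function.comp_apply]
      rw [(chartAt FL.C2 x).left_inv hy]
    · exact h2.differentiableWithinAt
  obtain ⟨c, hc⟩ := h1.exists_eq_const_of_compactSpace
  exact ⟨c, fun x => congrFun hc x⟩

/-- holomorphic two-forms are multiples of `Om` -/
theorem holOn_one {s : X.X → ℂ} (hs : FL.HolOn 1 s univ) : ∃ c : ℂ, ∀ x, s x = c * Om X x := by
  have h : FL.HolOn 0 (fun x => s x / Om X x) univ := by
    intro e he
    have h1 := hs e he
    have h2 := HolOn_Om X e he
    rw [preimage_univ, inter_univ] at h1 h2 ⊢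
    have h3 : ∀ z ∈ e.target, FL.loc0 1 e (Om X) z ≠ 0 := by
      intro z hz
      rw [FL.loc0, zpow_one]
      exact mul_ne_zero (FL.jac_det_ne_zero he (e.map_target hz)) (Om_ne_zero X _)
    refine (h1.mul (h2.fun_inv h3)).congr fun z hz => ?_
    have h4 := FL.jac_det_ne_zero he (e.map_target hz)
    have h5 := Om_ne_zero X (e.symm z)
    simp only [FL.loc0, Pi.mul_apply, zpow_zero, zpow_one, smul_eq_mul, one_mul]
    field_simp
  obtain ⟨c, hc⟩ := const_of_hol X h
  exact ⟨c, fun x => by rw [← hc x]; exact (div_mul_cancel₀ _ (Om_ne_zero X x)).symm⟩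

end K3

end H445

end Vale.Agent.P290Z.W
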