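import Vale.Agent.P290.R2.H596.Spec2
import Vale.Agent.P290.H722.SmFam
import Vale.Agent.P290.H686.UTrans
import Vale.Agent.P290Z.W.Defs
import Vale.Agent.P290.H726.Dens

/-!
# P290Z, part III: families of K3 structures on one smooth manifold (`K/Defs` over `W.K3`)

`MPre X T` : a family over `T` with total space `T × X` and a relative two-form; `k3 t` is the
member over `t`, `homeo t : X ≃ₜ k3 t` is `x ↦ (t, x)`. `MFam X V T` (`T ⊆ V`): the charts are
jointly smooth in `(t, x)` and the two-forms, read on `X`, are a smooth family `sig`.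
`StKur` : the Kuranishi family, parametrised by the periods.
-/

open scoped Manifold ContDiff Topology
open Set Filter

noncomputable section

namespace Vale.Agent.P290Z.W.Kur

open Vale.Agent.P290 Vale.Agent.P290.H805 Vale.Agent.P290.R2.H596 Vale.Agent.P267
open Vale.Agent.P267.FL (TwoF OneF IsHerm)

/-- a family with total space `T × X`, and a relative two-form -/
structure MPre (X : K3) (T : Type) [TopologicalSpace T] where
  F : Family T (T × X.X)
  p_eq : ∀ a, F.p a = a.1
  vol : T × X.X → T × All.C2 → ℂ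
  rel : RelForm F vol

namespace MPre

variable {X : K3} {T : Type} [TopologicalSpace T] (M : MPre X T)

/-- the fibre over `t` is `X` -/
def fibHomeo (t : T) : X.X ≃ₜ Fib M.F t where
  toFun x := ⟨(t, x), M.p_eq _⟩
  invFun y := y.val.2
  left_inv _ := rfl
  right_inv y := by
    refine Fib.ext ?_
    have h := y.prop
    rw [M.p_eq] at h
    exact Prod.ext h.symm rfl
  continuous_toFun := isInducing_val.continuous_iff.2 (Continuous.prodMk_right t)
  continuous_invFun := continuous_snd.comp continuous_val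

open Classical in
/-- the coefficient of the two-form of the member over `t` -/
def fvol (t : T) (e : OpenPartialHomeomorph (Fib M.F t) All.C2) (w : All.C2) : ℂ :=
  if h : ∃ x, fibChart M.F t x = e then M.vol h.choose.1 (t, w) else 1

theorem vol_eq (t : T) {x x' : Fib M.F t} (h : fibChart M.F t x = fibChart M.F t x') {w : All.C2}
    (hw : w ∈ (fibChart M.F t x).target) : M.vol x.1 (t, w) = M.vol x'.1 (t, w) := by
  have h1 : (t, w) ∈ (M.F.triv x.1).target := hw
  have h2 : (M.F.triv x.1).symm (t, w) ∈ (M.F.triv x'.1).source := by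
    have h3 := (fibChart M.F t x).map_target hw
    rw [h] at h3
    rw [h] at hw
    have h4 : ((fibChart M.F t x').symm w).1 ∈ (M.F.triv x'.1).source := h3
    rwa [← h, fibChart_symm_val M.F t x h1] at h4
  have h5 : ∀ u, u ∈ (fibChart M.F t x).target →
      (M.F.triv x'.1 ((M.F.triv x.1).symm (t, u))).2 = u := by
    intro u hu
    have hu1 : (t, u) ∈ (M.F.triv x.1).target := hu
    rw [← fibChart_symm_val M.F t x hu1, ← fibChart_apply, ← h]
    exact (fibChart M.F t x).right_inv hu
  have h6 : (fun u : All.C2 => (M.F.triv x'.1 ((M.F.triv x.1).symm (t, u))).2) =ᶠ[𝓝 w] id := by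
    filter_upwards [(fibChart M.F t x).open_target.mem_nhds hw] with u hu
    exact h5 u hu
  have h7 := (M.rel x.1 t w h1).2.2.2 x'.1 h2
  have h8 : (ContinuousLinearMap.id ℂ All.C2).det = 1 := LinearMap.det_id
  rw [h6.fderiv_eq, fderiv_id, h5 w hw, h8, mul_one] at h7
  exact h7

theorem fvol_eq (t : T) (x : Fib M.F t) {w : All.C2} (hw : w ∈ (fibChart M.F t x).target) :
    M.fvol t (fibChart M.F t x) w = M.vol x.1 (t, w) := by
  have h : ∃ x', fibChart M.F t x' = fibChart M.F t x := ⟨x, rfl⟩
  rw [fvol, dif_pos h]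
  exact M.vol_eq t h.choose_spec (by rw [h.choose_spec]; exact hw)

/-- the member over `t` -/
def k3 (t : T) : K3 :=
  { X := Fib M.F t
    t2 := haveI := X.t2; (M.fibHomeo t).t2Space
    compact := haveI := X.compact; (M.fibHomeo t).compactSpace
    conn := haveI := X.conn; (M.fibHomeo t).surjective.connectedSpace (M.fibHomeo t).continuous
    b1 := haveI := X.b1; B1.homeo (M.fibHomeo t)
    vol := M.fvol t
    holo := by
      rintro e ⟨x, rfl⟩
      refine ⟨?_, ?_⟩
      · intro w hw
        have hw1 : (t, w) ∈ (M.F.triv x.1).target := hw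
        have h1 := (M.rel x.1 t w hw1).2.1
        have h3 : M.fvol t (fibChart M.F t x) =ᶠ[𝓝 w] fun u : All.C2 => M.vol x.1 (t, u) := by
          filter_upwards [(fibChart M.F t x).open_target.mem_nhds hw] with u hu
          exact M.fvol_eq t x hu
        exact (h1.congr_of_eventuallyEq h3).differentiableWithinAt
      · intro w hw
        have hw1 : (t, w) ∈ (M.F.triv x.1).target := hw
        refine ⟨by rw [M.fvol_eq t x hw]; exact (M.rel x.1 t w hw1).2.2.1, ?_⟩
        rintro e' ⟨x', rfl⟩ h1
        have h2 : ((fibChart M.F t x).symm w).1 ∈ (M.F.triv x'.1).source := h1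
        rw [fibChart_symm_val M.F t x hw1] at h2
        have h3 : ∀ u ∈ (fibChart M.F t x).target,
            fibChart M.F t x' ((fibChart M.F t x).symm u) =
              (M.F.triv x'.1 ((M.F.triv x.1).symm (t, u))).2 := by
          intro u hu
          have hu1 : (t, u) ∈ (M.F.triv x.1).target := hu
          rw [fibChart_apply, fibChart_symm_val M.F t x hu1]
        have h4 : (fun u => fibChart M.F t x' ((fibChart M.F t x).symm u)) =ᶠ[𝓝 w]
            fun u => (M.F.triv x'.1 ((M.F.triv x.1).symm (t, u))).2 := by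
          filter_upwards [(fibChart M.F t x).open_target.mem_nhds hw] with u hu
          exact h3 u hu
        rw [h4.fderiv_eq, M.fvol_eq t x hw]
        have h5 : fibChart M.F t x' ((fibChart M.F t x).symm w) ∈ (fibChart M.F t x').target :=
          (fibChart M.F t x').map_source h1
        rw [M.fvol_eq t x' h5, h3 w hw]
        exact (M.rel x.1 t w hw1).2.2.2 x'.1 h2 }

theorem k3_X (t : T) : (M.k3 t).X = Fib M.F t := rfl

/-- the marking `x ↦ (t, x)` -/
def homeo (t : T) : X.X ≃ₜ (M.k3 t).X := M.fibHomeo t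

theorem homeo_val (t : T) (x : X.X) : (M.homeo t x : Fib M.F t).val = (t, x) := rfl

theorem isProperMap_p : IsProperMap M.F.p := by
  haveI := X.compact
  have h : M.F.p = Prod.fst := funext M.p_eq
  rw [h]
  exact isProperMap_fst_of_compactSpace

end MPre

/-- the holomorphic two-form (`= H342.OmT`) -/
def omF (Z : K3) : TwoF Z.X := ⟨H445.Om Z, 0, 0⟩

/-- A family of K3 structures on the smooth manifold `X` over the subset `T` of `V`. -/
structure MFam (X : K3) (V : Type) [NormedAddCommGroup V] [NormedSpace ℝ V] (T : Set V)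
    extends MPre X T where
  /-- the charts are jointly smooth -/
  sm : ∀ (a : T × X.X) (t : T) (x : X.X), (t, x) ∈ (F.triv a).source →
    ∀ e ∈ atlas FL.C2 X.X, x ∈ e.source → ∃ W : V × FL.C2 → All.C2,
      (∀ᶠ q in 𝓝 ((t : V), e x), ContDiffAt ℝ ∞ W q) ∧
      ∀ᶠ q : T × FL.C2 in 𝓝 (t, e x), (F.triv a (q.1, e.symm q.2)).2 = W (q.1, q.2)
  /-- their inverses are jointly smooth -/
  sm' : ∀ (a : T × X.X) (t : T) (x : X.X), (t, x) ∈ (F.triv a).source →
    ∀ e ∈ atlas FL.C2 X.X, x ∈ e.source → ∃ W : V × All.C2 → FL.C2,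
      (∀ᶠ q in 𝓝 ((t : V), (F.triv a (t, x)).2), ContDiffAt ℝ ∞ W q) ∧
      ∀ᶠ q : T × All.C2 in 𝓝 (t, (F.triv a (t, x)).2),
        e ((F.triv a).symm q).2 = W (q.1, q.2)
  diffeo : ∀ t : T, H686.IsDiffeo (toMPre.homeo t)
  /-- the two-forms of the members, on `X` -/
  sig : V → TwoF X.X
  N : Set V
  isOpen : IsOpen N
  sub : T ⊆ N
  smFam : H722.SmFam sig N
  sig_eq : ∀ t : T, sig t = H686.pb2 (toMPre.homeo t) (omF (toMPre.k3 t))

/-- the periods near `s₀` -/
def Cone {N : ℕ} (G : Matrix (Fin N) (Fin N) ℤ) (s₀ : Fin N → ℂ) (r : ℝ) : Set (Fin N → ℂ) :=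
  {s | H726.bil G s s = 0 ∧ ‖s - s₀‖ < r}

/-- **K**: the Kuranishi family of a K3 surface with a closed taming form, parametrised by the
periods: the two-form of the member over `s` has the class `s`, and the member over the period
`s₀` of `X` is `X`. -/
def StKur : Prop :=
  ∀ (X : K3) (P : TwoF X.X) (h : X.X → Matrix (Fin 2) (Fin 2) ℂ), P.Smooth → P.Closed →
    IsHerm h → (P.f11 = fun y => Complex.I • h y) →
    ∀ (N : ℕ) (U : H342.UData X.X N) (s₀ : Fin N → ℂ),
      BlockC.ExactTwo (omF X - U.combC s₀) →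
      ∃ r > (0 : ℝ), ∃ (M : MFam X (Fin N → ℂ) (Cone U.G s₀ r)) (h₀ : s₀ ∈ Cone U.G s₀ r),
        (∀ s ∈ M.N, (M.sig s).Closed ∧ BlockC.ExactTwo (M.sig s - U.combC s)) ∧
        M.sig s₀ = omF X ∧
        (∀ x, All.Hol (M.homeo ⟨s₀, h₀⟩) x) ∧ ∀ y, All.Hol (M.homeo ⟨s₀, h₀⟩).symm y

end Vale.Agent.P290Z.W.Kur
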