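import Vale.Agent.P290Z.BR.SpecA
import Vale.Agent.P290Z.W.KurDefs
import Vale.Agent.P267.H332.Pair.Curv

/-! P290Z, part III, block BR: taming forms and the limit lemma for marked families, over `W.K3`.
Definitions and the statements of the steps. Paper proof: `notes/P290_helper76_BR.md`. -/

open Set Filter Metric MeasureTheory
open scoped Topology Manifold ContDiff

noncomputable section

namespace Vale.Agent.P290Z.W.BR

open Vale.Agent.P290 Vale.Agent.P290.H805 Vale.Agent.P267 Vale.Agent.P290Z.W.Kur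
open Vale.Agent.P290Z.BR
open Vale.Agent.P267.FL (TwoF IsHerm)
open Vale.Agent.P267.BlockC (pair)
open Vale.Agent.P290.H686 (pb2 val2 IsSm IsDiffeo)

/-- the `(1,1)`-part of `P` is the fundamental form of a Hermitian metric -/
def Tames {Z : K3} (P : TwoF Z.X) : Prop :=
  ∃ h : Z.X → Matrix (Fin 2) (Fin 2) ℂ, IsHerm h ∧ P.f11 = fun x => Complex.I • h x

/-- smooth, closed and real -/
def SCR {Z : K3} (P : TwoF Z.X) : Prop := P.Smooth ∧ P.Closed ∧ P.Real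

/-- a biholomorphic map -/
def Bih {Z Z' : K3} (e : Z.X ≃ₜ Z'.X) : Prop :=
  (∀ x, All.Hol e x) ∧ ∀ y, All.Hol e.symm y

/-- the real part of the pull back of `β` under `D` -/
def reB (β : FL.C2 →L[ℝ] FL.C2 →L[ℝ] ℂ) (D : V2 →L[ℝ] FL.C2) : B2 :=
  (ContinuousLinearMap.compL ℝ V2 ℂ ℝ Complex.reCLM).comp (β.bilinearComp D D)

section defs

variable {X X' : K3} {T T' : Type} [TopologicalSpace T] [TopologicalSpace T']

/-- the form `P` of `X` on the member over `t` -/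
def push (M : MPre X T) (t : T) (P : TwoF X.X) : TwoF (M.k3 t).X := pb2 (M.homeo t).symm P

/-- the point of `X` with the coordinate `v` in the chart `a` of the member over `t` -/
def pt (M : MPre X T) (a : T × X.X) (t : T) (v : V2) : X.X := ((M.F.triv a).symm (t, v)).2

/-- the real part of the form `P` of `X` in the chart `a` of the member over `t` -/
def loc (M : MPre X T) (P : TwoF X.X) (a : T × X.X) (t : T) (v : V2) : B2 :=
  reB (val2 P (pt M a t v)) (fderiv ℝ (fun u => chartAt FL.C2 (pt M a t v) (pt M a t u)) v)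

/-- the map `ψ` in the charts `a`, `a'` of the members over `t`, `t'` -/
def crd (M : MPre X T) (M' : MPre X' T') (ψ : X.X → X'.X) (a : T × X.X) (a' : T' × X'.X) (t : T)
    (t' : T') (v : V2) : V2 := (M'.F.triv a' (t', ψ (pt M a t v))).2

/-- a map between two members, read on the smooth manifolds `X`, `X'` -/
def psi (M : MPre X T) (M' : MPre X' T') {t : T} {t' : T'} (f : (M.k3 t).X ≃ₜ (M'.k3 t').X) :
    X.X ≃ₜ X'.X := ((M.homeo t).trans f).trans (M'.homeo t').symm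

/-- the maps `f n` on the total spaces -/
def tot (M : MPre X T) (M' : MPre X' T') (a : ℕ → T) (b : ℕ → T')
    (f : ∀ n, (M.k3 (a n)).X ≃ₜ (M'.k3 (b n)).X) (n : ℕ) (q : T × X.X) : T' × X'.X :=
  (b n, psi M M' (f n) q.2)

end defs

/-- TAME: every K3 surface has a closed taming form -/
def StTame : Prop :=
  ∀ Z : K3, ∃ P : TwoF Z.X, SCR P ∧ Tames P ∧ pair (omF Z) P = 0 ∧ 0 < (pair P P).re

/-- POS: closed taming forms are positive on effective divisors -/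
def StTamePos : Prop :=
  ∀ (Z : K3) (P : TwoF Z.X), SCR P → Tames P → ∀ N : Z.X → ℝ, H757.IsNormFn FL.C2 N →
    0 ≤ (Complex.I * pair (H332.cF N) P).re ∧
      ((∃ x, N x = 0) → 0 < (Complex.I * pair (H332.cF N) P).re)

/-- BIH: biholomorphic maps are orientation preserving diffeomorphisms -/
def StBih : Prop := ∀ (Z Z' : K3) (e : Z.X ≃ₜ Z'.X), Bih e → IsDiffeo e

/-- LOC: forms in the charts of the members -/
def StLoc : Prop :=
  ∀ (X : K3) (V : Type) [NormedAddCommGroup V] [NormedSpace ℝ V] (T : Set V) (M : MFam X V T)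
    (P : TwoF X.X), P.Smooth → ∀ (a : T × X.X) (t : T) (v : V2), (t, v) ∈ (M.F.triv a).target →
    ContDiffAt ℝ 1 (loc M.toMPre P a t) v ∧
    ContinuousAt (fun q : T × V2 => loc M.toMPre P a q.1 q.2) (t, v) ∧
    (∀ ξ ζ, loc M.toMPre P a t v ξ ζ = -loc M.toMPre P a t v ζ ξ) ∧
    (P.Closed → ∀ ξ ζ κ, fderiv ℝ (loc M.toMPre P a t) v ξ ζ κ +
      fderiv ℝ (loc M.toMPre P a t) v ζ κ ξ + fderiv ℝ (loc M.toMPre P a t) v κ ξ ζ = 0)

/-- LOCPB: pull backs in charts -/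
def StLocPb : Prop :=
  ∀ (X X' : K3) (V V' : Type) [NormedAddCommGroup V] [NormedSpace ℝ V] [NormedAddCommGroup V']
    [NormedSpace ℝ V'] (T : Set V) (T' : Set V') (M : MFam X V T) (M' : MFam X' V' T')
    (ψ : X.X → X'.X), IsSm ψ → ∀ (P' : TwoF X'.X) (a : T × X.X) (a' : T' × X'.X) (t : T) (t' : T')
    (v : V2), (t, v) ∈ (M.F.triv a).target → (t', ψ (pt M.toMPre a t v)) ∈ (M'.F.triv a').source →
    ∀ ξ ζ, loc M.toMPre (pb2 ψ P') a t v ξ ζ =
      loc M'.toMPre P' a' t' (crd M.toMPre M'.toMPre ψ a a' t t' v)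
        (fderiv ℝ (crd M.toMPre M'.toMPre ψ a a' t t') v ξ)
        (fderiv ℝ (crd M.toMPre M'.toMPre ψ a a' t t') v ζ)

/-- TAMELOC: taming in charts -/
def StTameLoc : Prop :=
  ∀ (X : K3) (V : Type) [NormedAddCommGroup V] [NormedSpace ℝ V] (T : Set V) (M : MFam X V T)
    (P : TwoF X.X), P.Smooth → P.Real → ∀ t : T,
    (Tames (push M.toMPre t P) → ∀ (a : T × X.X) (v : V2), (t, v) ∈ (M.F.triv a).target →
      ∀ ξ : V2, ξ ≠ 0 → 0 < loc M.toMPre P a t v ξ (Complex.I • ξ)) ∧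
    ((∀ x : X.X, ∃ a : T × X.X, (t, x) ∈ (M.F.triv a).source ∧ ∀ ξ : V2, ξ ≠ 0 →
      0 < loc M.toMPre P a t (M.F.triv a (t, x)).2 ξ (Complex.I • ξ)) → Tames (push M.toMPre t P))

/-- taming is an open condition -/
def StTameOpen : Prop :=
  ∀ (X : K3) (V : Type) [NormedAddCommGroup V] [NormedSpace ℝ V] (T : Set V) (M : MFam X V T)
    (P : TwoF X.X), P.Smooth → P.Real → ∀ s : T, Tames (push M.toMPre s P) →
    ∀ᶠ t in 𝓝 s, Tames (push M.toMPre t P)

/-- ATL: uniform constants and a finite atlas near a tamed member -/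
def StAtl : Prop :=
  ∀ (X : K3) (V : Type) [NormedAddCommGroup V] [NormedSpace ℝ V] (T : Set V) (M : MFam X V T)
    (s : T),
    (∀ P : TwoF X.X, P.Smooth → P.Real → Tames (push M.toMPre s P) →
      ∀ (a : T × X.X) (Q : Set V2), IsCompact Q → (∀ v ∈ Q, (s, v) ∈ (M.F.triv a).target) →
      ∃ Λ > (0 : ℝ), ∀ᶠ t in 𝓝 s, ∀ v ∈ Q, (t, v) ∈ (M.F.triv a).target ∧ ∀ ξ ζ : V2,
        ‖ξ‖ ^ 2 ≤ Λ * loc M.toMPre P a t v ξ (Complex.I • ξ) ∧
          |loc M.toMPre P a t v ξ ζ| ≤ Λ * ‖ξ‖ * ‖ζ‖) ∧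
    ∃ (ι : Type) (_ : Finite ι) (y : ι → Fib M.F s) (K : ι → Set V2) (δ : ℝ), 0 < δ ∧
      (∀ j, IsCompact (K j)) ∧ (∀ j, ∀ v ∈ K j, (s, v) ∈ (M.F.triv (y j).val).target) ∧
      ∀ᶠ t in 𝓝 s, ∀ x : X.X, ∃ j, (t, x) ∈ (M.F.triv (y j).val).source ∧
        closedBall (M.F.triv (y j).val (t, x)).2 δ ⊆ K j

/-- EN: the energy is bounded by the square of the sum of the two forms -/
def StEn : Prop :=
  ∃ c > (0 : ℝ), ∀ (X : K3) (V : Type) [NormedAddCommGroup V] [NormedSpace ℝ V] (T : Set V)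
    (M : MFam X V T) (P Θ : TwoF X.X), P.Smooth → P.Real → Θ.Smooth → Θ.Real → ∀ t : T,
    (∀ (a : T × X.X) (v : V2), (t, v) ∈ (M.F.triv a).target → ∀ ξ : V2,
      0 ≤ loc M.toMPre P a t v ξ (Complex.I • ξ) ∧ 0 ≤ loc M.toMPre Θ a t v ξ (Complex.I • ξ)) →
    ∀ (a : T × X.X) (Q : Set V2) (Λ : ℝ), IsCompact Q → 0 < Λ →
    (∀ v ∈ Q, (t, v) ∈ (M.F.triv a).target ∧
      ∀ ξ : V2, ‖ξ‖ ^ 2 ≤ Λ * loc M.toMPre P a t v ξ (Complex.I • ξ)) →
    ∫ v in Q, En (loc M.toMPre Θ a t) v ≤ c * Λ * (pair (P + Θ) (P + Θ)).re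

/-- HALF: the hypothesis of the abstract limit lemma -/
def StHalf : Prop :=
  ∀ (X X' : K3) (V V' : Type) [NormedAddCommGroup V] [NormedSpace ℝ V] [NormedAddCommGroup V']
    [NormedSpace ℝ V'] (T : Set V) (T' : Set V') (M : MFam X V T) (M' : MFam X' V' T') (s : T)
    (s' : T') (P : TwoF X.X) (P' : TwoF X'.X), SCR P → SCR P' → Tames (push M.toMPre s P) →
    Tames (push M'.toMPre s' P') → ∀ (a : ℕ → T) (b : ℕ → T'), Tendsto a atTop (𝓝 s) →
    Tendsto b atTop (𝓝 s') → ∀ f : ∀ n, (M.k3 (a n)).X ≃ₜ (M'.k3 (b n)).X, (∀ n, Bih (f n)) →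
    ∀ C : ℝ, (∀ n, (pair P (pb2 (psi M.toMPre M'.toMPre (f n)) P')).re ≤ C) →
    Nonempty (Half M.F M'.F s s' a b (tot M.toMPre M'.toMPre a b f))

/-- JAC: biholomorphic maps multiply the two-forms by constants -/
def StJac : Prop :=
  ∀ (X X' : K3) (T T' : Type) [TopologicalSpace T] [TopologicalSpace T'] (M : MPre X T)
    (M' : MPre X' T') (a : ℕ → T) (b : ℕ → T') (f : ∀ n, (M.k3 (a n)).X ≃ₜ (M'.k3 (b n)).X),
    (∀ n, Bih (f n)) → ∃ c : ℕ → ℂ, (∀ n, c n ≠ 0) ∧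
      Law M.F M'.F M.vol M'.vol a b (tot M M' a b f) c ∧
      Law M'.F M.F M'.vol M.vol b a (tot M' M b a fun n => (f n).symm) fun n => (c n)⁻¹

/-- **BR**: the limit lemma -/
def StBR : Prop :=
  ∀ (X X' : K3) (V V' : Type) [NormedAddCommGroup V] [NormedSpace ℝ V] [NormedAddCommGroup V']
    [NormedSpace ℝ V'] (T : Set V) (T' : Set V') (M : MFam X V T) (M' : MFam X' V' T') (s : T)
    (s' : T') (P : TwoF X.X) (P' : TwoF X'.X), SCR P → SCR P' → Tames (push M.toMPre s P) →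
    Tames (push M'.toMPre s' P') → ∀ (a : ℕ → T) (b : ℕ → T'), Tendsto a atTop (𝓝 s) →
    Tendsto b atTop (𝓝 s') → ∀ f : ∀ n, (M.k3 (a n)).X ≃ₜ (M'.k3 (b n)).X, (∀ n, Bih (f n)) →
    ∀ C : ℝ, (∀ n, (pair P (pb2 (psi M.toMPre M'.toMPre (f n)) P')).re ≤ C) →
    ∃ e : (M.k3 s).X ≃ₜ (M'.k3 s').X, Bih e

end Vale.Agent.P290Z.W.BR
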