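import Vale.Agent.P290Z.W.BRSpec

/-! P290Z, block BR: biholomorphic maps are orientation preserving diffeomorphisms. -/

open Set Filter
open scoped Topology Manifold ContDiff

noncomputable section

namespace Vale.Agent.P290Z.W.BR

open Vale.Agent.P290 Vale.Agent.P267
open Vale.Agent.P290.H445 (φ)
open Vale.Agent.P290.H686 (IsSm IsDiffeo Df rep)

namespace BihAux

variable {Z Z' : K3} {f : Z.X → Z'.X}

theorem md_fl {x : Z.X} (h : All.Hol f x) : MDifferentiableAt 𝓘(ℂ, FL.C2) 𝓘(ℂ, FL.C2) f x := by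
  rw [mdifferentiableAt_iff]
  refine ⟨h.1, ?_⟩
  simp only [writtenInExtChartAt, mfld_simps, differentiableWithinAt_univ]
  change DifferentiableAt ℂ (φ ∘ (fun z => chartAt All.C2 (f x) (f ((chartAt All.C2 x).symm z))) ∘
    φ.symm) (φ (chartAt All.C2 x x))
  refine φ.differentiableAt.comp _ (DifferentiableAt.comp _ ?_ φ.symm.differentiableAt)
  rw [ContinuousLinearEquiv.symm_apply_apply]
  exact h.2

theorem diff_rep (h : ∀ x, All.Hol f x) {e : FL.Ch Z.X} (he : e ∈ atlas FL.C2 Z.X)
    {e' : FL.Ch Z'.X} (he' : e' ∈ atlas FL.C2 Z'.X) {z : FL.C2} (hz : z ∈ e.target)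
    (hz' : f (e.symm z) ∈ e'.source) : DifferentiableAt ℂ (rep f e e') z := by
  have : IsManifold 𝓘(ℂ, FL.C2) 1 Z.X := IsManifold.of_le (n := ω) le_top
  have : IsManifold 𝓘(ℂ, FL.C2) 1 Z'.X := IsManifold.of_le (n := ω) le_top
  exact mdifferentiableAt_iff_differentiableAt.1 ((mdifferentiableAt_atlas he' hz').comp z
    ((md_fl (h _)).comp z (mdifferentiableAt_atlas_symm he hz)))

theorem isSm (h : ∀ x, All.Hol f x) : IsSm f := by
  have hc : Continuous f := continuous_iff_continuousAt.2 fun x => (h x).1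
  refine ⟨hc, fun e he e' he' x hx hx' => ?_⟩
  obtain ⟨W, h1, h2, h3⟩ := eventually_nhds_iff.1 (H686.rep_eventually hc e e' hx hx')
  exact ((contDiffOn_infty.2 (P268.contDiffOn_of_differentiableOn h2 fun z hz =>
    (diff_rep h he he' (h1 z hz).1 (h1 z hz).2).differentiableWithinAt)).contDiffAt
      (h2.mem_nhds h3)).restrict_scalars ℝ

theorem det_nonneg (h : ∀ x, All.Hol f x) (x : Z.X) : 0 ≤ (Df f x).det := by
  have h1 := diff_rep h (chart_mem_atlas _ x) (chart_mem_atlas _ (f x)) (mem_chart_target _ x)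
    (by rw [(chartAt FL.C2 x).left_inv (mem_chart_source _ x)]; exact mem_chart_source _ _)
  rw [Df, h1.fderiv_restrictScalars ℝ, H928.Int.det_real]
  exact Complex.normSq_nonneg _

end BihAux

open BihAux in
theorem bih : StBih := fun Z Z' e h => by
  refine ⟨isSm h.1, isSm h.2, fun x => (det_nonneg h.1 x).lt_of_ne fun h0 => ?_⟩
  have h1 := congrArg ContinuousLinearMap.det (H686.Df_comp (isSm h.2) (isSm h.1) x)
  rw [H686.det_comp', ← h0, mul_zero, funext e.symm_apply_apply, H686.Df_id] at h1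
  exact one_ne_zero (LinearMap.det_id.symm.trans h1)

end Vale.Agent.P290Z.W.BR
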