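import Vale.Agent.P290Z.W.BRSpec
import Vale.Agent.P267.H661.Prim
import Vale.Agent.P267.H332.Pair.Pair
import Vale.Agent.P267.H928.Int.FLWedge
import Vale.Agent.P267.H928.Int.FLLin

/-! P290Z, block BR: closed taming forms are positive on effective divisors. -/

set_option linter.all false

open Set Filter
open scoped Topology Manifold ContDiff ComplexOrder

noncomputable section

namespace Vale.Agent.P290Z.W.BR.Pos

open Vale.Agent.P267 Vale.Agent.P267.FL Vale.Agent.P267.H332 Vale.Agent.P267.H757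
open Vale.Agent.P267.H661 Vale.Agent.P272.K.LIN

variable {X : Type*} [TopologicalSpace X] [ChartedSpace C2 X] [IsManifold 𝓘(ℂ, C2) ω X]
  {h : X → Matrix (Fin 2) (Fin 2) ℂ} {N : X → ℝ}

theorem ck_iff {u : X → ℝ} : CkFn C2 ∞ u ↔ ContMDiff 𝓘(ℝ, C2) 𝓘(ℝ) ∞ u := by
  refine ⟨fun k x => ?_, fun k e he x hx => (contDiffOn_chart he k.contMDiffOn).contDiffAt
    ((e.symm.isOpen_inter_preimage isOpen_univ).mem_nhds ⟨e.map_source hx, trivial⟩)⟩
  have := isManifold_real (E := C2) (M := X) ∞
  rw [contMDiffAt_iff]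
  refine ⟨(ckFn_continuous k).continuousAt, ?_⟩
  simp only [mfld_simps]
  rw [contDiffWithinAt_univ]
  exact k _ (chart_mem_atlas C2 x) x (mem_chart_source C2 x)

theorem ddb_log (hN : IsNormFn C2 N) {w : X → ℝ} (hw : CkFn C2 ∞ w) {x : X} (hx : 0 < N x)
    (e : ∀ᶠ y in 𝓝 x, w y = Real.log (N y)) : curvN N x = -ddb (cx w) x := by
  rw [curvN_of_pos hN hx, H332.ddb_eq (ckFn_two' (cx_ck hw) _ (chart_mem_atlas C2 x) x
    (mem_chart_source C2 x))]
  have k := (chartAt C2 x).continuousAt_symm (mem_chart_target C2 x)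
  rw [ContinuousAt, (chartAt C2 x).left_inv (mem_chart_source C2 x)] at k
  exact congrArg _ (ddz_congr ((k.eventually e).mono fun y hy => congrArg _ hy.symm))

variable [CompactSpace X] [ConnectedSpace X]

/-- the maximum principle -/
theorem flat (hh : IsHerm h) (hN : IsNormFn C2 N) {c : ℝ}
    (hc : ∀ x, trh h (curvN N) x = c) (h0 : c ≤ 0) : c = 0 ∧ ∀ x, N x ≠ 0 := by
  obtain ⟨x0, -, hm⟩ := isCompact_univ.exists_isMaxOn (univ_nonempty (α := X))
    hN.continuous.continuousOn
  have hm' : ∀ x, N x ≤ N x0 := fun x => hm (mem_univ x)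
  obtain ⟨y, hy⟩ := hN.dense_ne_zero.nonempty
  have M0 : 0 < N x0 := (lt_of_le_of_ne (hN.nonneg y) (Ne.symm hy)).trans_le (hm' y)
  set M := N x0
  have θ1 : ContDiff ℝ ∞ fun t : ℝ => Real.smoothTransition (4 * t / M - 1) * Real.log t :=
    contDiff_iff_contDiffAt.2 fun t => by
      rcases lt_or_ge 0 t with ht | ht
      · exact (Real.smoothTransition.contDiff.comp (by fun_prop)).contDiffAt.mul
          (Real.contDiffAt_log.2 ht.ne')
      · refine (contDiffAt_const (c := 0)).congr_of_eventuallyEq ?_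
        filter_upwards [Iio_mem_nhds (show t < M / 4 by linarith)] with s (hs : s < M / 4)
        rw [Real.smoothTransition.zero_of_nonpos (by
          rw [sub_nonpos, div_le_one M0]; linarith), zero_mul]
  set w : X → ℝ := fun x => Real.smoothTransition (4 * N x / M - 1) * Real.log (N x)
  have hw : CkFn C2 ∞ w := fun e he x hx => θ1.contDiffAt.comp _ (ck_iff.2 hN.smooth e he x hx)
  have o : ∀ x, M / 2 < N x → ∀ᶠ y in 𝓝 x, M / 2 < N y := fun x hx =>
    hN.continuous.continuousAt.eventually (Ioi_mem_nhds hx)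
  have e : ∀ x, M / 2 < N x → w x = Real.log (N x) := fun x hx => by
    simp only [w]
    rw [Real.smoothTransition.one_of_one_le (by
      rw [le_sub_iff_add_le, le_div_iff₀ M0]; linarith), one_mul]
  have p : ∀ x, M / 2 < N x → (gop hh).P w x = -c := fun x hx => by
    have k := congrArg Complex.re (hc x)
    rw [trh, ddb_log hN hw (by linarith) ((o x hx).mono e), Matrix.mul_neg, Matrix.trace_neg,
      Complex.neg_re, Complex.ofReal_re] at k
    rw [gop_P hh (ckFn_two' hw), ← k, neg_neg, trh]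
  have cl : IsClopen {x | N x = M} := by
    refine ⟨isClosed_eq hN.continuous continuous_const, isOpen_iff_mem_nhds.2 fun x hx => ?_⟩
    have hx' : N x = M := hx
    have k : M / 2 < N x := by linarith
    filter_upwards [o x k, (gop hh).open_contact (ckFn_two' hw)
      ((o x k).mono fun y hy => by rw [p y hy]; linarith) ((o x k).mono fun y hy => by
        rw [e y hy, e x k, hx']; exact Real.log_le_log (by linarith) (hm' y))] with y k1 k2
    rw [e y k1, e x k, hx'] at k2
    exact Real.log_injOn_pos (show 0 < N y by linarith) M0 k2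
  have u : ∀ x, N x = M := fun x => (cl.eq_univ ⟨x0, rfl⟩).ge (mem_univ x)
  refine ⟨?_, fun x => (u x).symm ▸ M0.ne'⟩
  have k := p x0 (by linarith)
  rw [show w = fun _ => Real.log M from funext fun x => by
    rw [e x (by rw [u x]; linarith), u x], SOp.P_const] at k
  linarith

theorem wedge_eq {g h : Matrix (Fin 2) (Fin 2) ℂ} (hh : h.PosDef) :
    pdet g h = (h⁻¹ * g).trace * h.det := by
  have d : h.det ≠ 0 := (hh.isUnit.map Matrix.detMonoidHom).ne_zero
  rw [Matrix.inv_def, Ring.inverse_eq_inv', Matrix.smul_mul, Matrix.trace_smul, smul_eq_mul,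
    mul_comm _ h.det, mul_inv_cancel_left₀ d, Matrix.adjugate_fin_two]
  simp [pdet, Matrix.trace_fin_two, Matrix.vecMul, dotProduct, Fin.sum_univ_two]
  ring

theorem pos [T2Space X] {P : TwoF X} (hs : P.Smooth) (hcl : P.Closed) (hh : IsHerm h)
    (hP : P.f11 = fun x => Complex.I • h x) (hN : IsNormFn C2 N) :
    ∃ c r : ℝ, 0 < r ∧ Complex.I * intX ((cF N).wedge P) = (c * r : ℝ) ∧
      (c ≤ 0 → c = 0 ∧ ∀ x, N x ≠ 0) := by
  have cs : ∀ b : X → ℂ, HasCompactSupport b := HasCompactSupport.of_compactSpace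
  have hg := reF_ck (reg0_iff.1 (reg_trh hh (reg11_curvN hN)))
  obtain ⟨u, hu, hu'⟩ := (gop hh).c_spec hg
  set c := (gop hh).c (reF (trh h (curvN N)))
  have hu2 := ck_iff.1 hu
  have hE : IsNormFn C2 fun x => Real.exp (u x) := by
    simpa using isNormFn_exp (E := C2) (φ := fun x => -u x) hu2.neg
  have e1 : ∀ x, curvN (fun x => N x * Real.exp (u x)) x = curvN N x - ddb (cx u) x := fun x => by
    rw [curvN_mul hN hE, ddb_log hE hu (Real.exp_pos _)
      (Eventually.of_forall fun y => (Real.log_exp _).symm), sub_eq_add_neg]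
  have e2 : ∀ x, trh h (curvN fun x => N x * Real.exp (u x)) x = c := fun x => by
    have k : (trh h (curvN N) x).im = 0 :=
      trh_conj (hh.posDef x) (Matrix.ext fun i j => (cF_imag hN x j i).symm)
    have k2 := trh_cx hh (ckFn_two' hu) x
    rw [trh] at k k2
    rw [trh, e1, Matrix.mul_sub, Matrix.trace_sub, k2, hu']
    exact Complex.ext (by simp [reF, trh]) (by simp [k])
  have hQ : (⟨fun _ => 0, h, fun _ => 0⟩ : TwoF X).Smooth :=
    ⟨(cF_smooth hN).s20, hh.smooth, (cF_smooth hN).s02⟩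
  have dr : ∀ x, (((h x).det.re : ℝ) : ℂ) = (h x).det := fun x =>
    Complex.ext rfl (Complex.pos_iff.1 (hh.posDef x).det_pos).2
  have dp : ∀ x, 0 < (h x).det.re := fun x => (Complex.pos_iff.1 (hh.posDef x).det_pos).1
  have rg : Reg2 ∞ 1 fun x => (((h x).det.re : ℝ) : ℂ) := by
    have k := (reg2_wedge hQ hQ).const_smul (-1 / 2 : ℂ)
    convert k using 2 with x
    rw [dr, Matrix.det_fin_two]
    simp only [TwoF.wedge, smul_eq_mul]
    ring
  obtain ⟨x0⟩ : Nonempty X := inferInstance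
  obtain ⟨r, -, r1, r2⟩ := intX_ofReal_nonneg rg.zero_order (cs _) fun x => (dp x).le
  refine ⟨c, r, r2 ⟨x0, (dp x0).ne'⟩, ?_, fun h0 => ?_⟩
  · have e3 : (dbarF u).d.wedge P = fun x => (cF N).wedge P x -
        -Complex.I * c * (((h x).det.re : ℝ) : ℂ) := funext fun x => by
      have k := wedge_eq (g := curvN (fun x => N x * Real.exp (u x)) x) (hh.posDef x)
      rw [show (_ : Matrix _ _ ℂ).trace = c from e2 x, e1, pdet] at k
      simp only [TwoF.wedge, dbarF_d_f20, dbarF_d_f11, dbarF_d_f02 hu2, cF, hP, dr,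
        Matrix.smul_apply, smul_eq_mul, Matrix.sub_apply] at k ⊢
      rw [show (fun y => (u y : ℂ)) = cx u from rfl]
      linear_combination Complex.I * k
    have k := intX_dA_wedge (dbarF_smooth hu2).c1 hs.c1 hcl isCompact_univ
      fun x hx => absurd (mem_univ x) hx
    rw [e3, FL.intX_sub (b' := fun x => -Complex.I * c * _) (reg2_wedge (cF_smooth hN) hs)
      (rg.const_smul _) (cs _) (cs _),
      intX_const_mul _ rg (cs _), r1] at k
    push_cast
    linear_combination Complex.I * k - c * r * Complex.I_mul_I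
  · obtain ⟨k1, k2⟩ := flat hh (hN.mul hE) e2 h0
    exact ⟨k1, fun x hx => k2 x (by rw [hx, zero_mul])⟩

end Vale.Agent.P290Z.W.BR.Pos

namespace Vale.Agent.P290Z.W.BR

theorem tamePos : StTamePos := by
  rintro Z P ⟨h1, h2, -⟩ ⟨h, hh, hP⟩ N hN
  obtain ⟨c, r, r0, e, k⟩ := Pos.pos h1 h2 hh hP hN
  rw [P267.BlockC.pair, e, Complex.ofReal_re]
  refine ⟨mul_nonneg (not_lt.1 fun hc => hc.ne (k hc.le).1) r0.le, fun ⟨x, hx⟩ =>
    mul_pos (not_le.1 fun hc => (k hc).2 x hx) r0⟩

end Vale.Agent.P290Z.W.BR
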