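import Vale.Agent.P290.H445.IntK
import Vale.Agent.P290Z.W.Defs
import Vale.Agent.P290Z.W.H445Coh
import Vale.Agent.P290Z.W.H445Lef

/-!
# P290: the integration facts used in `Lef` hold (from P267/H533)
-/

set_option linter.unusedVariables false
set_option linter.unusedSectionVars false

open scoped Manifold ContDiff ComplexConjugate Topology
open Set Filter

noncomputable section

namespace Vale.Agent.P290Z.W.H445

open Vale.Agent.P290 Vale.Agent.P290.H445

open Vale.Agent.P267 Vale.Agent.P267.FL Vale.Agent.P267.RR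

theorem intFactsK (X : K3) : IntFacts X.X := intFacts X.X

/-- Riemann-Roch for a line bundle orthogonal to `Om`: it has a holomorphic structure, its square is
even, and it or its dual has sections. -/
theorem rr_of_orth (X : K3) (hS : SerreStmt X.X) (hR : RRStmt X.X) (h : H01 X) {ι : Type}
    [Fintype ι] [DecidableEq ι] (L : LB X.X ι) (hL : Reg2 ∞ 0 L.F02)
    (h0 : intX (fun x => Om X x * L.F02 x) = 0) :
    ∃ (a : X.X → Fin 2 → ℂ) (n : ℤ), L.IsHol a ∧ isec L L = 2 * n ∧
      2 + n ≤ RR.h0 L a 0 + RR.h0 L.dual (-a) 0 := by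
  obtain ⟨a, ha⟩ := (lefschetz X hS (intFactsK X) L hL).2 h0
  obtain ⟨n, h1, h2, -⟩ := rr_ineq X hS hR h L ha
  exact ⟨a, n, ha, h1, h2⟩

end Vale.Agent.P290Z.W.H445
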