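import Vale.Agent.P290.H445.Rrf
import Vale.Agent.P290Z.W.Defs
import Vale.Agent.P290Z.W.H445Coh
import Vale.Agent.P290Z.W.H445Lef
import Vale.Agent.P290Z.W.H445IntK
import Vale.Agent.P290Z.W.H445Sec

/-!
# P290: the field `rr` of the geometry of a K3 surface, on the lattice `UData`
-/

set_option linter.unusedVariables false
set_option linter.unusedSectionVars false

open scoped Manifold ContDiff ComplexConjugate Topology
open Set Filter

noncomputable section

namespace Vale.Agent.P290Z.W.H445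

open Vale.Agent.P290 Vale.Agent.P290.H445

open Vale.Agent.P267 Vale.Agent.P267.FL Vale.Agent.P267.RR Vale.Agent.P267.H821
  Vale.Agent.P267.BlockC Vale.Agent.P267.H332 Vale.Agent.P267.H757 Vale.Agent.P290.H342

/-! ### the Chern curvature is cohomologous to the curvature -/

section gen

variable {X : Type*} [TopologicalSpace X] [ChartedSpace FL.C2 X] [IsManifold 𝓘(ℂ, FL.C2) ω X]
variable {ι : Type} [Fintype ι] [DecidableEq ι]

end gen

/-! ### the two-form `Om` -/

section K3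

variable (X : K3)

/-- the holomorphic two-form as a `TwoF` -/
def OmF : TwoF X.X := ⟨Om X, fun _ => 0, fun _ => 0⟩

theorem OmF_smooth : (OmF X).Smooth := by
  refine ⟨Reg0_Om X, fun e he i j => ?_, fun e he => ?_⟩
  · have : (fun z => loc11 e (fun _ : X.X => (0 : Matrix (Fin 2) (Fin 2) ℂ)) z i j) = fun _ => 0 := by
      funext z
      simp [loc11]
    change ContDiffOn ℝ ∞ (fun z => loc11 e (fun _ : X.X => (0 : Matrix (Fin 2) (Fin 2) ℂ)) z i j) _
    rw [this]
    exact contDiffOn_const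
  · have : loc2 0 e (fun _ : X.X => (0 : ℂ)) = fun _ => 0 := by
      funext z
      simp [loc2]
    change ContDiffOn ℝ ∞ (loc2 0 e (fun _ : X.X => (0 : ℂ))) _
    rw [this]
    exact contDiffOn_const

theorem OmF_closed : (OmF X).Closed := by
  have h11 : ∀ (x : X.X) (i j : Fin 2), (fun z => loc11 (chartAt FL.C2 x)
      (fun _ : X.X => (0 : Matrix (Fin 2) (Fin 2) ℂ)) z i j) = fun _ => 0 := by
    intro x i j
    funext z
    simp [loc11]
  have h02 : ∀ x : X.X, loc2 0 (chartAt FL.C2 x) (fun _ : X.X => (0 : ℂ)) = fun _ => 0 := by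
    intro x
    funext z
    simp [loc2]
  refine ⟨fun x j => ?_, fun x i => ?_⟩
  · change dbar0 1 (Om X) x j + (dz 0 (fun z => loc11 (chartAt FL.C2 x)
      (fun _ : X.X => (0 : Matrix (Fin 2) (Fin 2) ℂ)) z 1 j) (chartAt FL.C2 x x) -
      dz 1 (fun z => loc11 (chartAt FL.C2 x)
      (fun _ : X.X => (0 : Matrix (Fin 2) (Fin 2) ℂ)) z 0 j) (chartAt FL.C2 x x)) = 0
    rw [h11, h11, dbar_of_holOn (HolOn_Om X)]
    simp [dz_const]
  · change dz i (loc2 0 (chartAt FL.C2 x) (fun _ : X.X => (0 : ℂ))) (chartAt FL.C2 x x) -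
      (dzb 0 (fun z => loc11 (chartAt FL.C2 x)
        (fun _ : X.X => (0 : Matrix (Fin 2) (Fin 2) ℂ)) z i 1) (chartAt FL.C2 x x) -
      dzb 1 (fun z => loc11 (chartAt FL.C2 x)
        (fun _ : X.X => (0 : Matrix (Fin 2) (Fin 2) ℂ)) z i 0) (chartAt FL.C2 x x)) = 0
    rw [h11, h11, h02]
    simp [dz_const, dzb_const]

theorem pair_OmF (F : TwoF X.X) : pair (OmF X) F = intX (fun x => Om X x * F.f02 x) := by
  rw [pair]
  congr 1
  funext x
  simp [TwoF.wedge, OmF]

variable {X}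

/-- the period of a line bundle from its class -/
theorem period_eq {N : ℕ} (U : UData X.X N) {F : TwoF X.X} {k : Fin N → ℤ} (hF : F.Smooth)
    (hk : U.HasCl F k) : pair (OmF X) F = pair (OmF X) (U.comb k) := by
  have hI := intAx (X := X.X)
  have h1 := pair_exact hI hk (mem_HC_iff.2 ⟨OmF_smooth X, OmF_closed X⟩)
  have hc := (U.comb_mem (lbFacts X.X) k).1
  have h2 : F = (F - U.comb k) + U.comb k := by abel
  have h3 : (F - U.comb k).Smooth := by
    have := TwoF_smooth_add hF (TwoF_smooth_smul (-1) hc)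
    rwa [neg_one_smul, ← sub_eq_add_neg] at this
  rw [H342.pair_comm, h2, pair_add_left hI h3 hc (OmF_smooth X), h1, zero_add, H342.pair_comm]

/-- **the field `rr`** -/
theorem rr_uData (hS : SerreStmt X.X) (hR : RRStmt X.X) (h : H01 X) {N : ℕ} (U : UData X.X N)
    (hN : UData.NFLB X.X) (T : DivTh FL.C2 X.X) (τ : (Fin N → ℤ) →+ T.H)
    (hcl : ∀ N' : X.X → ℝ, IsNormFn FL.C2 N' → T.cl N' = τ (U.clN N'))
    (hB : ∀ k, T.B (τ k) (τ k) = U.B k k)
    (hz : ∀ N' : X.X → ℝ, IsNormFn FL.C2 N' → T.cl N' = 0 → ∀ x, N' x ≠ 0) (k : Fin N → ℤ)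
    (hσ : pair (OmF X) (U.comb k) = 0) (hk : 0 ≤ T.B (τ k) (τ k))
    (hneg : ∀ N' : X.X → ℝ, IsNormFn FL.C2 N' → T.cl N' ≠ -τ k) :
    ∃ P : Pen T (τ k), T.dv (P.N 1 0) ≠ T.dv (P.N 0 1) := by
  have hI := intAx (X := X.X)
  have hL := lbFacts X.X
  obtain ⟨L, hLk⟩ := U.exists_c1 hL k
  have hLc : U.HasCl L.L.curv k := by rw [← hLk]; exact U.c1_spec L
  obtain ⟨a, s0, s1, ha, hs⟩ := exists_pencil X hS hR h L.L (by
      have := period_eq U L.L.curv_smooth hLc
      rw [hσ, pair_OmF] at this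
      exact this) (by
      rw [U.isec_c1 hI hL, hLk]
      have h1 : (0 : ℤ) ≤ U.B k k := by rw [← hB]; exact hk
      have h2 : (0 : ℝ) ≤ (U.B k k : ℝ) := by exact_mod_cast h1
      simpa using h2) (by
      intro a s hs
      refine hneg _ hs.isNormFn_zero ?_
      rw [hcl _ hs.isNormFn_zero, clN_of_chern U hN hs.hol hs.isNormFn_zero hs.cF_zero (k := -k),
        map_neg]
      have := U.c1_dual hL L
      have h3 := U.c1_spec ⟨L.ι, L.L.dual⟩
      rw [this, hLk] at h3
      exact h3)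
  refine ⟨Pen.ofSec T (τ k) hs fun N' hN' hc => ?_, Pen.dv_ne _ hz⟩
  rw [hcl _ hN', clN_of_chern U hN ha hN' hc hLc]

end K3

end Vale.Agent.P290Z.W.H445
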