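import Vale.Agent.P290.H416.K3U
import Vale.Agent.P290Z.W.Defs

/-! P290 / H416: the lattice `UData` of helper342 on a K3 surface as a lattice of closed real forms
(`FLat`), and the literal forms of NEG, INDEP and Lefschetz. -/

set_option linter.unusedSectionVars false
set_option linter.unusedVariables false

open scoped Manifold ContDiff ComplexConjugate Topology ComplexOrder
open MeasureTheory Set

noncomputable section

namespace Vale.Agent.P290Z.W.H416

open Vale.Agent.P290 Vale.Agent.P290.H416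

open Vale.Agent.P267.FL Vale.Agent.P267.H469 Vale.Agent.P267.H661 Vale.Agent.P267.BlockC
open Vale.Agent.P290.H342 Vale.Agent.P267.RR

section gen

variable {X : Type} [TopologicalSpace X] [ChartedSpace C2 X] [IsManifold 𝓘(ℂ, C2) ω X]
variable [T2Space X] [CompactSpace X] [ConnectedSpace X]
variable {h : X → Matrix (Fin 2) (Fin 2) ℂ} (hh : IsHerm h) {N : ℕ} (U : UData X N)

end gen

section K3

open Vale.Agent.P290Z.W.H445 (Om Om_ne_zero Reg0_Om HolOn_Om)

variable (X : K3) {N : ℕ} (U : UData X.X N)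

/-- `∂̄ Om = 0` -/
theorem dbar_Om (x : X.X) (i : Fin 2) : dbar0 1 (Om X) x i = 0 := by
  have h1 := HolOn_Om X _ (chart_mem_atlas C2 x)
  rw [preimage_univ, inter_univ] at h1
  exact dzb_of_hol (h1.differentiableAt
    ((chartAt C2 x).open_target.mem_nhds (mem_chart_target C2 x))) i

/-- the holomorphic two-form -/
def OmL : Om2 X.X := (⟨Om X, Reg0_Om X⟩, 0, 0)

theorem toF_OmL : toF (OmL X) = ⟨Om X, 0, 0⟩ := rfl

theorem OmL_ne : OmL X ≠ 0 := by
  intro h0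
  obtain ⟨x⟩ : Nonempty X.X := inferInstance
  exact Om_ne_zero X x (congrArg (fun F : Om2 X.X => (F.1 : X.X → ℂ) x) h0)

theorem D2_OmL : D2 (OmL X) = 0 := by
  refine Prod.ext ?_ ?_
  · have h1 : (dbar20L (⟨Om X, Reg0_Om X⟩ : S20 X.X)) = 0 := by
      refine Subtype.ext ?_
      funext x i
      exact dbar_Om X x i
    change dbar20L (⟨Om X, Reg0_Om X⟩ : S20 X.X) + del11L 0 = 0
    rw [h1, map_zero, add_zero]
  · change dbar11L (0 : S11 X.X) + del02L (0 : S02 X.X) = 0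
    rw [map_zero, map_zero, add_zero]

theorem D2_C2L {F : Om2 X.X} (hF : D2 F = 0) : D2 (C2L F) = 0 := by
  rw [closed_iff] at hF ⊢
  have h1 : toF (C2L F) = cjF (toF F) := rfl
  rw [h1]
  obtain ⟨h2, h3⟩ := hF
  have e1 : (toF F).d21 = 0 := by funext x j; exact h2 x j
  have e2 : (toF F).d12 = 0 := by funext x j; exact h3 x j
  refine ⟨fun x j => ?_, fun x j => ?_⟩
  · rw [d21_cj, e2]; simp [cj1]
  · rw [d12_cj, e1]; simp [cj1]

/-- the solvability of `∂̄ a = b` for `(0,2)`-forms orthogonal to `Om` (helper445, from Serre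
duality) -/
def H02 : Prop :=
  ∀ b : X.X → ℂ, Reg2 ∞ 0 b → intX (fun x => Om X x * b x) = 0 →
    ∃ a : X.X → Fin 2 → ℂ, Reg1 ∞ 0 a ∧ ∀ x, dbar1 0 a x = b x

variable {X}

theorem H02.abs (hS : H02 X) {g : X.X → Matrix (Fin 2) (Fin 2) ℂ} (hh : IsHerm g) (b : Om2 X.X)
    (hb : (calc0 hh).p02 b = b) (h0 : (calc0 hh).I22 b (OmL X) = 0) :
    ∃ a, (calc0 hh).is01 a ∧ (calc0 hh).p02 ((calc0 hh).d1 a) = b := by
  have h1 : intX (fun x => Om X x * (b.2.2 : X.X → ℂ) x) = 0 := by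
    have h2 : (toF b).wedge (toF (OmL X)) = fun x => Om X x * (b.2.2 : X.X → ℂ) x := by
      funext x
      simp only [TwoF.wedge, toF, OmL, Submodule.coe_zero, Pi.zero_apply, Matrix.zero_apply,
        mul_zero, sub_zero, zero_add, add_zero]
      ring
    rw [← h2]
    exact h0
  obtain ⟨a, ha, h3⟩ := hS _ b.2.2.2 h1
  refine ⟨(0, ⟨a, ha⟩), rfl, ?_⟩
  rw [← hb]
  refine Prod.ext rfl (Prod.ext rfl (Subtype.ext ?_))
  funext x
  exact h3 x

/-- the periods: `σ(x) = ∫ c₁(x) ∧ Om`, `c₁ = (i/2π) comb` -/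
def sig (U : UData X.X N) : (Fin N → ℤ) →+ ℂ :=
  AddMonoidHom.mk' (fun x => I22L (phi U x) (OmL X)) fun x y => by
    rw [phi_add, map_add, LinearMap.add_apply]

theorem sig_eq (x : Fin N → ℤ) : sig U x = I22L (phi U x) (OmL X) := rfl

theorem sig_apply (x : Fin N → ℤ) : sig U x = i2p * pair (U.comb x) ⟨Om X, 0, 0⟩ := by
  rw [sig_eq, phi, map_smul, LinearMap.smul_apply, smul_eq_mul, I22L_apply, toF_cvC]
  rfl

theorem sig_apply' (x : Fin N → ℤ) :
    sig U x = i2p * intX (fun y => Om X y * (U.comb x).f02 y) := by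
  rw [sig_apply, pair]
  congr 2
  funext y
  simp only [TwoF.wedge, Pi.zero_apply, Matrix.zero_apply, mul_zero, sub_zero, zero_add, add_zero]
  ring

theorem sig_per {g : X.X → Matrix (Fin 2) (Fin 2) ℂ} (hg : IsHerm g) (x : Fin N → ℤ) :
    (flat hg U).per (OmL X) (D2_OmL X) x = sig U x := rfl

theorem phi_smul (k : ℤ) (x : Fin N → ℤ) : phi U (k • x) = (k : ℂ) • phi U x := by
  have h1 : (fun i => (((k • x) i : ℤ) : ℂ)) = (k : ℂ) • fun i => ((x i : ℤ) : ℂ) := by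
    funext i; simp
  have h2 : cvC U ((k : ℂ) • fun i => ((x i : ℤ) : ℂ)) = (k : ℂ) • cvC U fun i => ((x i : ℤ) : ℂ) := by
    rw [cvC, cvC, Finset.smul_sum]
    refine Finset.sum_congr rfl fun i _ => ?_
    rw [Pi.smul_apply, smul_eq_mul, mul_smul]
  rw [phi, h1, h2, phi, smul_comm]

/-- `φ(e)` from a form in the class `k e` -/
theorem phi_of_hasCl {F : TwoF X.X} (hs : F.Smooth) {e : Fin N → ℤ} {k : ℤ} (hk : k ≠ 0)
    (hF : U.HasCl F (k • e)) :
    ∃ A : Om1 X.X, phi U e = ((k : ℂ)⁻¹ * i2p) • mk2 F hs + D1 A := by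
  have h1 : ExactTwo (toF (mk2 F hs - cvC U fun i => (((k • e) i : ℤ) : ℂ))) := by
    rw [toF_sub, toF_cvC]
    exact hF
  obtain ⟨A, hA⟩ := exact_iff_D1.1 h1
  have hk' : (k : ℂ) ≠ 0 := by exact_mod_cast hk
  refine ⟨(-((k : ℂ)⁻¹ * i2p)) • A, ?_⟩
  have h2 : (k : ℂ) • phi U e = i2p • (mk2 F hs - D1 A) := by
    rw [← phi_smul, phi, hA, sub_sub_cancel]
  have h3 : phi U e = (k : ℂ)⁻¹ • i2p • (mk2 F hs - D1 A) := by
    rw [← h2, smul_smul, inv_mul_cancel₀ hk', one_smul]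
  rw [h3, map_smul]
  module

/-- classes of forms of type `(1,1)` have period zero -/
theorem sig_of_11 {F : TwoF X.X} (hs : F.Smooth) (h20 : F.f20 = 0) (h02 : F.f02 = 0)
    {e : Fin N → ℤ} {k : ℤ} (hk : k ≠ 0) (hF : U.HasCl F (k • e)) : sig U e = 0 := by
  obtain ⟨g, hg⟩ := exists_isHerm X.X
  obtain ⟨A, hA⟩ := phi_of_hasCl U hs hk hF
  have hε : (calc0 hg).is11 (((k : ℂ)⁻¹ * i2p) • mk2 F hs) := by
    refine Calc.is11.smul _ ?_
    refine Prod.ext (Subtype.ext h20.symm) (Prod.ext rfl (Subtype.ext h02.symm))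
  exact (flat hg U).per_fib (Om := OmL X) (D2_OmL X) rfl hε hA

/-- classes of `(1,1)` forms have period zero -/
theorem sig_of_11' {F : TwoF X.X} (hs : F.Smooth) (h20 : F.f20 = 0) (h02 : F.f02 = 0)
    {e : Fin N → ℤ} (hF : U.HasCl F e) : sig U e = 0 :=
  sig_of_11 U hs h20 h02 one_ne_zero (by rwa [one_smul])

/-- **NEG**, literal form: `F` is a semipositive closed `(1,1)`-form (coefficient matrices), not
identically zero, in the class `k e`, `k ≠ 0`. -/
theorem neg (hS : H02 X) {F : TwoF X.X} (hs : F.Smooth) (hc : F.Closed) (h20 : F.f20 = 0)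
    (h02 : F.f02 = 0) (hp : ∀ x, (F.f11 x).PosSemidef) (hne : ∃ x, F.f11 x ≠ 0)
    {e c : Fin N → ℤ} {k : ℤ} (hk : k ≠ 0) (hF : U.HasCl F (k • e)) (hee : U.B e e = 0)
    (hce : U.B c e = 1) {x : Fin N → ℤ} (hx : U.B x e = 0) (hσ : sig U x = 0) :
    U.B x x ≤ 0 ∧ (U.B x x = 0 → ∃ j : ℤ, x = j • e) := by
  obtain ⟨g, hg⟩ := exists_isHerm X.X
  obtain ⟨A, hA⟩ := phi_of_hasCl U hs hk hF
  have hk' : (k : ℂ) ≠ 0 := by exact_mod_cast hk
  have hc1 : ((k : ℂ)⁻¹ * i2p) ≠ 0 := mul_ne_zero (inv_ne_zero hk') i2p_ne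
  have hε : (calc0 hg).is11 (((k : ℂ)⁻¹ * i2p) • mk2 F hs) := by
    refine Calc.is11.smul _ ?_
    refine Prod.ext (Subtype.ext h20.symm) (Prod.ext rfl (Subtype.ext h02.symm))
  have hmk : C2L (mk2 F hs) = - mk2 F hs := by
    refine Prod.ext (Subtype.ext ?_) (Prod.ext (Subtype.ext ?_) (Subtype.ext ?_))
    · funext y
      change conj (F.f02 y) = - F.f20 y
      rw [h02, h20]; simp
    · funext y
      ext i j
      change - conj (F.f11 y j i) = - F.f11 y i j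
      have h1 := congrFun (congrFun (hp y).1 i) j
      rw [Matrix.conjTranspose_apply] at h1
      rw [← h1]
      rfl
    · funext y
      change conj (F.f20 y) = - F.f02 y
      rw [h02, h20]; simp
  have hεr : (calc0 hg).c2 (((k : ℂ)⁻¹ * i2p) • mk2 F hs) = ((k : ℂ)⁻¹ * i2p) • mk2 F hs := by
    change C2L _ = _
    rw [LinearMap.map_smulₛₗ, hmk, map_mul, map_inv₀, map_intCast, conj_i2p, mul_neg, neg_smul_neg]
  have hεc : (calc0 hg).d2 (((k : ℂ)⁻¹ * i2p) • mk2 F hs) = 0 := by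
    have h1 : D2 (mk2 F hs) = 0 := closed_iff.2 hc
    change D2 _ = 0
    rw [map_smul, h1, smul_zero]
  have hεG : (scal0 hg).G ((calc0 hg).tr (((k : ℂ)⁻¹ * i2p) • mk2 F hs)) ≠ 0 := by
    have h1 : (scal0 hg).G ((calc0 hg).tr (Complex.I • mk2 F hs)) ≠ 0 :=
      gS0_pos hg (F := Complex.I • mk2 F hs) hp (fun y => rfl) hne
    rw [map_smul, map_smul, smul_eq_mul] at h1 ⊢
    exact mul_ne_zero hc1 (right_ne_zero_of_mul h1)
  exact (flat hg U).neg (scal0 hg) (Om := OmL X) (D2_OmL X) rfl (fun b hb h0 => hS.abs hg b hb h0)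
    hε hεr hεc hεG hA hee hce hx hσ

/-- Lefschetz `(1,1)` for lattice elements -/
theorem sig_eq_zero_iff (hS : H02 X) (x : Fin N → ℤ) : sig U x = 0 ↔
    ∃ F : TwoF X.X, F.Smooth ∧ F.Closed ∧ F.Real ∧ F.f20 = 0 ∧ F.f02 = 0 ∧
      ExactTwo (F - i2p • U.comb x) := by
  obtain ⟨g, hg⟩ := exists_isHerm X.X
  have h := (flat hg U).lefschetz (Om := OmL X) (D2_OmL X) rfl (fun b hb h0 => hS.abs hg b hb h0)
    (x := x)
  rw [sig_per] at h
  rw [h]
  constructor
  · rintro ⟨b, hb, h11⟩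
    refine ⟨toF (phi U x - D1 b), toF_smooth _, closed_iff.1 ?_, real_iff.1 ?_, ?_, ?_, ?_⟩
    · rw [map_sub, D2_phi, D2_D1, sub_zero]
    · have hb' : C1L b = b := hb
      rw [map_sub, C2L_phi, ← D1_C, hb']
    · have h1 := congrArg (fun F : Om2 X.X => (F.1 : X.X → ℂ)) h11
      exact h1.symm
    · have h1 := congrArg (fun F : Om2 X.X => (F.2.2 : X.X → ℂ)) h11
      exact h1.symm
    · rw [← toF_phi, ← toF_sub]
      exact exact_iff_D1.2 ⟨-b, by rw [map_neg]; abel⟩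
  · rintro ⟨F, hs, hc, hr, h20, h02, he⟩
    have h1 : ExactTwo (toF (mk2 F hs - phi U x)) := by
      rw [toF_sub, toF_phi]
      exact he
    obtain ⟨A, hA⟩ := exact_iff_D1.1 h1
    -- the real part of `-A`
    have hr' : C2L (mk2 F hs - phi U x) = mk2 F hs - phi U x := by
      rw [map_sub, C2L_phi, real_iff.2 (show (toF (mk2 F hs)).Real from hr)]
    have hA2 : D1 (C1L A) = mk2 F hs - phi U x := by rw [D1_C, hA, hr']
    refine ⟨(-(1 / 2 : ℂ)) • (A + C1L A), ?_, ?_⟩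
    · change C1L _ = _
      rw [LinearMap.map_smulₛₗ, map_add, C1L_C1L, add_comm]
      congr 1
      simp [Complex.conj_ofNat]
    · have h2 : phi U x - D1 ((-(1 / 2 : ℂ)) • (A + C1L A)) = mk2 F hs := by
        rw [map_smul, map_add, hA, hA2]
        module
      change (calc0 hg).is11 (phi U x - D1 ((-(1 / 2 : ℂ)) • (A + C1L A)))
      rw [h2]
      exact Prod.ext (Subtype.ext h20.symm) (Prod.ext rfl (Subtype.ext h02.symm))

/-- **INDEP**, literal form. -/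
theorem indep' (hS : H02 X) {e c : Fin N → ℤ} (hσ : sig U e = 0) (hee : U.B e e = 0)
    (hce : U.B c e = 1) {s t : ℝ}
    (h : ∀ x, U.B x e = 0 → s * (sig U x).re + t * (sig U x).im = 0) : s = 0 ∧ t = 0 := by
  obtain ⟨g, hg⟩ := exists_isHerm X.X
  obtain ⟨b, hb, h11⟩ := ((flat hg U).lefschetz (Om := OmL X) (D2_OmL X) rfl
    (fun b hb h0 => hS.abs hg b hb h0)).1 hσ
  have hcl : (calc0 hg).d2 ((flat hg U).φ e - (calc0 hg).d1 b) = 0 := by
    change D2 (phi U e - D1 b) = 0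
    rw [map_sub, D2_phi, D2_D1, sub_zero]
  exact (flat hg U).indep (Om := OmL X) (D2_OmL X) (D2_C2L X (D2_OmL X)) rfl (OmL_ne X) h11 hcl
    (a := b) (by rw [sub_add_cancel]) hee hce h

/-! ### the same with the normalisation `σ(x) = ∫ Om ∧ comb x` of helper342 -/

theorem sig_eq_pair (x : Fin N → ℤ) : sig U x = i2p * pair ⟨Om X, 0, 0⟩ (U.comb x) := by
  rw [sig_apply, Vale.Agent.P290.H342.pair_comm]

theorem sig_zero_iff_pair (x : Fin N → ℤ) : sig U x = 0 ↔ pair ⟨Om X, 0, 0⟩ (U.comb x) = 0 := by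
  rw [sig_eq_pair, mul_eq_zero, or_iff_right i2p_ne]

/-- **NEG** for `σ(x) = pair Om (comb x)` -/
theorem neg_pair (hS : H02 X) {F : TwoF X.X} (hs : F.Smooth) (hc : F.Closed) (h20 : F.f20 = 0)
    (h02 : F.f02 = 0) (hp : ∀ x, (F.f11 x).PosSemidef) (hne : ∃ x, F.f11 x ≠ 0)
    {e c : Fin N → ℤ} {k : ℤ} (hk : k ≠ 0) (hF : U.HasCl F (k • e)) (hee : U.B e e = 0)
    (hce : U.B c e = 1) {x : Fin N → ℤ} (hx : U.B x e = 0)
    (hσ : pair ⟨Om X, 0, 0⟩ (U.comb x) = 0) :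
    U.B x x ≤ 0 ∧ (U.B x x = 0 → ∃ j : ℤ, x = j • e) :=
  neg U hS hs hc h20 h02 hp hne hk hF hee hce hx ((sig_zero_iff_pair U x).2 hσ)

/-- **INDEP** for `σ(x) = pair Om (comb x)` -/
theorem indep_pair (hS : H02 X) {e c : Fin N → ℤ} (hσ : pair ⟨Om X, 0, 0⟩ (U.comb e) = 0)
    (hee : U.B e e = 0) (hce : U.B c e = 1) {s t : ℝ}
    (h : ∀ x, U.B x e = 0 → s * (pair ⟨Om X, 0, 0⟩ (U.comb x)).re +
      t * (pair ⟨Om X, 0, 0⟩ (U.comb x)).im = 0) : s = 0 ∧ t = 0 := by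
  have hpi : (Real.pi : ℂ) ≠ 0 := by exact_mod_cast Real.pi_ne_zero
  have key : ∀ x, pair ⟨Om X, 0, 0⟩ (U.comb x) = -((2 * Real.pi : ℝ) * Complex.I) * sig U x := by
    intro x
    rw [sig_eq_pair, i2p]
    push_cast
    field_simp
    rw [Complex.I_sq]
    ring
  have h1 := indep' U hS ((sig_zero_iff_pair U e).2 hσ) hee hce (s := -t) (t := s) (fun x hx => by
    have h2 := h x hx
    rw [key x] at h2
    simp only [Complex.mul_re, Complex.mul_im, Complex.neg_re, Complex.neg_im, Complex.ofReal_re,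
      Complex.ofReal_im, Complex.I_re, Complex.I_im] at h2
    have h3 : (2 * Real.pi) * (-t * (sig U x).re + s * (sig U x).im) = 0 := by
      linear_combination h2
    exact (mul_eq_zero.1 h3).resolve_left (by positivity))
  exact ⟨h1.2, neg_eq_zero.1 h1.1⟩

end K3

end Vale.Agent.P290Z.W.H416
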