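import Vale.Agent.P290Z.W.KurSpec
import Vale.Agent.P290Z.K.InvP

/-!
# P290Z, part III (K): the family defined by the coordinates, over `W.K3`
-/

set_option linter.unusedSectionVars false

open scoped Manifold ContDiff Topology
open Set Filter

noncomputable section

namespace Vale.Agent.P290Z.W.Kur

open Vale.Agent.P290Z.Kur
open Vale.Agent.P290 Vale.Agent.P267 Vale.Agent.P290.H686 Vale.Agent.P290.H722
open Vale.Agent.P290.H805
open Vale.Agent.P290.H445 (φ toFL)
open Vale.Agent.P267.FL (TwoF)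

namespace Asm

section gen

variable {X : Type} [TopologicalSpace X] [ChartedSpace FL.C2 X] [IsManifold 𝓘(ℂ, FL.C2) ω X]

/-- at `x` the form `F` is `g dz ∧ dw` in the coordinates `κ` -/
structure Ad (F : TwoF X) (κ : OpenPartialHomeomorph X CC) (g : ℂ) (x : X) : Prop where
  mem : x ∈ κ.source
  ne : g ≠ 0
  ex : ∃ e ∈ atlas FL.C2 X, x ∈ e.source ∧ DifferentiableAt ℝ (fun z => κ (e.symm z)) (e x) ∧
    DifferentiableAt ℝ (fun w => e (κ.symm w)) (κ x) ∧ ∀ u v, E2 e F (e x) u v =
      g * dt (fderiv ℝ (fun z => κ (e.symm z)) (e x) u) (fderiv ℝ (fun z => κ (e.symm z)) (e x) v)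

theorem Ad.trans {F : TwoF X} {κ κ' : OpenPartialHomeomorph X CC} {g g' : ℂ} {x : X}
    (h : Ad F κ g x) (h' : Ad F κ' g' x) :
    DifferentiableAt ℂ (fun w => κ' (κ.symm w)) (κ x) ∧
      g = g' * (fderiv ℂ (fun w => κ' (κ.symm w)) (κ x)).det := by
  obtain ⟨e, he, hx, a1, a2, a3⟩ := h.ex
  obtain ⟨e', he', hx', b1, -, b3⟩ := h'.ex
  set A := fderiv ℝ (fun z => κ (e.symm z)) (e x) with hA
  set B := fderiv ℝ (fun w => e (κ.symm w)) (κ x) with hB
  set A' := fderiv ℝ (fun z => κ' (e'.symm z)) (e' x) with hA'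
  set D := fderiv ℝ (fun z => e' (e.symm z)) (e x) with hD
  have c0 : κ.symm (κ x) = x := κ.left_inv h.mem
  have c1 : Tendsto κ.symm (𝓝 (κ x)) (𝓝 x) := by
    have c2 := (κ.continuousAt_symm (κ.map_source h.mem)).tendsto
    rwa [c0] at c2
  have d1 : DifferentiableAt ℝ (fun z => e' (e.symm z)) (e x) :=
    (trans_contDiffAt he he' hx hx' (n := 1)).differentiableAt (by simp)
  have h1 : HasFDerivAt (fun w => κ' (κ.symm w)) (A'.comp (D.comp B)) (κ x) := by
    have h2 := HasFDerivAt.comp (κ x) (g := fun z => e' (e.symm z)) (f := fun w => e (κ.symm w))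
      (by rw [c0]; exact d1.hasFDerivAt) a2.hasFDerivAt
    have h3 := HasFDerivAt.comp (κ x) (g := fun z => κ' (e'.symm z)) (g' := A') (by
      simp only [Function.comp, c0, e.left_inv hx]
      exact b1.hasFDerivAt) h2
    refine h3.congr_of_eventuallyEq ?_
    filter_upwards [c1.eventually (e.open_source.mem_nhds hx),
      c1.eventually (e'.open_source.mem_nhds hx')] with w h4 h5
    simp only [Function.comp, e.left_inv h4, e'.left_inv h5]
  have h2 : ∀ a, A (B a) = a := by
    have h3 := HasFDerivAt.comp (κ x) (g := fun z => κ (e.symm z)) (f := fun w => e (κ.symm w))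
      (by rw [c0]; exact a1.hasFDerivAt) a2.hasFDerivAt
    have h4 : HasFDerivAt id (A.comp B) (κ x) := by
      refine h3.congr_of_eventuallyEq ?_
      filter_upwards [c1.eventually (e.open_source.mem_nhds hx),
        κ.open_target.mem_nhds (κ.map_source h.mem)] with w h4 h5
      simp only [Function.comp, e.left_inv h4, κ.right_inv h5, id]
    intro a
    exact congrArg (fun M : CC →L[ℝ] CC => M a) (h4.unique (hasFDerivAt_id _))
  have h3 : ∀ a b, dt (A'.comp (D.comp B) a) (A'.comp (D.comp B) b) = g / g' * dt a b := by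
    intro a b
    have h4 := a3 (B a) (B b)
    rw [h2, h2, E2_change he he' F hx hx', ContinuousLinearMap.bilinearComp_apply, b3] at h4
    rw [div_mul_eq_mul_div, eq_div_iff h'.ne, ← h4, mul_comm]
    rfl
  have h4 : Function.Injective (A'.comp (D.comp B)) := by
    rw [injective_iff_map_eq_zero]
    intro a ha
    have h5 : ∀ b, dt a b = 0 := fun b => by
      have h6 := h3 a b
      rw [ha] at h6
      simp only [dt, Prod.fst_zero, Prod.snd_zero, zero_mul, sub_self] at h6
      exact (mul_eq_zero.1 h6.symm).resolve_left (div_ne_zero h.ne h'.ne)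
    have h6 := h5 (0, 1)
    have h7 := h5 (1, 0)
    simp only [dt, mul_one, mul_zero, sub_zero, zero_sub, neg_eq_zero] at h6 h7
    exact Prod.ext h6 h7
  obtain ⟨L, h5, h6, -⟩ := lin _ _ ((LinearMap.injective_iff_surjective
    (f := (A'.comp (D.comp B) : CC →ₗ[ℝ] CC))).1 h4) h3
  have h7 : HasFDerivAt (fun w => κ' (κ.symm w)) L (κ x) :=
    hasFDerivAt_of_restrictScalars ℝ h1 (ContinuousLinearMap.ext h5)
  refine ⟨h7.differentiableAt, ?_⟩
  rw [h7.fderiv, h6, mul_div_cancel₀ _ h'.ne]

theorem eq_of_E2 {F G : TwoF X}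
    (h : ∀ x, ∃ e ∈ atlas FL.C2 X, x ∈ e.source ∧ E2 e F (e x) = E2 e G (e x)) : F = G := by
  refine val2_inj fun x => ?_
  obtain ⟨e, he, hx, h1⟩ := h x
  rw [val2_eq_E2, val2_eq_E2,
    E2_change (chart_mem_atlas FL.C2 x) he F (mem_chart_source _ x) hx,
    E2_change (chart_mem_atlas FL.C2 x) he G (mem_chart_source _ x) hx, h1]

end gen

theorem E2_omF (X : K3) {e : OpenPartialHomeomorph X.X CC} (he : e ∈ atlas CC X.X) {x : X.X}
    (hx : x ∈ e.source) (u v : FL.C2) :
    E2 (toFL e) (omF X) (toFL e x) u v = X.vol e (e x) * dt (φ.symm u) (φ.symm v) := by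
  have h1 := H445.loc_Om X he ((toFL e).map_source hx)
  rw [H686.E2, ev2_apply]
  change FL.loc0 1 (toFL e) (H445.Om X) (toFL e x) * _ + _ + _ = _
  rw [h1]
  simp [omF, FL.loc11, FL.loc2, dt]

/-- `φ` as a real linear map -/
def φR : CC →L[ℝ] FL.C2 := (φ : CC →L[ℂ] FL.C2).restrictScalars ℝ

/-- the inverse of `φ` as a real linear map -/
def φR' : FL.C2 →L[ℝ] CC := (φ.symm : FL.C2 →L[ℂ] CC).restrictScalars ℝ

theorem ad_atlas (X : K3) {e : OpenPartialHomeomorph X.X CC} (he : e ∈ atlas CC X.X) {x : X.X}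
    (hx : x ∈ e.source) : Ad (omF X) e (X.vol e (e x)) x := by
  have h1 : HasFDerivAt (fun z => e ((toFL e).symm z)) φR' (toFL e x) := by
    refine φR'.hasFDerivAt.congr_of_eventuallyEq ?_
    filter_upwards [(toFL e).open_target.mem_nhds ((toFL e).map_source hx)] with z hz
    exact e.right_inv hz
  have h2 : HasFDerivAt (fun w => toFL e (e.symm w)) φR (e x) := by
    refine φR.hasFDerivAt.congr_of_eventuallyEq ?_
    filter_upwards [e.open_target.mem_nhds (e.map_source hx)] with z hz
    exact congrArg φ (e.right_inv hz)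
  refine ⟨hx, ((X.holo e he).2 _ (e.map_source hx)).1, toFL e, H445.mem_atlas_toFL X he, hx,
    h1.differentiableAt, h2.differentiableAt, fun u v => ?_⟩
  rw [h1.fderiv]
  exact E2_omF X he hx u v

variable {X : K3} {V : Type} [NormedAddCommGroup V] [NormedSpace ℝ V] {sig : V → TwoF X.X}
  {T₀ : Set V} (C : NNChart X sig T₀)

theorem H_eq {q : V × FL.C2} (h : q ∈ C.H.source) : (q.1, (C.H q).2) = C.H q :=
  Prod.ext (C.src q h).2.1.symm rfl

theorem H_symm {r : V × CC} (h : r ∈ C.H.target) : (r.1, (C.H.symm r).2) = C.H.symm r := by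
  refine Prod.ext ?_ rfl
  have h1 := (C.src _ (C.H.map_target h)).2.1
  rw [C.H.right_inv h] at h1
  exact h1

theorem symm_mem {r : V × CC} (h : r ∈ C.H.target) : (C.H.symm r).2 ∈ C.e.target :=
  (C.src _ (C.H.map_target h)).1

/-- the chart of the total space over a space `S` of parameters -/
def chart {S : Type} [TopologicalSpace S] (i : S → V) (hi : Continuous i) :
    OpenPartialHomeomorph (S × X.X) (S × CC) where
  toFun a := (a.1, (C.H (i a.1, C.e a.2)).2)
  invFun r := (r.1, C.e.symm (C.H.symm (i r.1, r.2)).2)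
  source := {a | a.2 ∈ C.e.source ∧ (i a.1, C.e a.2) ∈ C.H.source}
  target := {r | (i r.1, r.2) ∈ C.H.target}
  map_source' a ha := by
    show (i a.1, (C.H (i a.1, C.e a.2)).2) ∈ C.H.target
    rw [H_eq C ha.2]
    exact C.H.map_source ha.2
  map_target' r hr := by
    refine ⟨C.e.map_target (symm_mem C hr), ?_⟩
    show (i r.1, C.e (C.e.symm (C.H.symm (i r.1, r.2)).2)) ∈ C.H.source
    rw [C.e.right_inv (symm_mem C hr), H_symm C hr]
    exact C.H.map_target hr
  left_inv' a ha := by
    refine Prod.ext rfl ?_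
    show C.e.symm (C.H.symm (i a.1, (C.H (i a.1, C.e a.2)).2)).2 = a.2
    rw [H_eq C ha.2, C.H.left_inv ha.2, C.e.left_inv ha.1]
  right_inv' r hr := by
    refine Prod.ext rfl ?_
    show (C.H (i r.1, C.e (C.e.symm (C.H.symm (i r.1, r.2)).2))).2 = r.2
    rw [C.e.right_inv (symm_mem C hr), H_symm C hr, C.H.right_inv hr]
  open_source := by
    have h1 : ContinuousOn (fun a : S × X.X => (i a.1, C.e a.2)) (Prod.snd ⁻¹' C.e.source) :=
      (hi.comp continuous_fst).continuousOn.prodMk
        (C.e.continuousOn.comp continuous_snd.continuousOn fun a ha => ha)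
    exact h1.isOpen_inter_preimage (C.e.open_source.preimage continuous_snd) C.H.open_source
  open_target := C.H.open_target.preimage ((hi.comp continuous_fst).prodMk continuous_snd)
  continuousOn_toFun := by
    refine continuous_fst.continuousOn.prodMk (continuous_snd.comp_continuousOn
      (C.H.continuousOn.comp ((hi.comp continuous_fst).continuousOn.prodMk
        (C.e.continuousOn.comp continuous_snd.continuousOn fun a ha => ha.1)) fun a ha => ha.2))
  continuousOn_invFun := by
    refine continuous_fst.continuousOn.prodMk (C.e.continuousOn_symm.comp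
      (continuous_snd.comp_continuousOn (C.H.continuousOn_symm.comp
        ((hi.comp continuous_fst).prodMk continuous_snd).continuousOn fun r hr => hr))
      fun r hr => symm_mem C hr)

/-- the chart of the member over `t` -/
def sl (t : V) : OpenPartialHomeomorph X.X CC where
  toFun x := (C.H (t, C.e x)).2
  invFun w := C.e.symm (C.H.symm (t, w)).2
  source := {x | (t, x) ∈ (chart C id continuous_id).source}
  target := {w | (t, w) ∈ C.H.target}
  map_source' x hx := (chart C id continuous_id).map_source hx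
  map_target' w hw := (chart C id continuous_id).map_target (x := (t, w)) hw
  left_inv' x hx := congrArg Prod.snd ((chart C id continuous_id).left_inv hx)
  right_inv' w hw := congrArg Prod.snd ((chart C id continuous_id).right_inv (x := (t, w)) hw)
  open_source := (chart C id continuous_id).open_source.preimage (Continuous.prodMk_right t)
  open_target := C.H.open_target.preimage (Continuous.prodMk_right t)
  continuousOn_toFun := continuous_snd.comp_continuousOn
    (f := fun x => chart C id continuous_id (t, x))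
    ((chart C id continuous_id).continuousOn.comp (Continuous.prodMk_right t).continuousOn
      fun _ hx => hx)
  continuousOn_invFun := continuous_snd.comp_continuousOn
    ((chart C id continuous_id).continuousOn_symm.comp (Continuous.prodMk_right t).continuousOn
      fun _ hx => hx)

theorem sl_ev {t : V} {x : X.X} (hx : x ∈ (sl C t).source) :
    (fun z => sl C t (C.e.symm z)) =ᶠ[𝓝 (C.e x)] fun z => (C.H (t, z)).2 := by
  filter_upwards [C.e.open_target.mem_nhds (C.e.map_source hx.1)] with z hz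
  show (C.H (t, C.e (C.e.symm z))).2 = _
  rw [C.e.right_inv hz]

theorem ad_sl {t : V} (ht : t ∈ T₀) {x : X.X} (hx : x ∈ (sl C t).source) :
    Ad (sig t) (sl C t) (C.g (t, sl C t x)) x := by
  have h0 : (t, sl C t x) ∈ C.H.target := (sl C t).map_source hx
  obtain ⟨-, -, a1, -, a2⟩ := C.src _ hx.2
  have h1 := sl_ev C hx
  refine ⟨hx, (C.tgt _ h0).2.2.1, C.e, C.mem, hx.1,
    ((InvP.slice a1.snd).differentiableAt (by simp)).congr_of_eventuallyEq h1,
    ((InvP.slice (C.tgt _ h0).1.snd).differentiableAt (by simp)).congr_of_eventuallyEq ?_,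
    fun u v => ?_⟩
  · filter_upwards [(sl C t).open_target.mem_nhds ((sl C t).map_source hx)] with w hw
    exact C.e.right_inv (symm_mem C hw)
  · rw [h1.fderiv_eq]
    have h2 := a2 ht u v
    rw [← H_eq C hx.2] at h2
    exact h2

theorem sm1 {t : V} {x : X.X} (hx : x ∈ (sl C t).source) {e : FL.Ch X.X}
    (he : e ∈ atlas FL.C2 X.X) (hxe : x ∈ e.source) : ∀ᶠ q in 𝓝 (t, e x),
      ContDiffAt ℝ ∞ (fun q : V × FL.C2 => sl C q.1 (e.symm q.2)) q := by
  have h1 : ContinuousAt (fun q : V × FL.C2 => (q.1, e.symm q.2)) (t, e x) :=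
    continuousAt_fst.prodMk (ContinuousAt.comp (g := e.symm)
      (e.continuousAt_symm (e.map_source hxe)) continuousAt_snd)
  have h2 : ∀ᶠ q : V × FL.C2 in 𝓝 (t, e x),
      (q.1, e.symm q.2) ∈ (chart C id continuous_id).source := by
    refine h1.eventually ((chart C id continuous_id).open_source.mem_nhds ?_)
    show (t, e.symm (e x)) ∈ _
    rw [e.left_inv hxe]
    exact hx
  filter_upwards [h2, continuousAt_snd.eventually (e.open_target.mem_nhds (e.map_source hxe))]
    with q h3 h4
  have h5 := trans_contDiffAt he C.mem (e.map_target h4) h3.1 (n := ∞)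
  rw [e.right_inv h4] at h5
  exact (ContDiffAt.comp (g := C.H) q (C.src _ h3.2).2.2.1 (contDiffAt_fst.prodMk
    (ContDiffAt.comp (g := fun z => C.e (e.symm z)) q h5 contDiffAt_snd))).snd

theorem sm2 {t : V} {x : X.X} (hx : x ∈ (sl C t).source) {e : FL.Ch X.X}
    (he : e ∈ atlas FL.C2 X.X) (hxe : x ∈ e.source) : ∀ᶠ r in 𝓝 (t, sl C t x),
      ContDiffAt ℝ ∞ (fun r : V × CC => e ((sl C r.1).symm r.2)) r := by
  have h0 : (t, sl C t x) ∈ (chart C id continuous_id).target := (sl C t).map_source hx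
  have h1 : ContinuousAt (fun r : V × CC => ((chart C id continuous_id).symm r).2) (t, sl C t x) :=
    ((chart C id continuous_id).continuousAt_symm h0).snd
  have h2 : ∀ᶠ r : V × CC in 𝓝 (t, sl C t x),
      ((chart C id continuous_id).symm r).2 ∈ e.source := by
    refine h1.eventually (e.open_source.mem_nhds ?_)
    show (sl C t).symm (sl C t x) ∈ _
    rw [(sl C t).left_inv hx]
    exact hxe
  filter_upwards [h2, C.H.open_target.mem_nhds h0] with r h3 h4
  have h5 := trans_contDiffAt C.mem he (C.e.map_target (symm_mem C h4)) h3 (n := ∞)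
  rw [C.e.right_inv (symm_mem C h4)] at h5
  exact ContDiffAt.comp (g := fun z => e (C.e.symm z)) r h5 (C.tgt _ h4).1.snd

section fam

variable {T : Set V} (hT : T ⊆ T₀) (c : T × X.X → NNChart X sig T₀)
  (hc : ∀ a, a.2 ∈ (sl (c a) a.1).source)

include hT in
theorem trans_hol (C C' : NNChart X sig T₀) (t : T) {w : CC} (h : w ∈ (sl C t).target)
    (h' : (sl C t).symm w ∈ (sl C' t).source) :
    DifferentiableAt ℂ (fun u => sl C' t ((sl C t).symm u)) w ∧
      C.g (t, w) = C'.g (t, sl C' t ((sl C t).symm w)) *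
        (fderiv ℂ (fun u => sl C' t ((sl C t).symm u)) w).det := by
  have h1 := (ad_sl C (hT t.2) ((sl C t).map_target h)).trans (ad_sl C' (hT t.2) h')
  rwa [(sl C t).right_inv h] at h1

/-- the family -/
def pre : MPre X T where
  F :=
    { p := Prod.fst
      triv a := chart (c a) Subtype.val continuous_subtype_val
      mem a := hc a
      fst _ _ _ := rfl
      hol a a' t v h h' := by
        have h1 : IsOpen ((sl (c a) t).target ∩ (sl (c a) t).symm ⁻¹' (sl (c a') t).source) :=
          (sl (c a) t).continuousOn_symm.isOpen_inter_preimage (sl (c a) t).open_target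
            (sl (c a') t).open_source
        exact (P268.analyticAt_of_differentiableOn h1 (fun w hw =>
          (trans_hol hT _ _ t hw.1 hw.2).1.differentiableWithinAt) ⟨h, h'⟩).contDiffAt }
  p_eq _ := rfl
  vol a r := (c a).g (r.1, r.2)
  rel a t w h := by
    obtain ⟨-, a1, a2, a3⟩ := (c a).tgt _ h
    refine ⟨ContinuousAt.comp (g := (c a).g) a1.continuousAt (by fun_prop), a3 (hT t.2), a2,
      fun a' h' => (trans_hol hT _ _ t h h').2⟩

theorem isSm (t : T) : IsSm ((pre hT c hc).homeo t) := by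
  refine ⟨((pre hT c hc).homeo t).continuous, ?_⟩
  rintro e he _ ⟨_, ⟨y, rfl⟩, rfl⟩ x hx hx'
  exact φR.contDiff.contDiffAt.comp (e x)
    (InvP.slice (sm1 (c y.val) (t := t) hx' he hx).self_of_nhds)

theorem symm_ev (t : T) (y : Fib (pre hT c hc).F t) {w : CC} (h : w ∈ (sl (c y.val) t).target) :
    ((pre hT c hc).homeo t).symm ((fibChart _ t y).symm w) = (sl (c y.val) t).symm w :=
  congrArg Prod.snd (fibChart_symm_val _ t y h)

theorem isSm' (t : T) : IsSm ((pre hT c hc).homeo t).symm := by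
  refine ⟨((pre hT c hc).homeo t).symm.continuous, ?_⟩
  rintro _ ⟨_, ⟨y, rfl⟩, rfl⟩ e he y' hy hx
  obtain ⟨x, rfl⟩ := ((pre hT c hc).homeo t).surjective y'
  have hx' : x ∈ e.source := hx
  have h0 : x ∈ (sl (c y.val) t).source := hy
  have h1 := InvP.slice (sm2 (c y.val) (t := t) h0 he hx').self_of_nhds
  have h2 : ContDiffAt ℝ ∞ (fun z => e ((sl (c y.val) t).symm (φR' z))) (φ (sl (c y.val) t x)) :=
    ContDiffAt.comp (g := fun w => e ((sl (c y.val) t).symm w)) _ h1 φR'.contDiff.contDiffAt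
  refine h2.congr_of_eventuallyEq ?_
  filter_upwards [(toFL (fibChart _ t y)).open_target.mem_nhds
    ((toFL (fibChart _ t y)).map_source hy)] with z hz
  exact congrArg e (symm_ev hT c hc t y hz)

theorem rep_ev (t : T) (x : X.X) :
    rep ((pre hT c hc).homeo t) (c (t, x)).e (chartAt FL.C2 ((pre hT c hc).homeo t x))
      =ᶠ[𝓝 ((c (t, x)).e x)] fun z => φ ((c (t, x)).H (t, z)).2 := by
  filter_upwards [sl_ev (c (t, x)) (hc (t, x))] with z hz
  exact congrArg φ hz

theorem diffeo (t : T) : IsDiffeo ((pre hT c hc).homeo t) := by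
  refine ⟨isSm hT c hc t, isSm' hT c hc t, fun x => ?_⟩
  refine det_Df_pos (isSm hT c hc t) (c (t, x)).mem (chart_mem_atlas FL.C2 _) (hc (t, x)).1
    (mem_chart_source _ _) ?_
  rw [(rep_ev hT c hc t x).fderiv_eq]
  exact ((c (t, x)).src _ (hc (t, x)).2).2.2.2.1

theorem sig_eq (t : T) : sig t = pb2 ((pre hT c hc).homeo t) (omF ((pre hT c hc).k3 t)) := by
  refine eq_of_E2 fun x => ⟨(c (t, x)).e, (c (t, x)).mem, (hc (t, x)).1, ?_⟩
  obtain ⟨-, -, a1, -, a2⟩ := (c (t, x)).src _ (hc (t, x)).2
  have h1 : HasFDerivAt (fun z => φ ((c (t, x)).H (t, z)).2)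
      (φR.comp (Dv (fun q => ((c (t, x)).H q).2) (t, (c (t, x)).e x))) ((c (t, x)).e x) :=
    φR.hasFDerivAt.comp _ ((InvP.slice a1.snd).differentiableAt (by simp)).hasFDerivAt
  ext u v
  rw [E2_pb2 (isSm hT c hc t) _ (c (t, x)).mem (chart_mem_atlas FL.C2 _) (hc (t, x)).1
    (mem_chart_source _ _), (rep_ev hT c hc t x).fderiv_eq, h1.fderiv,
    ContinuousLinearMap.bilinearComp_apply, H445.chartAt_FL,
    E2_omF _ (chart_mem_atlas CC _) (mem_chart_source _ _)]
  have h2 := a2 (hT t.2) u v
  rw [← H_eq _ (hc (t, x)).2] at h2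
  refine h2.trans ?_
  congr 1
  exact ((pre hT c hc).fvol_eq t ((pre hT c hc).homeo t x) (mem_chart_target CC _)).symm

end fam

end Asm

open Asm

theorem asm : StAsm := by
  intro X V _ _ _ sig N T₀ v₀ hNo hv hv₀ hs h0 hC
  have h1 : ∀ᶠ t in 𝓝 v₀, ∀ x ∈ (univ : Set X.X),
      ∃ C : NNChart X sig T₀, x ∈ (sl C t).source := by
    refine isCompact_univ.eventually_forall_of_forall_eventually fun x _ => ?_
    obtain ⟨C, h2⟩ := hC x
    filter_upwards [(chart C id continuous_id).open_source.mem_nhds (x := (v₀, x)) h2] with q hq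
    exact ⟨C, hq⟩
  obtain ⟨r, hr, h2⟩ := Metric.eventually_nhds_iff.1 (h1.and (hNo.mem_nhds hv))
  have h3 : ∀ a : {t | t ∈ T₀ ∧ ‖t - v₀‖ < r} × X.X,
      ∃ C : NNChart X sig T₀, a.2 ∈ (sl C a.1).source := fun a =>
    (h2 (by rw [dist_eq_norm]; exact a.1.2.2)).1 a.2 (mem_univ _)
  choose c hc using h3
  have hT : {t | t ∈ T₀ ∧ ‖t - v₀‖ < r} ⊆ T₀ := fun t ht => ht.1
  have h₀ : v₀ ∈ {t | t ∈ T₀ ∧ ‖t - v₀‖ < r} := ⟨hv₀, by simpa using hr⟩
  refine ⟨r, hr,
    { toMPre := pre hT c hc
      sm := fun a t x h e he hx => ⟨_, sm1 (c a) (t := t) h he hx,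
        Eventually.of_forall fun _ => rfl⟩
      sm' := fun a t x h e he hx => ⟨_, sm2 (c a) (t := t) h he hx,
        Eventually.of_forall fun _ => rfl⟩
      diffeo := diffeo hT c hc
      sig := sig
      N := N
      isOpen := hNo
      sub := fun t ht => (h2 (by rw [dist_eq_norm]; exact ht.2)).2
      smFam := hs
      sig_eq := sig_eq hT c hc }, h₀, rfl, rfl, fun x => ?_, fun y => ?_⟩
  · have h4 := ad_sl _ hv₀ (hc (⟨v₀, h₀⟩, x))
    rw [h0] at h4
    exact ⟨(Homeomorph.continuous _).continuousAt,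
      ((ad_atlas X (chart_mem_atlas CC x) (mem_chart_source _ x)).trans h4).1⟩
  · obtain ⟨x, rfl⟩ := ((pre hT c hc).homeo ⟨v₀, h₀⟩).surjective y
    have h4 := ad_sl _ hv₀ (hc (⟨v₀, h₀⟩, x))
    rw [h0] at h4
    refine ⟨(Homeomorph.continuous _).continuousAt, (h4.trans (ad_atlas X (chart_mem_atlas CC x)
      (mem_chart_source _ x))).1.congr_of_eventuallyEq ?_⟩
    filter_upwards [(sl _ v₀).open_target.mem_nhds ((sl _ v₀).map_source h4.mem)] with w hw
    exact congrArg (chartAt CC x) (symm_ev hT c hc ⟨v₀, h₀⟩ _ hw)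

end Vale.Agent.P290Z.W.Kur
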