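import Vale.Agent.P290Z.W.KurSpec
import Vale.Agent.P290Z.K.Kur.A

/-!
# P290Z, part III (K): a family with prescribed classes of the two-forms, over `W.K3`
-/

open scoped Manifold ContDiff Topology
open Set Filter

noncomputable section

namespace Vale.Agent.P290Z.W.Kur

open Vale.Agent.P290Z.Kur
open Vale.Agent.P267 Vale.Agent.P267.BlockC Vale.Agent.P290 Vale.Agent.P290.H342
open Vale.Agent.P290.H722 Vale.Agent.P267.H332
open Vale.Agent.P267.FL

theorem omF_smooth (X : K3) : (omF X).Smooth := by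
  refine ⟨H445.Reg0_Om X, fun e he i j => ?_, fun e he => ?_⟩
  · have : (fun z => loc11 e (0 : X.X → Matrix (Fin 2) (Fin 2) ℂ) z i j) = fun _ => 0 := by
      funext z
      simp [loc11]
    change ContDiffOn ℝ ∞ (fun z => loc11 e (0 : X.X → Matrix (Fin 2) (Fin 2) ℂ) z i j) _
    rw [this]
    exact contDiffOn_const
  · have : loc2 0 e (0 : X.X → ℂ) = fun _ => 0 := by
      funext z
      simp [loc2]
    change ContDiffOn ℝ ∞ (loc2 0 e (0 : X.X → ℂ)) _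
    rw [this]
    exact contDiffOn_const

theorem omF_closed (X : K3) : (omF X).Closed := by
  have h11 : ∀ (x : X.X) (i j : Fin 2), (fun z => loc11 (chartAt FL.C2 x)
      (0 : X.X → Matrix (Fin 2) (Fin 2) ℂ) z i j) = fun _ => 0 := by
    intro x i j
    funext z
    simp [loc11]
  have h02 : ∀ x : X.X, loc2 0 (chartAt FL.C2 x) (0 : X.X → ℂ) = fun _ => 0 := by
    intro x
    funext z
    simp [loc2]
  have hd : ∀ x j, dbar0 1 (H445.Om X) x j = 0 := by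
    intro x j
    have h1 := H445.HolOn_Om X _ (chart_mem_atlas FL.C2 x)
    rw [preimage_univ, inter_univ] at h1
    exact dzb_of_hol
      (h1.differentiableAt ((chartAt FL.C2 x).open_target.mem_nhds (mem_chart_target _ x))) j
  refine ⟨fun x j => ?_, fun x i => ?_⟩
  · change dbar0 1 (H445.Om X) x j + (dz 0 (fun z => loc11 (chartAt FL.C2 x)
      (0 : X.X → Matrix (Fin 2) (Fin 2) ℂ) z 1 j) (chartAt FL.C2 x x) -
      dz 1 (fun z => loc11 (chartAt FL.C2 x)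
      (0 : X.X → Matrix (Fin 2) (Fin 2) ℂ) z 0 j) (chartAt FL.C2 x x)) = 0
    rw [h11, h11, hd]
    simp [dz_const]
  · change dz i (loc2 0 (chartAt FL.C2 x) (0 : X.X → ℂ)) (chartAt FL.C2 x x) -
      (dzb 0 (fun z => loc11 (chartAt FL.C2 x)
        (0 : X.X → Matrix (Fin 2) (Fin 2) ℂ) z i 1) (chartAt FL.C2 x x) -
      dzb 1 (fun z => loc11 (chartAt FL.C2 x)
        (0 : X.X → Matrix (Fin 2) (Fin 2) ℂ) z i 0) (chartAt FL.C2 x x)) = 0
    rw [h11, h11, h02]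
    simp [dz_const, dzb_const]

theorem omF_mem (X : K3) : omF X ∈ HC X.X := mem_HC_iff.2 ⟨omF_smooth X, omF_closed X⟩

/-- the general step, with all conclusions -/
theorem kurGen' (hS : StSig) (hC : StChart) (hA : StAsm) (X : K3) (P : TwoF X.X)
    (h : X.X → Matrix (Fin 2) (Fin 2) ℂ) (hP : P.Smooth) (hPc : P.Closed) (hh : IsHerm h)
    (hP11 : P.f11 = fun y => Complex.I • h y) (V : Type) [NormedAddCommGroup V] [NormedSpace ℝ V]
    [FiniteDimensional ℝ V] (η : V → TwoF X.X) (hη : SmFam η univ) (h00 : η 0 = 0)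
    (hηc : ∀ t, (η t).Closed) (T₀ : Set V) (hT : 0 ∈ T₀)
    (hp : ∀ t ∈ T₀, pair (omF X + η t) (omF X + η t) = 0) :
    ∃ r > (0 : ℝ), ∃ (M : MFam X V {t | t ∈ T₀ ∧ ‖t - 0‖ < r})
      (h₀ : (0 : V) ∈ {t | t ∈ T₀ ∧ ‖t - 0‖ < r}),
      (∀ t ∈ M.N, (M.sig t).Closed ∧ ExactTwo (M.sig t - (omF X + η t))) ∧ M.sig 0 = omF X ∧
      (∀ x, All.Hol (M.homeo ⟨0, h₀⟩) x) ∧ ∀ y, All.Hol (M.homeo ⟨0, h₀⟩).symm y := by
  obtain ⟨N, A, c, hNo, hN0, hAs, hAf, hA0, hsq⟩ := hS X P h hh hP hPc hP11 V η hη h00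
  set sig : V → TwoF X.X := fun s => omF X + η s + (A s).d with hsig
  have hm : ∀ s, omF X + η s ∈ HC X.X := fun s =>
    (HC X.X).add_mem (omF_mem X) (mem_HC_iff.2 ⟨hη.smooth (mem_univ s), hηc s⟩)
  have hex : ∀ s ∈ N, ExactTwo (sig s - (omF X + η s)) := fun s hs =>
    ⟨A s, hAs s hs, (add_sub_cancel_left _ _).symm⟩
  have hm' : ∀ s ∈ N, sig s ∈ HC X.X := fun s hs =>
    (HC X.X).add_mem (hm s) (KA.exact_mem ⟨_, hAs s hs, rfl⟩)
  have hsm : SmFam sig N :=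
    KA.smFam_add (KA.smFam_add (KA.smFam_const (omF_smooth X)) (hη.mono (subset_univ N))) hAf
  have hsig0 : sig 0 = omF X := by
    show omF X + η 0 + (A 0).d = omF X
    rw [h00, hA0, add_zero, add_zero]
  have hcl : ∀ s ∈ N, (sig s).Closed := fun s hs => (hm' s hs).2.1
  have hnull : ∀ s ∈ N, s ∈ T₀ → ∀ x, (sig s).wedge (sig s) x = 0 := by
    intro s hs hb x
    have h1 : pair (sig s) (sig s) = 0 := by
      rw [KA.pair_congr (hm s) (hex s hs) (hm' s hs), H342.pair_comm,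
        KA.pair_congr (hm s) (hex s hs) (hm s), hp s hb]
    have h2 : c s = 0 := KA.eq_zero_of_pair (hm' s hs).1 hh (hsq _ hs) h1
    have h3 := hsq _ hs x
    rw [h2, zero_mul] at h3
    exact h3
  obtain ⟨r, hr, M, h₀, hM1, hM2, hM3, hM4⟩ := hA X V sig N T₀ 0 hNo hN0 hT hsm hsig0
    (hC X V sig N T₀ 0 hNo hN0 hsm hcl hsig0 hnull)
  refine ⟨r, hr, M, h₀, ?_, ?_, hM3, hM4⟩
  · rw [hM1, hM2]
    exact fun s hs => ⟨hcl s hs, hex s hs⟩
  · rw [hM1]
    exact hsig0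

/-- the general step (`Lat.StKur0`) -/
theorem kurGen (hS : StSig) (hC : StChart) (hA : StAsm) :
    ∀ (X : K3) (P : TwoF X.X) (h : X.X → Matrix (Fin 2) (Fin 2) ℂ), P.Smooth → P.Closed →
    IsHerm h → (P.f11 = fun y => Complex.I • h y) →
    ∀ (V : Type) [NormedAddCommGroup V] [NormedSpace ℝ V] [FiniteDimensional ℝ V]
      (η : V → TwoF X.X), H722.SmFam η univ → η 0 = 0 → (∀ t, (η t).Closed) →
      ∀ T₀ : Set V, 0 ∈ T₀ → (∀ t ∈ T₀, pair (omF X + η t) (omF X + η t) = 0) →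
      ∃ r > (0 : ℝ), ∃ M : MFam X V {t | t ∈ T₀ ∧ ‖t - 0‖ < r},
        ∀ t ∈ M.N, ExactTwo (M.sig t - (omF X + η t)) := by
  intro X P h hP hPc hh hP11 V _ _ _ η hη h00 hηc T₀ hT hp
  obtain ⟨r, hr, M, -, h1, -⟩ :=
    kurGen' hS hC hA X P h hP hPc hh hP11 V η hη h00 hηc T₀ hT hp
  exact ⟨r, hr, M, fun t ht => (h1 t ht).2⟩

end Vale.Agent.P290Z.W.Kur
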