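import Vale.Agent.P290Z.W.KurSpec
import Vale.Agent.P290Z.K.Kur.A

/-!
# P290Z, part III (K): the family parametrised by the periods, over `W.K3`
-/

open scoped Manifold ContDiff Topology
open Set Filter

noncomputable section

namespace Vale.Agent.P290Z.W.Kur

open Vale.Agent.P290Z.Kur

open Vale.Agent.P267 Vale.Agent.P267.BlockC Vale.Agent.P290 Vale.Agent.P290.H342
open Vale.Agent.P290.H722 Vale.Agent.P267.H332
open Vale.Agent.P267.FL (TwoF OneF IsHerm)

theorem kur (hS : StSig) (hC : StChart) (hA : StAsm) : StKur := by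
  intro X P h hP hPc hh hP11 n U s₀ hs₀
  have h00 : U.combC 0 = 0 := by simp [UData.combC]
  obtain ⟨N, A, c, hNo, hN0, hAs, hAf, hA0, hsq⟩ :=
    hS X P h hh hP hPc hP11 (Fin n → ℂ) U.combC (KA.smFam_combC U) h00
  have hf : ContDiff ℝ ∞ fun s : Fin n → ℂ => s - s₀ := contDiff_id.sub contDiff_const
  set sig : (Fin n → ℂ) → TwoF X.X :=
    fun s => omF X + U.combC (s - s₀) + (A (s - s₀)).d with hsig
  set N' : Set (Fin n → ℂ) := (fun s => s - s₀) ⁻¹' N with hN'
  have hom : omF X ∈ HC X.X := KA.mem_of_exact U hs₀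
  have hex : ∀ s ∈ N', ExactTwo (sig s - U.combC s) := by
    intro s hs
    have h1 : U.combC s = U.combC (s - s₀) + U.combC s₀ := by
      rw [← U.combC_add, sub_add_cancel]
    have h2 : sig s - U.combC s = (omF X - U.combC s₀) + (A (s - s₀)).d := by
      have h3 : ∀ a b c d : TwoF X.X, a + b + d - (b + c) = a - c + d := fun a b c d => by abel
      rw [h1]
      exact h3 _ _ _ _
    rw [h2]
    exact exact_add hs₀ ⟨_, hAs _ hs, rfl⟩
  have hsm : SmFam sig N' :=
    KA.smFam_comp (T := fun t => omF X + U.combC t + (A t).d) hf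
      (KA.smFam_add (KA.smFam_add (KA.smFam_const hom.1)
        ((KA.smFam_combC U).mono (subset_univ N))) hAf)
  have hmem : s₀ ∈ N' := by
    show s₀ - s₀ ∈ N
    rw [sub_self]
    exact hN0
  have hsig0 : sig s₀ = omF X := by
    show omF X + U.combC (s₀ - s₀) + (A (s₀ - s₀)).d = omF X
    rw [sub_self, h00, hA0, add_zero, add_zero]
  have hcl : ∀ s ∈ N', (sig s).Closed := fun s hs => (KA.mem_of_exact U (hex s hs)).2.1
  have hnull : ∀ s ∈ N', s ∈ {s : Fin n → ℂ | H726.bil U.G s s = 0} →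
      ∀ x, (sig s).wedge (sig s) x = 0 := by
    intro s hs hb x
    have hb' : H726.bil U.G s s = 0 := hb
    have h1 := KA.pair_coord U (hex s hs) (hex s hs)
    rw [hb', mul_zero] at h1
    have h2 : c (s - s₀) = 0 :=
      KA.eq_zero_of_pair (KA.mem_of_exact U (hex s hs)).1 hh (hsq _ hs) h1
    have h3 := hsq _ hs x
    rw [h2, zero_mul] at h3
    exact h3
  have hb0 : s₀ ∈ {s : Fin n → ℂ | H726.bil U.G s s = 0} := by
    have h1 := KA.pair_coord U hs₀ hs₀
    have h2 : (omF X).wedge (omF X) = (0 : ℂ) • (omF X).wedge (omF X) := by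
      funext x
      simp [TwoF.wedge, omF]
    have h3 : pair (omF X) (omF X) = 0 := by
      have h4 := pair_smul_left intAx 0 hom.1 hom.1
      rw [zero_mul, pair, wedge_smul_left] at h4
      rw [pair, h2]
      exact h4
    rw [h3] at h1
    exact (mul_eq_zero.1 h1.symm).resolve_left KA.pi_ne
  have hNo' : IsOpen N' := hNo.preimage hf.continuous
  obtain ⟨r, hr, M, h₀, hM1, hM2, hM3, hM4⟩ := hA X (Fin n → ℂ) sig N' _ s₀ hNo' hmem hb0 hsm hsig0
    (hC X (Fin n → ℂ) sig N' _ s₀ hNo' hmem hsm hcl hsig0 hnull)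
  refine ⟨r, hr, M, h₀, ?_, ?_, hM3, hM4⟩
  · rw [hM1, hM2]
    exact fun s hs => ⟨hcl s hs, hex s hs⟩
  · rw [hM1]
    exact hsig0

end Vale.Agent.P290Z.W.Kur
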