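import Vale.Agent.P290Z.W.KurSpec
import Vale.Agent.P290Z.K.Lam

/-!
# P290Z, part III (K): the first order operator `al`, over `W.K3`
-/

open scoped Manifold ContDiff Topology
open Set Filter

noncomputable section

namespace Vale.Agent.P290Z.W.Kur

open Vale.Agent.P272.K.LIN (CkFn)
open Vale.Agent.P290.H158 Vale.Agent.P290.H686 Vale.Agent.P267
open Vale.Agent.P267.FL
open Vale.Agent.P290Z.Kur.Lm

theorem lam : StLam := by
  intro X P h hh hP hc e11
  have h0 := H445.Om_ne_zero X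
  have h1 := H445.Reg0_Om X
  refine ⟨fun x => ?_,
    fun u v => ⟨0, fun x j => (bt P u + Complex.I • bt P v) x j / H445.Om X x⟩,
    fun e y => ∑ j, (W (pz 0) j ((loc0 1 e (H445.Om X) y)⁻¹ * loc11 e P.f11 y 1 j) -
      W (pz 1) j ((loc0 1 e (H445.Om X) y)⁻¹ * loc11 e P.f11 y 0 j) +
      W (pzb j) j ((loc0 1 e (H445.Om X) y)⁻¹ * loc0 1 e P.f20 y)),
    fun e he y hy => ?_, fun u v hu hv => ⟨fun e he y hy => ?_, fun x => ?_⟩⟩
  · change (Qc h (fun _ => 1) x).re = 0
    rw [Qc, ← dbar_bt hh hP hc e11 ck_one, bt_one, H469.dbar1_zero]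
    simp
  · have h2 := (h1.contDiffAt he hy).inv (loc_ne h0 he hy)
    have h3 := fun i j => (hP.s11 e he i j).contDiffAt (e.open_target.mem_nhds hy)
    exact ContDiffAt.sum fun j _ =>
      ((contDiffAt_W _ j (h2.mul (h3 1 j))).sub (contDiffAt_W _ j (h2.mul (h3 0 j)))).add
        (contDiffAt_W _ j (h2.mul (hP.s20.contDiffAt he hy)))
  · have h2 := fun j => (eq_inv_mul_iff_mul_eq₀ (loc_ne h0 he hy)).2
      (loc_div h0 (bt P u + Complex.I • bt P v) e y j).symm
    ext w
    simp only [E1, ev1_apply, h2, H469.loc1_add, H469.loc1_smul, loc_bt hu he hy, loc_bt hv he hy,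
      loc10, add_apply, sub_apply, W_apply, dZb_apply, Fin.sum_univ_two, smul_eq_mul,
      Pi.zero_apply]
    ring
  · have h2 := reg_bt hP hu
    have h3 := reg_bt hP hv
    have h4 : Reg1 ∞ 1 (Complex.I • bt P v) := (H469.S21 X.X).smul_mem _ h3
    have h5 := dbar_div h0 h1 (H445.HolOn_Om X) ((H469.S21 X.X).add_mem h2 h4) x
    rw [H469.dbar1_add h2 h4, H469.dbar1_smul h3, dbar_bt hh hP hc e11 hu,
      dbar_bt hh hP hc e11 hv] at h5
    have h6 : ∀ u, CkFn C2 ∞ u → Complex.I * (h x).det * ((gLOp hh).Q u x : ℂ) = ddu h u x :=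
      fun u hu => by
        have := det_h_ne hh x
        change _ * ((Qc h u x).re : ℂ) = _
        rw [Complex.conj_eq_iff_re.1 (Qc_real hh (hu.of_le H469.two_le_infty) x), Qc]
        field_simp
        simp
    rw [mul_add, mul_left_comm _ Complex.I, h6 u hu, h6 v hv]
    simpa [TwoF.wedge, omF, OneF.d] using h5

end Vale.Agent.P290Z.W.Kur
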