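import Vale.Agent.P290Z.W.KurGen
import Vale.Agent.P290Z.K.Sig

/-!
# P290Z, part III (K): forms with square proportional to the volume form, over `W.K3`
-/

namespace Vale.Agent.P290Z.W.Kur

open Vale.Agent.P267.FL

/-- SIG -/
theorem sigS (hL : StLam) (hA : Vale.Agent.P290Z.Kur.StAB) : StSig := by
  intro X P h hh h1 h2 h3 V _ _ _ η hη η0
  obtain ⟨hc, al, Λ, hΛ, hal⟩ := hL X P h hh h1 h2 h3
  exact Vale.Agent.P290Z.Kur.sig_core hA (omF_smooth X) (fun x => by simp [omF, TwoF.wedge]) hh hc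
    hΛ hal V η hη η0

end Vale.Agent.P290Z.W.Kur
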