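import Vale.Agent.P290Z.K.NNPMain
import Vale.Agent.P290Z.K.AB
import Vale.Agent.P290Z.K.Bij
import Vale.Agent.P290Z.K.Nem
import Vale.Agent.P290Z.K.Opr
import Vale.Agent.P290Z.K.PullC2
import Vale.Agent.P290Z.K.Trans
import Vale.Agent.P290Z.W.KurLam
import Vale.Agent.P290Z.W.KurSig
import Vale.Agent.P290Z.W.KurChart
import Vale.Agent.P290Z.W.KurAsm
import Vale.Agent.P290Z.W.KurKur
import Vale.Agent.P290Z.W.KurGen

/-!
# P290Z, part III (K): the family parametrised by the periods, without hypotheses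
-/

namespace Vale.Agent.P290Z.W.Kur

open Vale.Agent.P290Z.Kur

theorem ab_main : StAB := ab invB bij (opr nem jetS) pullC2 (transl nem)

theorem sig_main : StSig := sigS lam ab_main

theorem chart_main : StChart := chartS poin2 nnp_main

theorem kur_main : StKur := kur sig_main chart_main asm

open Set Vale.Agent.P290 Vale.Agent.P267 in
open Vale.Agent.P267.FL (TwoF IsHerm) in
open Vale.Agent.P267.BlockC (pair ExactTwo) in
/-- the body of `Lat.StKur0` -/
theorem kur0_main :
    ∀ (X : K3) (P : TwoF X.X) (h : X.X → Matrix (Fin 2) (Fin 2) ℂ), P.Smooth → P.Closed →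
    IsHerm h → (P.f11 = fun y => Complex.I • h y) →
    ∀ (V : Type) [NormedAddCommGroup V] [NormedSpace ℝ V] [FiniteDimensional ℝ V]
      (η : V → TwoF X.X), H722.SmFam η univ → η 0 = 0 → (∀ t, (η t).Closed) →
      ∀ T₀ : Set V, 0 ∈ T₀ → (∀ t ∈ T₀, pair (omF X + η t) (omF X + η t) = 0) →
      ∃ r > (0 : ℝ), ∃ M : MFam X V {t | t ∈ T₀ ∧ ‖t - 0‖ < r},
        ∀ t ∈ M.N, ExactTwo (M.sig t - (omF X + η t)) :=
  kurGen sig_main chart_main asm

end Vale.Agent.P290Z.W.Kur
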