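import Vale.Agent.P290.H470.C2
import Vale.Agent.P290Z.W.Defs
import Vale.Agent.P290Z.W.H445Coh

/-! # Irreducible curves on a K3 surface have self-intersection at least `-2` (helper470) -/

open Set Filter Metric Topology
open scoped Manifold ContDiff
open Vale.Agent.P267 Vale.Agent.P267.FL Vale.Agent.P267.RR
open Vale.Agent.P267.H823 (Prime)

set_option linter.unusedSectionVars false

noncomputable section

namespace Vale.Agent.P290Z.W.H470

open Vale.Agent.P290 Vale.Agent.P290.H470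

section general

variable {X : Type*} [TopologicalSpace X] [ChartedSpace C2 X] [IsManifold 𝓘(ℂ, C2) ω X]
variable [CompactSpace X] {ι : Type} [Fintype ι] [DecidableEq ι] {D : EffDiv X}

end general

section K3

variable (X : K3) {ι : Type} [Fintype ι] [DecidableEq ι]

theorem z1_le_b1_one (L : LB X.X ι) (a : X.X → Fin 2 → ℂ) (κ : ℤ) (h : Z1 L a κ ≤ RR.B1 L a κ) :
    Z1 L a (1 + κ) ≤ RR.B1 L a (1 + κ) := by
  intro w hw
  obtain ⟨⟨h1, h2⟩, h3⟩ := (mem_Z1 _ _ _).1 hw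
  have h4 : Reg1 ∞ (-1 + (1 + κ)) (fun x i => H445.OmI X x • w x i) :=
    H445.Reg1.smul' (H445.Reg0_OmI X) h1
  rw [neg_add_cancel_left] at h4
  have h5 : (fun x i => H445.OmI X x • w x i) ∈ Z1 L a κ := by
    refine (mem_Z1 L a κ).2 ⟨⟨h4, fun x i => ?_⟩, ?_⟩
    · rw [H445.act_smul', h2 x i]
    · funext x
      have h6 := H445.db1_mul X L a (H445.HolOn_OmI X) h1 x
      rw [neg_add_cancel_left, h3] at h6
      exact h6.trans (by simp)
  obtain ⟨v, ⟨hv1, hv2⟩, hv3⟩ := (mem_B1 L a κ).1 (h h5)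
  refine (mem_B1 L a (1 + κ)).2 ⟨fun x => H445.Om X x • v x, ⟨H445.Reg0.smul' (H445.Reg0_Om X) hv1,
    fun x => ?_⟩, ?_⟩
  · rw [H445.act_smul', hv2 x]
  · funext x i
    have h6 := H445.db0_mul X L a (H445.HolOn_Om X) hv1 x i
    rw [h6, congrFun (congrFun hv3 x) i, smul_smul, H445.Om_mul, one_smul]

/-- **An irreducible curve on a K3 surface has self-intersection at least `-2`.** -/
theorem self_ge (hF : FiniteStmt X.X) (hS : SerreStmt X.X) (hR : RRStmt X.X) (h : H445.H01 X)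
    {D : EffDiv X.X} (hP : Prime D) (A : H451.DivLB D ι) :
    ∃ n : ℤ, isec A.L A.L = 2 * n ∧ -1 ≤ n := by
  obtain ⟨n, h1, -, h2⟩ := H445.rr_ineq X hS hR h A.L A.hol
  refine ⟨n, h1, ?_⟩
  have h3 : RR.h1 A.L A.a 0 = 0 := by
    rw [(hS ι A.L A.a A.hol 0).2.1]
    have h4 : (1 : ℤ) - 0 = 1 + 0 := by norm_num
    rw [h4]
    exact h1_zero_of_le _ _ _ (z1_le_b1_one X _ _ _ (z1_le_b1 A hP h))
  have h4 : 1 ≤ h0 A.L A.a 0 := by
    have h5 := (hF ι A.L A.a A.hol 0).1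
    have h6 : A.s ∈ H0 A.L A.a 0 := (mem_H0 _ _ _).2 ⟨⟨A.s_reg, A.s_sec⟩, by
      funext x i; exact A.s_hol x i⟩
    have h7 : Nontrivial (H0 A.L A.a 0) := by
      refine ⟨⟨⟨A.s, h6⟩, 0, fun h8 => ?_⟩⟩
      have h9 : A.s = 0 := congrArg Subtype.val h8
      obtain ⟨x, -⟩ := hP.nonempty
      have h10 : ∃ᶠ z in 𝓝 x, D.f x z ≠ 0 := D.ne x x (D.mem x)
      obtain ⟨z, hz, hzU⟩ := (h10.and_eventually (H815.mem_nhds D x)).exists
      apply (H365.s_ne_iff A hzU).2 hz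
      rw [h9]
      rfl
    exact Module.finrank_pos
  rw [h3] at h2
  have h5 : (0 : ℤ) ≤ h0 A.L.dual (-A.a) 0 := Int.natCast_nonneg _
  have h6 : (1 : ℤ) ≤ h0 A.L A.a 0 := by exact_mod_cast h4
  push_cast at h2
  linarith

end K3

end Vale.Agent.P290Z.W.H470
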