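import Vale.Agent.P290.H362.Iface
import Vale.Agent.P290Z.W.Defs

/-!
# P290, ASM (helper362): the interface between the geometry and the assembly

`Geo Z` : divisor theory of one K3 surface `Z` together with the periods, Riemann-Roch, `C² ≥ -2`.
`Tw G e π W b` : the twist `Y = X_b` of `X` over the closed set `W` of the sphere, with its divisor
theory and the identification of the lattices.
-/

open Set Filter Topology
open scoped Manifold ContDiff

namespace Vale.Agent.P290Z.W.H362

open Vale.Agent.P290 Vale.Agent.P290.H362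

open Vale.Agent.P267 Vale.Agent.P267.H757 Vale.Agent.P290.H342
open Vale.Agent.P290.H445 hiding instFLCharted instManifold instManifoldFL instT2 instCompact
  instConnected instSecondCountable instLocPathConnected mem_atlas_toFL mem_atlas_iff chartAt_FL
  jacM_det Om Om_ne_zero loc_Om HolOn_Om Reg0_Om holOn_zero_iff const_of_hol holOn_one
open Vale.Agent.P290Z.W.H445
open Vale.Agent.P290.K (P1)

/-- The geometry of one K3 surface. -/
structure Geo (Z : K3) where
  T : DivTh FL.C2 Z.X
  /-- the periods of the holomorphic two form -/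
  σ : T.H →+ ℂ
  /-- classes of divisors have period zero -/
  σ_cl : ∀ N : Z.X → ℝ, IsNormFn FL.C2 N → σ (T.cl N) = 0
  /-- norm functions with the same local weights have the same class -/
  weight : ∀ N N' : Z.X → ℝ, IsNormFn FL.C2 N → IsNormFn FL.C2 N' →
    (∀ p, ∃ (U : Set Z.X) (g g' : Z.X → ℂ) (φ : Z.X → ℝ), p ∈ U ∧ LocRep FL.C2 N U g φ ∧
      LocRep FL.C2 N' U g' φ) → T.cl N = T.cl N'
  /-- an effective divisor of class zero is zero -/
  hz : ∀ N : Z.X → ℝ, IsNormFn FL.C2 N → T.cl N = 0 → ∀ x, N x ≠ 0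
  /-- irreducible curves have square at least `-2` -/
  self : ∀ C : T.κ, -2 ≤ T.B (T.cl (T.N C)) (T.cl (T.N C))
  /-- Riemann-Roch: `v² ≥ 0`, `v` of type `(1,1)`, `-v` not effective: there is a pencil of class `v` -/
  rr : ∀ v : T.H, σ v = 0 → 0 ≤ T.B v v → (∀ N : Z.X → ℝ, IsNormFn FL.C2 N → T.cl N ≠ -v) →
    ∃ P : Pen T v, T.dv (P.N 1 0) ≠ T.dv (P.N 0 1)

/-- The properties of the lattice of a K3 surface which do not depend on the complex structure. -/
structure IsLat {Z : K3} (G : Geo Z) : Prop where
  finite : Module.Finite ℤ G.T.H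
  free : Module.Free ℤ G.T.H
  unimod : ∀ f : G.T.H →+ ℤ, ∃ x, ∀ y, G.T.B x y = f y
  even : ∀ x, Even (G.T.B x x)

end Vale.Agent.P290Z.W.H362
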