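import Vale.Agent.P290.H342.GeoInst
import Vale.Agent.P290Z.W.Defs
import Vale.Agent.P290Z.W.H416K3FL
import Vale.Agent.P290Z.W.H445Coh
import Vale.Agent.P290Z.W.H445Lef
import Vale.Agent.P290Z.W.H445IntK
import Vale.Agent.P290Z.W.H416K3U
import Vale.Agent.P290Z.W.H470C2
import Vale.Agent.P290Z.W.H362Iface

/-!
# P290 (helper342): the geometry of a K3 surface

`geo Z U : Geo Z` for `U : UData Z.X N`, from Riemann-Roch and Serre duality on `Z`.
-/

set_option linter.unusedSectionVars false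

open scoped Manifold ContDiff ComplexConjugate Topology
open Set

noncomputable section

namespace Vale.Agent.P290Z.W.H342

open Vale.Agent.P290 Vale.Agent.P290.H342

open Vale.Agent.P267 Vale.Agent.P267.FL Vale.Agent.P267.BlockC Vale.Agent.P267.RR Vale.Agent.P267.H332
open Vale.Agent.P267.H757 Vale.Agent.P267.H821
open Vale.Agent.P290.H445 hiding instFLCharted instManifold instManifoldFL instT2 instCompact
  instConnected instSecondCountable instLocPathConnected mem_atlas_toFL mem_atlas_iff chartAt_FL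
  jacM_det Om Om_ne_zero loc_Om HolOn_Om Reg0_Om holOn_zero_iff const_of_hol holOn_one H01 OmI
  OmI_mul Om_mul loc0_Om_ne_zero HolOn_OmI Reg0_OmI isCanon_OX act_smul' db0_mul db1_mul mulOm
  H0_one h0_one sec_one act_one h0_O h1_O chi_O intX_zero curv_OX isec_OX chi_eq rr_ineq OmC
  Reg2_OmC h2_O exists_dbar1 intX_dbar1 lefschetz intFactsK rr_of_orth
open Vale.Agent.P290Z.W.H445

section gen

variable {Y : Type} [TopologicalSpace Y] [ChartedSpace FL.C2 Y] [IsManifold 𝓘(ℂ, FL.C2) ω Y]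
variable [T2Space Y] [CompactSpace Y] {N : ℕ} (U : UData Y N)

variable [PreconnectedSpace Y]

end gen

section K3

variable (Z : K3)

/-- the holomorphic two-form -/
def OmT : TwoF Z.X := ⟨Om Z, 0, 0⟩

theorem OmT_mem : OmT Z ∈ HC Z.X := by
  have h1 : Vale.Agent.P267.H469.toF (Vale.Agent.P290Z.W.H416.OmL Z) = OmT Z :=
    Vale.Agent.P290Z.W.H416.toF_OmL Z
  have h2 := (Vale.Agent.P290.H416.closed_iff (F := Vale.Agent.P290Z.W.H416.OmL Z)).1
    (Vale.Agent.P290Z.W.H416.D2_OmL Z)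
  have h3 := Vale.Agent.P267.H469.toF_smooth (Vale.Agent.P290Z.W.H416.OmL Z)
  rw [h1] at h2 h3
  exact mem_HC_iff.2 ⟨h3, h2⟩

variable {Z} {N : ℕ} (U : UData Z.X N)

/-- the periods `∫ Om ∧ comb v` -/
def perU : (Fin N → ℤ) →+ ℂ :=
  AddMonoidHom.mk' (fun v => pair (OmT Z) (U.comb v)) fun v w => by
    rw [H342.pair_comm, U.comb_add, pair_add_left intAx (U.comb_mem (lbFacts Z.X) v).1
      (U.comb_mem (lbFacts Z.X) w).1 (OmT_mem Z).1, H342.pair_comm, H342.pair_comm (U.comb w)]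

theorem perU_apply (v : Fin N → ℤ) : perU U v = pair (OmT Z) (U.comb v) := rfl

/-- the period is computed by every form in the class -/
theorem pair_OmT {F : TwoF Z.X} (hF : F.Smooth) {v : Fin N → ℤ} (h : U.HasCl F v) :
    pair (OmT Z) F = perU U v := by
  have h1 := pair_exact intAx h (OmT_mem Z)
  have h2 := (U.comb_mem (lbFacts Z.X) v).1
  have h3 : F = (F - U.comb v) + U.comb v := by abel
  have h4 : (F - U.comb v).Smooth := by
    have := TwoF_smooth_smul (-1) h2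
    rw [neg_one_smul] at this
    rw [sub_eq_add_neg]
    exact TwoF_smooth_add hF this
  rw [perU_apply, H342.pair_comm]
  conv_lhs => rw [h3]
  rw [pair_add_left intAx h4 h2 (OmT_mem Z).1, h1, zero_add, H342.pair_comm]

theorem wedge_OmT (F : TwoF Z.X) : (OmT Z).wedge F = fun x => Om Z x * F.f02 x := by
  funext x
  simp [TwoF.wedge, OmT]

theorem perU_clN {N' : Z.X → ℝ} (h : IsNormFn FL.C2 N') : perU U (U.clN N') = 0 := by
  rw [← pair_OmT U (cF_smooth h) (U.clN_spec (nflbY Z.X) h), pair, wedge_OmT]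
  have : (fun x => Om Z x * (cF N').f02 x) = fun _ => (0 : ℂ) := by
    funext x
    simp [cF]
  rw [this]
  exact H445.intX_zero Z

theorem dbarSolve : DbarSolve Z.X := fun _ ha h0 => Vale.Agent.P290Z.W.H416.dbar_solve ha h0

theorem h01 : H445.H01 Z := fun _ ha h0 => Vale.Agent.P290Z.W.H416.dbar_solve ha h0

theorem exists_pen_of_rr (hS : SerreStmt Z.X) (hR : RRStmt Z.X) (v : Fin N → ℤ)
    (hσ : perU U v = 0) (hvv : 0 ≤ U.B v v)
    (hv : ∀ N' : Z.X → ℝ, IsNormFn FL.C2 N' → U.clN N' ≠ -v) :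
    Nonempty (Pen (divTh U) v) := by
  obtain ⟨L, hL⟩ := U.exists_c1 (lbFacts Z.X) v
  subst hL
  have h0 : intX (fun x => Om Z x * L.L.F02 x) = 0 := by
    rw [← hσ, ← pair_OmT U L.L.curv_smooth (U.c1_spec L), pair, wedge_OmT]
    rfl
  obtain ⟨a, n, ha, h1, h2⟩ := rr_of_orth Z hS hR h01 L.L L.L.reg_F02 h0
  have h3 := U.isec_c1 intAx (lbFacts Z.X) L L
  rw [h1] at h3
  have h4 : (2 * n : ℤ) = U.B (U.c1 L) (U.c1 L) := by exact_mod_cast h3
  have h5 : Vale.Agent.P267.RR.h0 L.L.dual (-a) 0 = 0 := by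
    by_contra hne
    have hnt : Nontrivial (Vale.Agent.P267.RR.H0 L.L.dual (-a) 0) :=
      Module.nontrivial_of_finrank_pos (R := ℂ) (Nat.pos_of_ne_zero hne)
    obtain ⟨s, hs⟩ := exists_ne (0 : Vale.Agent.P267.RR.H0 L.L.dual (-a) 0)
    obtain ⟨N', hN', hcl⟩ := exists_nf_of_section U ha.dual s.2 (fun h => hs (Subtype.ext h))
    refine hv N' hN' ?_
    rw [hcl]
    exact U.c1_dual (lbFacts Z.X) L
  rw [h5] at h2
  exact exists_pen U ha (by omega)

/-- **The geometry of a K3 surface.** -/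
def geo (hF : FiniteStmt Z.X) (hS : SerreStmt Z.X) (hR : RRStmt Z.X) : H362.Geo Z where
  T := divTh U
  σ := perU U
  σ_cl _ h := perU_clN U h
  weight _ _ _ _ h := clN_of_weight U h
  hz _ h h0 := ne_zero_of_clN U dbarSolve h h0
  self C := by
    obtain ⟨n, h1, h2⟩ := H470.self_ge Z hF hS hR h01 C.prime C.lb
    have h3 := U.isec_c1 intAx (lbFacts Z.X) ⟨_, C.lb.L⟩ ⟨_, C.lb.L⟩
    have h4 : U.clN (H470.NC C) = U.c1 ⟨_, C.lb.L⟩ := by
      refine clN_chern U C.lb.hol (H470.NC_nf C) ?_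
      have hd : Dense {x | C.lb.s x ≠ 0} := by
        refine (H470.NC_nf C).dense_ne_zero.mono ?_
        intro x hx h0
        apply hx
        show ‖C.lb.s x‖ ^ 2 = 0
        rw [h0]
        simp
      exact (lbnf C.lb.hol C.lb.s_reg C.lb.s_sec C.lb.s_hol hd).2
    show -2 ≤ U.B (U.clN (H470.NC C)) (U.clN (H470.NC C))
    rw [h4]
    rw [h1] at h3
    have h5 : (2 * n : ℤ) = U.B (U.c1 ⟨_, C.lb.L⟩) (U.c1 ⟨_, C.lb.L⟩) := by exact_mod_cast h3
    omega
  rr v h1 h2 h3 := by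
    obtain ⟨P⟩ := exists_pen_of_rr U hS hR v h1 h2 h3
    exact ⟨P, P.dv_ne fun _ h h0 => ne_zero_of_clN U dbarSolve h h0⟩

end K3

end Vale.Agent.P290Z.W.H342
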