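import Vale.Agent.P290.R2.H762.Const
import Vale.Agent.P290Z.W.Defs

/-! P290Z, block BR: `P290.R2.H762.Const` over `W.K3`. -/

open scoped Manifold ContDiff Topology
open Set Filter Metric

namespace Vale.Agent.P290Z.W.BR.Cst

open Vale.Agent.P290 Vale.Agent.P290.K Vale.Agent.P290.H580 Vale.Agent.P290.H805
open Vale.Agent.P290.R2.H596
open Vale.Agent.P290.R2.H762 (det_comp diff_det const_of_local own_target)

section

variable {T E : Type} [TopologicalSpace T] [TopologicalSpace E] {F : Family T E} {t : T}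

/-- the ratio may be computed in all charts -/
theorem formula {vol : E → T × (ℂ × ℂ) → ℂ} (hvol : RelForm F vol) (X : K3)
    (b : Fib F t → X.X) (y₀ y : Fib F t) (hy : y.1 ∈ (F.triv y₀.1).source)
    (e : OpenPartialHomeomorph X.X (ℂ × ℂ)) (he : e ∈ atlas (ℂ × ℂ) X.X) (hbe : b y ∈ e.source)
    (hb : All.Hol b y) :
    DifferentiableAt ℂ (fun w => e (b ((fibChart F t y₀).symm w))) (fibChart F t y₀ y) ∧
    X.vol (chartAt (ℂ × ℂ) (b y)) (chartAt (ℂ × ℂ) (b y) (b y)) *
      (fderiv ℂ (fun w => chartAt (ℂ × ℂ) (b y) (b ((chartAt (ℂ × ℂ) y).symm w)))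
        (chartAt (ℂ × ℂ) y y)).det / vol y.1 (t, (F.triv y.1 y.1).2) =
    X.vol e (e (b y)) *
      (fderiv ℂ (fun w => e (b ((fibChart F t y₀).symm w))) (fibChart F t y₀ y)).det /
        vol y₀.1 (t, fibChart F t y₀ y) := by
  have hXman := X.manifold
  have he' : chartAt (ℂ × ℂ) (b y) ∈ atlas (ℂ × ℂ) X.X := chart_mem_atlas _ _
  have hbe' : b y ∈ (chartAt (ℂ × ℂ) (b y)).source := mem_chart_source _ _
  obtain ⟨hb1, hb2⟩ := hb
  rw [chartAt_fib] at hb2 ⊢
  generalize chartAt (ℂ × ℂ) (b y) = e' at he' hbe' hb2 ⊢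
  -- the points
  have hys : y ∈ (fibChart F t y).source := F.mem y.1
  have hys0 : y ∈ (fibChart F t y₀).source := hy
  have hyt : fibChart F t y y ∈ (fibChart F t y).target := (fibChart F t y).map_source hys
  have hyt0 : fibChart F t y₀ y ∈ (fibChart F t y₀).target := (fibChart F t y₀).map_source hys0
  have hyt' : (t, fibChart F t y y) ∈ (F.triv y.1).target := hyt
  have hyt0' : (t, fibChart F t y₀ y) ∈ (F.triv y₀.1).target := hyt0
  have hinv : (F.triv y.1).symm (t, fibChart F t y y) = y.1 := by
    rw [← fibChart_symm_val F t y hyt', (fibChart F t y).left_inv hys]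
  have hinv0 : (F.triv y₀.1).symm (t, fibChart F t y₀ y) = y.1 := by
    rw [← fibChart_symm_val F t y₀ hyt0', (fibChart F t y₀).left_inv hys0]
  -- the transition maps of the fibre
  have hT1 : DifferentiableAt ℂ (fun w => fibChart F t y₀ ((fibChart F t y).symm w))
      (fibChart F t y y) := by
    have h := (F.hol y.1 y₀.1 t _ hyt' (by rw [hinv]; exact hy)).differentiableAt (by simp)
    refine h.congr_of_eventuallyEq ?_
    filter_upwards [(fibChart F t y).open_target.mem_nhds hyt] with w hw
    rw [fibChart_apply, fibChart_symm_val F t y hw]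
  have hT0 : DifferentiableAt ℂ (fun w => fibChart F t y ((fibChart F t y₀).symm w))
      (fibChart F t y₀ y) := by
    have h := (F.hol y₀.1 y.1 t _ hyt0' (by rw [hinv0]; exact F.mem y.1)).differentiableAt
      (by simp)
    refine h.congr_of_eventuallyEq ?_
    filter_upwards [(fibChart F t y₀).open_target.mem_nhds hyt0] with w hw
    rw [fibChart_apply, fibChart_symm_val F t y₀ hw]
  -- the transition map of the K3 surface
  have hE : DifferentiableAt ℂ (fun z => e (e'.symm z)) (e' (b y)) := by
    have h : e'.symm ≫ₕ e ∈ contDiffGroupoid ω 𝓘(ℂ, ℂ × ℂ) :=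
      StructureGroupoid.compatible (contDiffGroupoid ω 𝓘(ℂ, ℂ × ℂ)) he' he
    have h1 := contMDiffOn_iff_contDiffOn.1 (contMDiffOn_of_mem_contDiffGroupoid h)
    have h2 : e' (b y) ∈ (e'.symm ≫ₕ e).source := by
      rw [OpenPartialHomeomorph.trans_source]
      refine ⟨e'.map_source hbe', ?_⟩
      change e.toPartialEquiv.source (e'.symm (e' (b y)))
      rw [e'.left_inv hbe']
      exact hbe
    exact (h1.contDiffAt ((e'.symm ≫ₕ e).open_source.mem_nhds h2)).differentiableAt (by simp)
  -- the representation of `b`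
  have hcs : ContinuousAt (fibChart F t y).symm (fibChart F t y y) :=
    (fibChart F t y).continuousAt_symm hyt
  have hcs0 : ContinuousAt (fibChart F t y₀).symm (fibChart F t y₀ y) :=
    (fibChart F t y₀).continuousAt_symm hyt0
  have hli : (fibChart F t y).symm (fibChart F t y y) = y := (fibChart F t y).left_inv hys
  have hli0 : (fibChart F t y₀).symm (fibChart F t y₀ y) = y := (fibChart F t y₀).left_inv hys0
  have hne1 : ∀ᶠ w in 𝓝 (fibChart F t y y), b ((fibChart F t y).symm w) ∈ e'.source := by
    have h : ContinuousAt (fun w => b ((fibChart F t y).symm w)) (fibChart F t y y) :=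
      ContinuousAt.comp (g := b) (by rw [hli]; exact hb1) hcs
    exact h.eventually (e'.open_source.mem_nhds (by simp only [hli]; exact hbe'))
  have hne2 : ∀ᶠ w in 𝓝 (fibChart F t y y), (fibChart F t y).symm w ∈ (fibChart F t y₀).source :=
    hcs.eventually ((fibChart F t y₀).open_source.mem_nhds (by rw [hli]; exact hys0))
  have hne0 : ∀ᶠ w in 𝓝 (fibChart F t y₀ y), b ((fibChart F t y₀).symm w) ∈ e'.source := by
    have h : ContinuousAt (fun w => b ((fibChart F t y₀).symm w)) (fibChart F t y₀ y) :=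
      ContinuousAt.comp (g := b) (by rw [hli0]; exact hb1) hcs0
    exact h.eventually (e'.open_source.mem_nhds (by simp only [hli0]; exact hbe'))
  have hne3 : ∀ᶠ w in 𝓝 (fibChart F t y₀ y), (fibChart F t y₀).symm w ∈ (fibChart F t y).source :=
    hcs0.eventually ((fibChart F t y).open_source.mem_nhds (by rw [hli0]; exact hys))
  have hG' : DifferentiableAt ℂ (fun w => e (b ((fibChart F t y).symm w)))
      (fibChart F t y y) := by
    have h := DifferentiableAt.comp (g := fun z => e (e'.symm z))
      (f := fun w => e' (b ((fibChart F t y).symm w))) (fibChart F t y y)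
      (by rw [hli]; exact hE) hb2
    refine h.congr_of_eventuallyEq ?_
    filter_upwards [hne1] with w hw
    simp only [Function.comp]
    rw [e'.left_inv hw]
  have hG : DifferentiableAt ℂ (fun w => e (b ((fibChart F t y₀).symm w)))
      (fibChart F t y₀ y) := by
    have h := DifferentiableAt.comp (g := fun w => e (b ((fibChart F t y).symm w)))
      (f := fun w => fibChart F t y ((fibChart F t y₀).symm w)) (fibChart F t y₀ y)
      (by rw [hli0]; exact hG') hT0
    refine h.congr_of_eventuallyEq ?_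
    filter_upwards [hne3] with w hw
    simp only [Function.comp]
    rw [(fibChart F t y).left_inv hw]
  refine ⟨hG, ?_⟩
  -- the determinants
  have d1 : (fderiv ℂ (fun w => e (b ((fibChart F t y).symm w))) (fibChart F t y y)).det =
      (fderiv ℂ (fun z => e (e'.symm z)) (e' (b y))).det *
        (fderiv ℂ (fun w => e' (b ((fibChart F t y).symm w))) (fibChart F t y y)).det := by
    have h := det_comp (f := fun z => e (e'.symm z))
      (g := fun w => e' (b ((fibChart F t y).symm w))) (p := fibChart F t y y)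
      (by rw [hli]; exact hE) hb2
    rw [hli] at h
    rw [← h]
    congr 1
    refine Filter.EventuallyEq.fderiv_eq ?_
    filter_upwards [hne1] with w hw
    rw [e'.left_inv hw]
  have d2 : (fderiv ℂ (fun w => e (b ((fibChart F t y).symm w))) (fibChart F t y y)).det =
      (fderiv ℂ (fun w => e (b ((fibChart F t y₀).symm w))) (fibChart F t y₀ y)).det *
        (fderiv ℂ (fun w => fibChart F t y₀ ((fibChart F t y).symm w)) (fibChart F t y y)).det := by
    have h := det_comp (f := fun w => e (b ((fibChart F t y₀).symm w)))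
      (g := fun w => fibChart F t y₀ ((fibChart F t y).symm w)) (p := fibChart F t y y)
      (by rw [hli]; exact hG) hT1
    rw [hli] at h
    rw [← h]
    congr 1
    refine Filter.EventuallyEq.fderiv_eq ?_
    filter_upwards [hne2] with w hw
    rw [(fibChart F t y₀).left_inv hw]
  have hX := (((X.holo e' he').2 (e' (b y)) (e'.map_source hbe')).2 e he
    (by rw [e'.left_inv hbe']; exact hbe))
  rw [e'.left_inv hbe'] at hX
  obtain ⟨-, -, hv1, hv2⟩ := hvol y.1 t _ hyt'
  have hv0 := (hvol y₀.1 t _ hyt0').2.2.1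
  have hV := hv2 y₀.1 (by rw [hinv]; exact hy)
  rw [hinv] at hV
  have d3 : (fderiv ℂ (fun w => fibChart F t y₀ ((fibChart F t y).symm w))
      (fibChart F t y y)).det = (fderiv ℂ (fun u => (F.triv y₀.1 ((F.triv y.1).symm (t, u))).2)
        (fibChart F t y y)).det := by
    congr 1
    refine Filter.EventuallyEq.fderiv_eq ?_
    filter_upwards [(fibChart F t y).open_target.mem_nhds hyt] with w hw
    rw [fibChart_apply, fibChart_symm_val F t y hw]
  rw [← d3] at hV
  have hd := d1.symm.trans d2
  have hv1' : vol y.1 (t, (F.triv y.1 y.1).2) ≠ 0 := hv1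
  have hV' : vol y.1 (t, (F.triv y.1 y.1).2) = vol y₀.1 (t, fibChart F t y₀ y) *
    (fderiv ℂ (fun w => fibChart F t y₀ ((fibChart F t y).symm w)) (fibChart F t y y)).det := hV
  rw [div_eq_div_iff hv1' hv0, hX, hV']
  linear_combination (X.vol e (e (b y)) * vol y₀.1 (t, fibChart F t y₀ y)) * hd

end

theorem stConst (T E : Type) [TopologicalSpace T] [TopologicalSpace E] (F : Family T E)
    (vol : E → T × (ℂ × ℂ) → ℂ) (hvol : RelForm F vol) (t : T) (_ : CompactSpace (Fib F t))
    (_ : ConnectedSpace (Fib F t)) (X : K3) (b : Fib F t → X.X) (hb : ∀ y, All.Hol b y) :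
    ∃ lam : ℂ, ∀ y, X.vol (chartAt (ℂ × ℂ) (b y)) (chartAt (ℂ × ℂ) (b y) (b y)) *
      (fderiv ℂ (fun w => chartAt (ℂ × ℂ) (b y) (b ((chartAt (ℂ × ℂ) y).symm w)))
        (chartAt (ℂ × ℂ) y y)).det = lam * vol y.1 (t, (F.triv y.1 y.1).2) := by
  have hbc : Continuous b := continuous_iff_continuousAt.2 fun y => (hb y).1
  obtain ⟨lam, hlam⟩ := const_of_local
    (fun y : Fib F t => X.vol (chartAt (ℂ × ℂ) (b y)) (chartAt (ℂ × ℂ) (b y) (b y)) *
      (fderiv ℂ (fun w => chartAt (ℂ × ℂ) (b y) (b ((chartAt (ℂ × ℂ) y).symm w)))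
        (chartAt (ℂ × ℂ) y y)).det / vol y.1 (t, (F.triv y.1 y.1).2)) (by
    intro y₀
    have he : chartAt (ℂ × ℂ) (b y₀) ∈ atlas (ℂ × ℂ) X.X := chart_mem_atlas _ _
    have hbe : b y₀ ∈ (chartAt (ℂ × ℂ) (b y₀)).source := mem_chart_source _ _
    generalize chartAt (ℂ × ℂ) (b y₀) = e at he hbe
    refine ⟨fibChart F t y₀, fun v => X.vol e (e (b ((fibChart F t y₀).symm v))) *
      (fderiv ℂ (fun w => e (b ((fibChart F t y₀).symm w))) v).det / vol y₀.1 (t, v),
      F.mem y₀.1, ?_, ?_⟩
    · have hc : ContinuousAt (fibChart F t y₀).symm (fibChart F t y₀ y₀) :=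
        (fibChart F t y₀).continuousAt_symm ((fibChart F t y₀).map_source (F.mem y₀.1))
      have h1 : ∀ᶠ v in 𝓝 (fibChart F t y₀ y₀), v ∈ (fibChart F t y₀).target :=
        (fibChart F t y₀).open_target.mem_nhds ((fibChart F t y₀).map_source (F.mem y₀.1))
      have h2 : ∀ᶠ v in 𝓝 (fibChart F t y₀ y₀), b ((fibChart F t y₀).symm v) ∈ e.source := by
        have h : ContinuousAt (fun v => b ((fibChart F t y₀).symm v)) (fibChart F t y₀ y₀) :=
          ContinuousAt.comp (g := b) hbc.continuousAt hc
        refine h.eventually (e.open_source.mem_nhds ?_)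
        simp only [(fibChart F t y₀).left_inv (F.mem y₀.1)]
        exact hbe
      have h3 : ∀ v, v ∈ (fibChart F t y₀).target ∧ b ((fibChart F t y₀).symm v) ∈ e.source →
          DifferentiableAt ℂ (fun w => e (b ((fibChart F t y₀).symm w))) v := by
        rintro v ⟨hv1, hv2⟩
        have h := (formula hvol X b y₀ ((fibChart F t y₀).symm v)
          ((fibChart F t y₀).map_target hv1) e he hv2 (hb _)).1
        rw [(fibChart F t y₀).right_inv hv1] at h
        exact h
      have h4 := (h1.and h2).eventually_nhds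
      filter_upwards [h4] with v hv
      obtain ⟨hv1, hv2⟩ := hv.self_of_nhds
      have hv1' : (t, v) ∈ (F.triv y₀.1).target := hv1
      obtain ⟨-, h5, h6, -⟩ := hvol y₀.1 t v hv1'
      have h7 : DifferentiableAt ℂ (X.vol e) (e (b ((fibChart F t y₀).symm v))) :=
        ((X.holo e he).1).differentiableAt (e.open_target.mem_nhds (e.map_source hv2))
      have h8 : DifferentiableAt ℂ (fun v => X.vol e (e (b ((fibChart F t y₀).symm v)))) v :=
        DifferentiableAt.comp (g := X.vol e) (f := fun v => e (b ((fibChart F t y₀).symm v))) v h7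
          (h3 v ⟨hv1, hv2⟩)
      have h9 : DifferentiableAt ℂ (fun v => X.vol e (e (b ((fibChart F t y₀).symm v))) *
          (fderiv ℂ (fun w => e (b ((fibChart F t y₀).symm w))) v).det) v :=
        h8.mul (diff_det (hv.mono h3))
      have h10 : DifferentiableAt ℂ (fun u => (vol y₀.1 (t, u))⁻¹) v :=
        (differentiableAt_inv h6).comp v h5
      simp only [div_eq_mul_inv]
      exact h9.mul h10
    · have h1 : ∀ᶠ y in 𝓝 y₀, y ∈ (fibChart F t y₀).source :=
        (fibChart F t y₀).open_source.mem_nhds (F.mem y₀.1)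
      have h2 : ∀ᶠ y in 𝓝 y₀, b y ∈ e.source :=
        hbc.continuousAt.eventually (e.open_source.mem_nhds hbe)
      filter_upwards [h1, h2] with y hy1 hy2
      rw [(formula hvol X b y₀ y hy1 e he hy2 (hb y)).2, (fibChart F t y₀).left_inv hy1])
  refine ⟨lam, fun y => ?_⟩
  have h1 := hlam y
  have h2 := (hvol y.1 t _ (own_target y)).2.2.1
  rw [div_eq_iff h2] at h1
  exact h1

end Vale.Agent.P290Z.W.BR.Cst
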