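import Vale.Agent.P290Z.W.BRSpec

/-! P290Z, part III, block BR: uniform constants and a finite atlas near a tamed member; taming
is an open condition. -/

set_option linter.all false

open Set Filter Metric MeasureTheory
open scoped Topology Manifold ContDiff

noncomputable section

namespace Vale.Agent.P290Z.W.BR

open Vale.Agent.P290 Vale.Agent.P290.H805 Vale.Agent.P267 Vale.Agent.P290Z.W.Kur Vale.Agent.P290Z.BR

/-- uniform constants near a compact set of positive forms -/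
theorem atl_const {𝒦 : Set B2} (hK : IsCompact 𝒦)
    (h : ∀ B ∈ 𝒦, ∀ ξ : V2, ξ ≠ 0 → 0 < B ξ (Complex.I • ξ)) :
    ∃ Λ > (0 : ℝ), ∀ B ∈ 𝒦, ∀ᶠ B' : B2 in 𝓝 B, ∀ ξ ζ : V2,
      ‖ξ‖ ^ 2 ≤ Λ * B' ξ (Complex.I • ξ) ∧ |B' ξ ζ| ≤ Λ * ‖ξ‖ * ‖ζ‖ := by
  have hc : Continuous fun p : B2 × V2 => p.1 p.2 (Complex.I • p.2) := by fun_prop
  obtain ⟨m, hm, h1⟩ := (hK.prod (isCompact_sphere (0 : V2) 1)).exists_forall_le' hc.continuousOn
    (a := 0) fun p hp => h p.1 hp.1 p.2 fun h0 => by simpa [h0] using hp.2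
  obtain ⟨C, hC⟩ := (IsCompact.isBounded (α := B2) hK).exists_norm_le
  have h2 : ∀ B ∈ 𝒦, ∀ ξ : V2, m * ‖ξ‖ ^ 2 ≤ B ξ (Complex.I • ξ) := fun B hB ξ => by
    rcases eq_or_ne ξ 0 with rfl | h0
    · simp
    have hn : 0 < ‖ξ‖ := norm_pos_iff.2 h0
    have h3 := h1 (B, ‖ξ‖⁻¹ • ξ) ⟨hB, by
      rw [mem_sphere_zero_iff_norm, norm_smul, norm_inv, norm_norm, inv_mul_cancel₀ hn.ne']⟩
    simp only [smul_comm Complex.I ‖ξ‖⁻¹ ξ, map_smul, ContinuousLinearMap.smul_apply,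
      smul_eq_mul] at h3
    rwa [← mul_assoc, ← mul_inv, ← sq, le_inv_mul_iff₀ (by positivity), mul_comm] at h3
  refine ⟨max (2 / m) (C + m / 2), lt_max_of_lt_left (by positivity), fun B hB => ?_⟩
  filter_upwards [ball_mem_nhds B (half_pos hm)] with B' hB' ξ ζ
  replace hB' : ‖B' - B‖ < m / 2 := (mem_ball_iff_norm (E := B2)).1 hB'
  constructor
  · have a1 := (B' - B).le_opNorm₂ ξ (Complex.I • ξ)
    rw [norm_smul, Complex.norm_I, one_mul, ContinuousLinearMap.sub_apply,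
      ContinuousLinearMap.sub_apply, Real.norm_eq_abs] at a1
    have a2 := neg_abs_le (B' ξ (Complex.I • ξ) - B ξ (Complex.I • ξ))
    have a3 := h2 B hB ξ
    have a4 : m / 2 * ‖ξ‖ ^ 2 ≤ B' ξ (Complex.I • ξ) := by
      nlinarith [mul_le_mul_of_nonneg_right hB'.le (sq_nonneg ‖ξ‖)]
    calc ‖ξ‖ ^ 2 = 2 / m * (m / 2 * ‖ξ‖ ^ 2) := by field_simp
      _ ≤ _ := mul_le_mul (le_max_left _ _) a4 (by positivity)
          (le_max_of_le_left (by positivity))
  · have a1 : ‖B'‖ ≤ max (2 / m) (C + m / 2) :=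
      le_max_of_le_right (by linarith [norm_sub_norm_le B' B, hC B hB])
    exact (B'.le_opNorm₂ ξ ζ).trans (by gcongr)

theorem atl (hL : StLoc) (hT : StTameLoc) : StAtl := by
  intro X V _ _ T M s
  refine ⟨fun P h1 h2 h3 a Q hQ hs => ?_, ?_⟩
  · have hc := fun v hv => (hL X V T M P h1 a s v (hs v hv)).2.1
    obtain ⟨Λ, hΛ, h4⟩ := atl_const (hQ.image_of_continuousOn (f := loc M.toMPre P a s)
      fun v hv => (ContinuousAt.comp (f := fun v : V2 => (s, v)) (hc v hv)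
        (Continuous.prodMk_right s).continuousAt).continuousWithinAt) (by
      rintro _ ⟨v, hv, rfl⟩
      exact (hT X V T M P h1 h2 s).1 h3 a v (hs v hv))
    exact ⟨Λ, hΛ, hQ.eventually_forall_of_forall_eventually fun v hv =>
      Eventually.and ((M.F.triv a).open_target.mem_nhds (hs v hv))
        ((hc v hv).eventually (h4 _ ⟨v, hv, rfl⟩))⟩
  · haveI := X.compact
    have h1 : ∀ x : X.X, ∃ R > (0 : ℝ), ∀ v ∈ closedBall (M.F.triv (s, x) (s, x)).2 (R + R),
        (s, v) ∈ (M.F.triv (s, x)).target := fun x => by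
      have a1 := (M.F.triv (s, x)).map_source (M.F.mem (s, x))
      rw [M.F.mk_eq _ (M.F.mem (s, x)), M.p_eq] at a1
      obtain ⟨r, hr, a2⟩ := nhds_basis_closedBall.mem_iff.1
        (((M.F.triv (s, x)).open_target.preimage (Continuous.prodMk_right s)).mem_nhds a1)
      exact ⟨r / 2, half_pos hr, fun v hv => a2 (by rwa [add_halves] at hv)⟩
    choose R hR h2 using h1
    let U : X.X → Set (T × X.X) := fun x => (M.F.triv (s, x)).source ∩
      M.F.triv (s, x) ⁻¹' (Prod.snd ⁻¹' ball (M.F.triv (s, x) (s, x)).2 (R x))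
    have hU : ∀ x, IsOpen (U x) := fun x =>
      (M.F.triv (s, x)).isOpen_inter_preimage (isOpen_ball.preimage continuous_snd)
    obtain ⟨I, hI⟩ := isCompact_univ.elim_finite_subcover (fun x => {x' | (s, x') ∈ U x})
      (fun x => (hU x).preimage (Continuous.prodMk_right s))
      fun x _ => mem_iUnion.2 ⟨x, M.F.mem (s, x), mem_ball_self (hR x)⟩
    obtain ⟨δ, hδ, h3⟩ := ((eventually_all_finset I).2 fun x _ =>
      (eventually_le_nhds (hR x)).filter_mono (nhdsWithin_le_nhds (s := Ioi (0 : ℝ)))).and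
        self_mem_nhdsWithin |>.exists
    refine ⟨I, inferInstance, fun j => ⟨(s, j), M.p_eq _⟩,
      fun j => closedBall (M.F.triv (s, j) (s, j)).2 (R j + R j), δ, h3,
      fun j => isCompact_closedBall _ _, fun j => h2 j, ?_⟩
    have h4 : ∀ᶠ t in 𝓝 s, ∀ x ∈ (univ : Set X.X), ∃ j : I, (t, x) ∈ U j :=
      isCompact_univ.eventually_forall_of_forall_eventually fun x hx => by
        obtain ⟨j, hj, a1⟩ := mem_iUnion₂.1 (hI hx)
        exact mem_of_superset ((hU j).mem_nhds a1) fun z hz => ⟨⟨j, hj⟩, hz⟩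
    filter_upwards [h4] with t ht x
    obtain ⟨j, a1, a2⟩ := ht x (mem_univ x)
    exact ⟨j, a1, closedBall_subset_closedBall' (add_le_add (hδ j j.2) (le_of_lt a2))⟩

theorem tameOpen (hT : StTameLoc) (hA : StAtl) : StTameOpen := by
  intro X V _ _ T M P h1 h2 s h3
  obtain ⟨h4, ι, _, y, K, δ, hδ, hK, h5, h6⟩ := hA X V T M s
  choose Λ hΛ h7 using fun j => h4 P h1 h2 h3 (y j).val (K j) (hK j) (h5 j)
  filter_upwards [h6, eventually_all.2 h7] with t a1 a2
  refine (hT X V T M P h1 h2 t).2 fun x => ?_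
  obtain ⟨j, a3, a4⟩ := a1 x
  refine ⟨(y j).val, a3, fun ξ hξ => ?_⟩
  have a5 := ((a2 j _ (a4 (mem_closedBall_self hδ.le))).2 ξ ξ).1
  exact pos_of_mul_pos_left ((pow_pos (norm_pos_iff.2 hξ) 2).trans_le a5 |>.trans_eq (mul_comm _ _))
    (hΛ j).le

end Vale.Agent.P290Z.W.BR
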