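import Vale.Agent.P290Z.W.BRSpec
import Vale.Agent.P267.H869.MaxInt
import Mathlib.Algebra.QuadraticDiscriminant

/-! P290Z, block BR, step EN, over `W.K3`: the energy is bounded by the square of the sum of the
two forms. -/

open Set Filter Metric MeasureTheory
open scoped Topology Manifold ContDiff ComplexConjugate

noncomputable section

namespace Vale.Agent.P290Z.W.BR

open Vale.Agent.P290 Vale.Agent.P290.H805 Vale.Agent.P267 Vale.Agent.P290Z.W.Kur
open Vale.Agent.P290Z.BR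
open Vale.Agent.P267.FL (TwoF IsHerm)
open Vale.Agent.P267.BlockC (pair)
open Vale.Agent.P290.H686 (pb2 val2 IsSm IsDiffeo Dch Df wd)
open Vale.Agent.P290.H445 (toFL φ)
open Vale.Agent.P267.H869 (mAt maxCS maxM)

namespace EnA

/-! ### linear algebra -/

/-- the Pfaffian -/
def Pf (b : B2) : ℝ :=
  b (1, 0) (Complex.I, 0) * b (0, 1) (0, Complex.I) -
    b (1, 0) (0, 1) * b (Complex.I, 0) (0, Complex.I) +
    b (1, 0) (0, Complex.I) * b (Complex.I, 0) (0, 1)

theorem psd_det {A D U W : ℝ} (h : ∀ x₁ y₁ x₂ y₂ : ℝ, 0 ≤ A * (x₁ ^ 2 + y₁ ^ 2) +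
    D * (x₂ ^ 2 + y₂ ^ 2) + 2 * U * (x₂ * y₁ - x₁ * y₂) + 2 * W * (x₁ * x₂ + y₁ * y₂)) :
    0 ≤ A ∧ 0 ≤ D ∧ U ^ 2 + W ^ 2 ≤ A * D := by
  have hA : 0 ≤ A := by simpa using h 1 0 0 0
  have hD : 0 ≤ D := by simpa using h 0 0 1 0
  refine ⟨hA, hD, ?_⟩
  have h1 := discrim_le_zero (a := A * (U ^ 2 + W ^ 2)) (b := -2 * (U ^ 2 + W ^ 2)) (c := D)
    fun s => by
      have := h (-(W * s)) (-(U * s)) 1 0
      linarith
  rw [discrim] at h1
  rcases (add_nonneg (sq_nonneg U) (sq_nonneg W)).eq_or_lt with h2 | h2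
  · rw [← h2]
    exact mul_nonneg hA hD
  · by_contra h3
    have h4 := mul_pos h2 (sub_pos.2 (not_le.1 h3))
    nlinarith

theorem quad_eq (b : B2) (hb : ∀ ξ ζ, b ξ ζ = -b ζ ξ) (x₁ y₁ x₂ y₂ : ℝ) :
    b (⟨x₁, y₁⟩, ⟨x₂, y₂⟩) (Complex.I • (⟨x₁, y₁⟩, ⟨x₂, y₂⟩)) =
      b (1, 0) (Complex.I, 0) * (x₁ ^ 2 + y₁ ^ 2) + b (0, 1) (0, Complex.I) * (x₂ ^ 2 + y₂ ^ 2) +
      (b (1, 0) (0, 1) + b (Complex.I, 0) (0, Complex.I)) * (x₂ * y₁ - x₁ * y₂) +
      (b (1, 0) (0, Complex.I) - b (Complex.I, 0) (0, 1)) * (x₁ * x₂ + y₁ * y₂) := by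
  have e1 : ((⟨x₁, y₁⟩, ⟨x₂, y₂⟩) : V2) = x₁ • ((1, 0) : V2) + y₁ • ((Complex.I, 0) : V2) +
      x₂ • ((0, 1) : V2) + y₂ • ((0, Complex.I) : V2) := by
    refine Prod.ext (Complex.ext ?_ ?_) (Complex.ext ?_ ?_) <;> simp
  have e2 : Complex.I • ((⟨x₁, y₁⟩, ⟨x₂, y₂⟩) : V2) = (-y₁) • ((1, 0) : V2) +
      x₁ • ((Complex.I, 0) : V2) + (-y₂) • ((0, 1) : V2) + x₂ • ((0, Complex.I) : V2) := by
    refine Prod.ext (Complex.ext ?_ ?_) (Complex.ext ?_ ?_) <;> simp
  have h0 : ∀ ξ, b ξ ξ = 0 := fun ξ => by linarith [hb ξ ξ]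
  rw [e2, e1]
  simp only [map_add, map_smul, add_apply, smul_apply,
    smul_eq_mul, h0]
  rw [hb (Complex.I, 0) (1, 0), hb (0, 1) (1, 0), hb (0, Complex.I) (1, 0),
    hb (0, 1) (Complex.I, 0), hb (0, Complex.I) (Complex.I, 0), hb (0, Complex.I) (0, 1)]
  ring

/-- the basic inequality -/
theorem pf_ge (p θ : B2) (hp : ∀ ξ ζ, p ξ ζ = -p ζ ξ) (hθ : ∀ ξ ζ, θ ξ ζ = -θ ζ ξ) {μ : ℝ}
    (hμ : 0 ≤ μ) (h1 : ∀ ξ : V2, μ * (‖ξ.1‖ ^ 2 + ‖ξ.2‖ ^ 2) ≤ p ξ (Complex.I • ξ))
    (h2 : ∀ ξ : V2, 0 ≤ θ ξ (Complex.I • ξ)) :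
    μ * (θ (1, 0) (Complex.I, 0) + θ (0, 1) (0, Complex.I)) ≤ Pf (p + θ) := by
  have hn : ∀ x y : ℝ, ‖(⟨x, y⟩ : ℂ)‖ ^ 2 = x ^ 2 + y ^ 2 := fun x y => by
    rw [Complex.sq_norm, Complex.normSq_mk]
    ring
  obtain ⟨a1, a2, -⟩ := psd_det (A := p (1, 0) (Complex.I, 0) - μ)
    (D := p (0, 1) (0, Complex.I) - μ)
    (U := (p (1, 0) (0, 1) + p (Complex.I, 0) (0, Complex.I)) / 2)
    (W := (p (1, 0) (0, Complex.I) - p (Complex.I, 0) (0, 1)) / 2) fun x₁ y₁ x₂ y₂ => by
      have h3 := h1 (⟨x₁, y₁⟩, ⟨x₂, y₂⟩)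
      rw [quad_eq p hp, hn, hn] at h3
      linarith
  obtain ⟨-, -, a3⟩ := psd_det (A := p (1, 0) (Complex.I, 0) - μ + θ (1, 0) (Complex.I, 0))
    (D := p (0, 1) (0, Complex.I) - μ + θ (0, 1) (0, Complex.I))
    (U := (p (1, 0) (0, 1) + p (Complex.I, 0) (0, Complex.I) +
      (θ (1, 0) (0, 1) + θ (Complex.I, 0) (0, Complex.I))) / 2)
    (W := (p (1, 0) (0, Complex.I) - p (Complex.I, 0) (0, 1) +
      (θ (1, 0) (0, Complex.I) - θ (Complex.I, 0) (0, 1))) / 2) fun x₁ y₁ x₂ y₂ => by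
      have h3 := h1 (⟨x₁, y₁⟩, ⟨x₂, y₂⟩)
      have h4 := h2 (⟨x₁, y₁⟩, ⟨x₂, y₂⟩)
      rw [quad_eq p hp, hn, hn] at h3
      rw [quad_eq θ hθ] at h4
      linarith
  simp only [Pf, add_apply]
  nlinarith [mul_nonneg hμ a1, mul_nonneg hμ a2, sq_nonneg μ,
    sq_nonneg (p (1, 0) (0, 1) + θ (1, 0) (0, 1) -
      (p (Complex.I, 0) (0, Complex.I) + θ (Complex.I, 0) (0, Complex.I))),
    sq_nonneg (p (1, 0) (0, Complex.I) + θ (1, 0) (0, Complex.I) +
      (p (Complex.I, 0) (0, 1) + θ (Complex.I, 0) (0, 1)))]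

/-! ### integrals of nonnegative top forms -/

section int

variable {Z : Type} [TopologicalSpace Z] [ChartedSpace FL.C2 Z] [IsManifold 𝓘(ℂ, FL.C2) ω Z]
  [T2Space Z] [CompactSpace Z]

theorem chart_le {b : Z → ℂ} (h : FL.Reg2 0 1 b) (h0 : ∀ x, 0 ≤ (b x).re) {e : FL.Ch Z}
    (he : e ∈ atlas FL.C2 Z) {S : Set FL.C2} (hS : IsCompact S) (hSt : S ⊆ e.target) :
    4 * ∫ z in S, (FL.loc2 1 e b z).re ≤ (FL.intX b).re := by
  let _ : MeasurableSpace Z := borel Z
  have : BorelSpace Z := ⟨rfl⟩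
  have hc : HasCompactSupport b := H686.hasCompactSupport_of_compactSpace b
  have hi : Integrable (FL.quoX b) (FL.volX Z) := FL.integrable_quoX h hc
  have hK : IsCompact (e.symm '' S) := hS.image_of_continuousOn (e.continuousOn_symm.mono hSt)
  have hq : FL.quoX ((e.symm '' S).indicator b) = (e.symm '' S).indicator (FL.quoX b) := by
    funext x
    by_cases hx : x ∈ e.symm '' S
    · rw [indicator_of_mem hx, FL.quoX_apply, FL.quoX_apply, indicator_of_mem hx]
    · rw [indicator_of_notMem hx, FL.quoX_apply, indicator_of_notMem hx, smul_zero]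
  have hi' : Integrable (FL.quoX ((e.symm '' S).indicator b)) (FL.volX Z) := by
    rw [hq]
    exact hi.indicator hK.measurableSet
  have h1 := FL.intV_chart he (b := (e.symm '' S).indicator b) hi' (fun x hx =>
    indicator_of_notMem (by
      rintro ⟨z, hz, rfl⟩
      exact hx (e.map_target (hSt hz))) _)
  have h2 : ∫ z in e.target, FL.loc2 1 e ((e.symm '' S).indicator b) z =
      ∫ z in S, FL.loc2 1 e b z := by
    rw [setIntegral_eq_of_subset_of_forall_sdiff_eq_zero e.open_target.measurableSet hSt]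
    · refine setIntegral_congr_fun hS.measurableSet fun z hz => ?_
      simp only [FL.loc2, indicator_of_mem (mem_image_of_mem e.symm hz)]
    · rintro z ⟨hz, hz'⟩
      have h3 : e.symm z ∉ e.symm '' S := by
        rintro ⟨w, hw, hw'⟩
        exact hz' (e.symm.injOn (hSt hw) hz hw' ▸ hw)
      simp only [FL.loc2, indicator_of_notMem h3, smul_zero]
  have h3 : IntegrableOn (FL.loc2 1 e b) S :=
    ((h e he).continuousOn.mono hSt).integrableOn_compact hS
  have h4 : (FL.intV ((e.symm '' S).indicator b)).re ≤ (FL.intV b).re := by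
    simp only [FL.intV, Complex.smul_re, smul_eq_mul]
    refine mul_le_mul_of_nonneg_left ?_ (by norm_num)
    rw [← RCLike.re_to_complex, ← RCLike.re_to_complex, ← integral_re hi, ← integral_re hi']
    refine integral_mono hi'.re hi.re fun x => ?_
    simp only [hq, RCLike.re_to_complex]
    by_cases hx : x ∈ e.symm '' S
    · rw [indicator_of_mem hx]
    · rw [indicator_of_notMem hx, FL.quoX_apply, Complex.smul_re, Complex.zero_re]
      exact mul_nonneg (inv_nonneg.2 (FL.wX_pos x).le) (h0 x)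
  rw [FL.intX_eq_intV hi hc]
  refine le_trans (le_of_eq ?_) h4
  rw [h1, h2, Complex.smul_re, smul_eq_mul, ← RCLike.re_to_complex, ← integral_re h3]
  rfl

theorem chart_le_max {b : Z → ℂ} (h : FL.Reg2 0 1 b) (h0 : ∀ x, 0 ≤ (b x).re) {e : FL.Ch Z}
    (he : e ∈ mAt Z) {S : Set FL.C2} (hS : IsCompact S) (hSt : S ⊆ e.target) :
    4 * ∫ z in S, (FL.loc2 1 e b z).re ≤ (FL.intX b).re := by
  have hc : HasCompactSupport b := H686.hasCompactSupport_of_compactSpace b
  have h1 : @FL.Reg2 Z _ (maxCS Z) ℂ _ _ 0 1 b := H869.reg2_max h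
  have h4 : @FL.HasInt Z _ (maxCS Z) b (@FL.intX Z _ (maxCS Z) b) :=
    @FL.hasInt_intX Z _ (maxCS Z) (maxM Z) _ _ b h1 hc
  rw [FL.HasInt.unique hc (FL.hasInt_intX h hc) (H869.hasInt_of_max h4)]
  exact @chart_le Z _ (maxCS Z) (maxM Z) _ _ b h1 h0 e he S hS hSt

end int

/-! ### the charts of a fibre given by arbitrary trivialisations -/

section sl

variable {T E : Type} [TopologicalSpace T] [TopologicalSpace E] {F : Family T E} {t : T}

/-- `e` is the restriction of the trivialisation at `a` to the fibre over `t` -/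
structure IsSl (F : Family T E) (t : T) (a : E) (e : OpenPartialHomeomorph (Fib F t) V2) :
    Prop where
  src : ∀ y, y ∈ e.source ↔ y.val ∈ (F.triv a).source
  tgt : ∀ v, v ∈ e.target ↔ (t, v) ∈ (F.triv a).target
  app : ∀ y, e y = (F.triv a y.val).2
  inv : ∀ v, (t, v) ∈ (F.triv a).target → (e.symm v).val = (F.triv a).symm (t, v)

theorem isSl_fib (x : Fib F t) : IsSl F t x.val (fibChart F t x) :=
  ⟨fun _ => Iff.rfl, fun _ => Iff.rfl, fun _ => rfl, fun _ hv => fibChart_symm_val F t x hv⟩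

theorem exists_sl (a : E) (y₀ : Fib F t) : ∃ e, IsSl F t a e := by
  classical
  let g : V2 → Fib F t := fun v =>
    if h : (t, v) ∈ (F.triv a).target then ⟨(F.triv a).symm (t, v), F.p_symm _ h⟩ else y₀
  have hg : ∀ v, (t, v) ∈ (F.triv a).target → (g v).val = (F.triv a).symm (t, v) := by
    intro v hv
    simp only [g, dif_pos hv]
  have h1 : ∀ y : Fib F t, y.val ∈ (F.triv a).source →
      F.triv a y.val = (t, (F.triv a y.val).2) := by
    intro y hy
    rw [F.mk_eq a hy, y.prop]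
  have h2 : ∀ y : Fib F t, y.val ∈ (F.triv a).source →
      (t, (F.triv a y.val).2) ∈ (F.triv a).target := by
    intro y hy
    rw [← h1 y hy]
    exact (F.triv a).map_source hy
  refine ⟨{ toFun := fun y => (F.triv a y.val).2
            invFun := g
            source := {y | y.val ∈ (F.triv a).source}
            target := {v | (t, v) ∈ (F.triv a).target}
            map_source' := h2
            map_target' := fun v hv => ?_
            left_inv' := fun y hy => ?_
            right_inv' := fun v hv => ?_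
            open_source := (F.triv a).open_source.preimage continuous_val
            open_target := (F.triv a).open_target.preimage (Continuous.prodMk_right t)
            continuousOn_toFun := continuous_snd.comp_continuousOn
              ((F.triv a).continuousOn.comp continuous_val.continuousOn fun y hy => hy)
            continuousOn_invFun := isInducing_val.continuousOn_iff.2 ?_ },
    fun _ => Iff.rfl, fun _ => Iff.rfl, fun _ => rfl, hg⟩
  · change (g v).val ∈ (F.triv a).source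
    rw [hg v hv]
    exact (F.triv a).map_target hv
  · apply Fib.ext
    rw [hg _ (h2 y hy), ← h1 y hy, (F.triv a).left_inv hy]
  · rw [hg v hv, (F.triv a).right_inv hv]
  · exact ((F.triv a).continuousOn_symm.comp (Continuous.prodMk_right t).continuousOn
      fun v hv => hv).congr hg

theorem IsSl.trans {a a' : E} {e e' : OpenPartialHomeomorph (Fib F t) V2} (h : IsSl F t a e)
    (h' : IsSl F t a' e') {z : FL.C2} (hz : z ∈ (toFL e).target)
    (hz' : (toFL e).symm z ∈ (toFL e').source) :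
    ContDiffAt ℂ ω (fun w => toFL e' ((toFL e).symm w)) z := by
  have h1 : (t, φ.symm z) ∈ (F.triv a).target := (h.tgt _).1 hz
  have h2 := (h'.src _).1 hz'
  rw [P290.H445.toFL_symm_apply, h.inv _ h1] at h2
  have h3 := φ.contDiff.contDiffAt.comp z
    (ContDiffAt.comp (f := φ.symm) z (F.hol a a' t _ h1 h2) φ.symm.contDiff.contDiffAt)
  refine h3.congr_of_eventuallyEq ?_
  filter_upwards [(toFL e).open_target.mem_nhds hz] with w hw
  simp only [Function.comp, P290.H445.toFL_apply, P290.H445.toFL_symm_apply, h'.app]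
  rw [h.inv (φ.symm w) ((h.tgt _).1 hw)]

theorem IsSl.mem_groupoid {a a' : E} {e e' : OpenPartialHomeomorph (Fib F t) V2}
    (h : IsSl F t a e) (h' : IsSl F t a' e') :
    (toFL e).symm ≫ₕ toFL e' ∈ contDiffGroupoid ω 𝓘(ℂ, FL.C2) := by
  rw [contDiffGroupoid, mem_groupoid_of_pregroupoid, contDiffPregroupoid]
  simp only [modelWithCornersSelf_coe, modelWithCornersSelf_coe_symm,
    Function.comp_id, Function.id_comp, range_id, preimage_id, inter_univ]
  exact ⟨fun z hz => (h.trans h' hz.1 hz.2).contDiffWithinAt,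
    fun z hz => (h'.trans h hz.1 hz.2).contDiffWithinAt⟩

end sl

/-! ### the top form in a chart of a member -/

section fam

variable {X : K3} {V : Type} [NormedAddCommGroup V] [NormedSpace ℝ V] {T : Set V}
  {M : MFam X V T} {t : T} {a : T × X.X} {e : OpenPartialHomeomorph (M.k3 t).X V2}

theorem IsSl.mem_mAt (h : IsSl M.F t a e) : toFL e ∈ mAt (M.k3 t).X := by
  rintro _ ⟨_, ⟨x, rfl⟩, rfl⟩
  exact ⟨h.mem_groupoid (isSl_fib x), (isSl_fib x).mem_groupoid h⟩

theorem IsSl.symm_eq (h : IsSl M.F t a e) {v : V2} (hv : (t, v) ∈ (M.F.triv a).target) :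
    (M.homeo t).symm (e.symm v) = pt M.toMPre a t v := by
  exact congrArg Prod.snd (h.inv v hv)

/-- the differential of the chart -/
theorem IsSl.deriv_eq (h : IsSl M.F t a e) {v : V2} (hv : (t, v) ∈ (M.F.triv a).target)
    (ξ : V2) : Df (M.homeo t).symm (e.symm v) (Dch (toFL e) (e.symm v) (φ ξ)) =
      fderiv ℝ (fun u => chartAt FL.C2 (pt M.toMPre a t v) (pt M.toMPre a t u)) v ξ := by
  have hv' : v ∈ e.target := (h.tgt v).2 hv
  set y := e.symm v with hy
  have hys : y ∈ (toFL e).source := e.map_target hv'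
  have hey : toFL e y = φ v := by rw [P290.H445.toFL_apply, hy, e.right_inv hv']
  have d1 := ((M.diffeo t).smooth'.2 _ (chart_mem_atlas FL.C2 y) _ (chart_mem_atlas FL.C2 _) y
    (mem_chart_source FL.C2 y) (mem_chart_source FL.C2 _)).differentiableAt (by simp)
  have d2 : DifferentiableAt ℝ (fun z => chartAt FL.C2 y ((toFL e).symm z)) (toFL e y) :=
    (H869.max_trans_analyticAt h.mem_mAt (H869.atlas_subset_mAt (chart_mem_atlas FL.C2 y)) hys
      (mem_chart_source FL.C2 y)).differentiableAt.restrictScalars ℝ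
  have d3 : HasFDerivAt (fun u : V2 => φ u) ((φ : V2 →L[ℂ] FL.C2).restrictScalars ℝ) v :=
    ((φ : V2 →L[ℂ] FL.C2).restrictScalars ℝ).hasFDerivAt
  have d4 := HasFDerivAt.comp (f := fun u : V2 => φ u) v (hey ▸ d2.hasFDerivAt) d3
  have d5 := HasFDerivAt.comp v (by
    simp only [Function.comp, P290.H445.toFL_symm_apply, φ.symm_apply_apply]
    exact d1.hasFDerivAt) d4
  have h1 : (fun u => chartAt FL.C2 (pt M.toMPre a t v) (pt M.toMPre a t u)) =ᶠ[𝓝 v]
      H686.rep (M.homeo t).symm (chartAt FL.C2 y) (chartAt FL.C2 ((M.homeo t).symm y)) ∘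
        (fun z => chartAt FL.C2 y ((toFL e).symm z)) ∘ fun u : V2 => φ u := by
    filter_upwards [e.open_target.mem_nhds hv',
      (e.continuousAt_symm hv').eventually (chart_source_mem_nhds FL.C2 y)] with u hu hu'
    simp only [Function.comp, P290.H445.toFL_symm_apply, φ.symm_apply_apply, H686.rep]
    rw [(chartAt FL.C2 y).left_inv hu', h.symm_eq ((h.tgt u).1 hu), h.symm_eq hv]
  rw [(d5.congr_of_eventuallyEq h1).fderiv, Dch, hey]
  rfl

theorem loc_apply (P : TwoF X.X) (v ξ ζ : V2) : loc M.toMPre P a t v ξ ζ =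
    (val2 P (pt M.toMPre a t v)
      (fderiv ℝ (fun u => chartAt FL.C2 (pt M.toMPre a t v) (pt M.toMPre a t u)) v ξ)
      (fderiv ℝ (fun u => chartAt FL.C2 (pt M.toMPre a t v) (pt M.toMPre a t u)) v ζ)).re := rfl

theorem loc_alt (P : TwoF X.X) (v ξ ζ : V2) :
    loc M.toMPre P a t v ξ ζ = -loc M.toMPre P a t v ζ ξ := by
  rw [loc_apply, loc_apply, H686.val2_swap, Complex.neg_re]

theorem val2_real {P : TwoF X.X} (hP : P.Real) (x : X.X) (ξ ζ : FL.C2) :
    val2 P x ξ ζ = ((val2 P x ξ ζ).re : ℂ) := by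
  have h := H686.val2_bar P x ξ ζ
  rw [(FL.TwoF.real_iff_bar P).1 hP] at h
  exact (Complex.conj_eq_iff_re.1 h.symm).symm

theorem IsSl.val_eq (h : IsSl M.F t a e) {P Θ : TwoF X.X} (hP : P.Real) (hΘ : Θ.Real) {v : V2}
    (hv : (t, v) ∈ (M.F.triv a).target) (ξ ζ : V2) :
    val2 (push M.toMPre t (P + Θ)) (e.symm v) (Dch (toFL e) (e.symm v) (φ ξ))
      (Dch (toFL e) (e.symm v) (φ ζ)) =
      ((loc M.toMPre P a t v + loc M.toMPre Θ a t v) ξ ζ : ℝ) := by
  rw [push, H686.val2_pb2_apply, h.deriv_eq hv, h.deriv_eq hv, h.symm_eq hv, H686.val2_add',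
    val2_real hP, val2_real hΘ, ← Complex.ofReal_add]
  rfl

theorem IsSl.top_eq (h : IsSl M.F t a e) {P Θ : TwoF X.X} (hP : P.Real) (hΘ : Θ.Real) {v : V2}
    (hv : (t, v) ∈ (M.F.triv a).target) :
    2 * (((Dch (toFL e) (e.symm v)).det : ℂ) *
      (push M.toMPre t (P + Θ)).wedge (push M.toMPre t (P + Θ)) (e.symm v)) =
      (Pf (loc M.toMPre P a t v + loc M.toMPre Θ a t v) : ℝ) := by
  have h1 := H686.wd_comp (val2 (push M.toMPre t (P + Θ)) (e.symm v))
    (val2 (push M.toMPre t (P + Θ)) (e.symm v)) (H686.val2_swap _ _) (H686.val2_swap _ _)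
    (Dch (toFL e) (e.symm v)) (Pi.single 0 1) (Pi.single 0 Complex.I) (Pi.single 1 1)
    (Pi.single 1 Complex.I)
  have e1 : ∀ c : ℂ, (Pi.single 0 c : FL.C2) = φ (c, 0) := fun c => by
    funext i
    fin_cases i <;> simp
  have e2 : ∀ c : ℂ, (Pi.single 1 c : FL.C2) = φ (0, c) := fun c => by
    funext i
    fin_cases i <;> simp
  conv_rhs at h1 => rw [val2, H686.wd_ev2]
  rw [e1, e1, e2, e2, wd] at h1
  simp only [h.val_eq hP hΘ hv] at h1
  rw [FL.TwoF.wedge, Pf]
  push_cast at h1 ⊢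
  linear_combination (-1 / 2 : ℂ) * h1

end fam

end EnA

open EnA in
theorem en' : StEn := by
  refine ⟨1, one_pos, ?_⟩
  intro X V _ _ T M P Θ hP hP' hΘ hΘ' t hpos a Q Λ hQ hΛ hlo
  set b := (push M.toMPre t (P + Θ)).wedge (push M.toMPre t (P + Θ)) with hb
  have hs : (P + Θ).Smooth := H332.TwoF_smooth_add hP hΘ
  have hs' : (push M.toMPre t (P + Θ)).Smooth := H686.pb2_smooth (M.diffeo t).smooth' hs
  have hr : FL.Reg2 0 1 b := (H332.reg2_wedge hs' hs').zero_order
  have hpair : pair (P + Θ) (P + Θ) = FL.intX b :=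
    (H686.pair_pb2 (M.homeo t).symm (M.diffeo t).symm hs hs).symm
  have hdet : ∀ {a : T × X.X} {e : OpenPartialHomeomorph (M.k3 t).X V2}, IsSl M.F t a e →
      ∀ y ∈ e.source, 0 < (Dch (toFL e) y).det := fun h y hy =>
    @H686.Dch_det_pos _ _ (maxCS _) (maxM _) _ h.mem_mAt y hy
  have h0 : ∀ y, 0 ≤ (b y).re := by
    intro y
    obtain ⟨e, h⟩ : ∃ e : OpenPartialHomeomorph (M.k3 t).X V2, IsSl M.F t (Fib.val y) e :=
      ⟨_, isSl_fib (F := M.F) y⟩
    have hy : y ∈ e.source := (h.src y).2 (M.F.mem _)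
    have hv := (h.tgt _).1 (e.map_source hy)
    have h1 := congrArg Complex.re (h.top_eq hP' hΘ' hv)
    rw [e.left_inv hy] at h1
    have h2 := pf_ge _ _ (loc_alt P _) (loc_alt Θ _) le_rfl
      (fun ξ => by rw [zero_mul]; exact (hpos _ _ hv ξ).1) fun ξ => (hpos _ _ hv ξ).2
    rw [zero_mul] at h2
    simp only [Complex.mul_re, Complex.re_ofNat, Complex.im_ofNat, Complex.ofReal_re,
      Complex.ofReal_im, zero_mul, sub_zero] at h1
    rw [← h1] at h2
    exact nonneg_of_mul_nonneg_right (nonneg_of_mul_nonneg_right h2 two_pos) (hdet h y hy)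
  obtain ⟨x₀⟩ : Nonempty X.X := inferInstance
  obtain ⟨e, h⟩ : ∃ e : OpenPartialHomeomorph (M.k3 t).X V2, IsSl M.F t a e :=
    exists_sl (F := M.F) a (M.homeo t x₀)
  have hS : IsCompact (φ '' Q) := hQ.image φ.continuous
  have hSt : φ '' Q ⊆ (toFL e).target := by
    rintro _ ⟨v, hv, rfl⟩
    exact (h.tgt _).2 (hlo v hv).1
  have h1 := chart_le_max hr h0 h.mem_mAt hS hSt
  have h2 : MeasurePreserving (φ : V2 → FL.C2) volume volume :=
    (volume_preserving_finTwoArrow ℂ).symm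
  have h3 := h2.setIntegral_image_emb φ.toHomeomorph.measurableEmbedding
    (fun z => (FL.loc2 1 (toFL e) b z).re) Q
  have h4 : IntegrableOn (fun v => (FL.loc2 1 (toFL e) b (φ v)).re) Q := by
    refine ContinuousOn.integrableOn_compact hQ (Complex.continuous_re.comp_continuousOn ?_)
    exact (H869.Reg2.contDiffOn_max hr h.mem_mAt).continuousOn.comp φ.continuous.continuousOn
      fun v hv => hSt (mem_image_of_mem _ hv)
  rw [hpair, one_mul]
  refine le_trans ?_ (mul_le_mul_of_nonneg_left h1 hΛ.le)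
  rw [h3, ← integral_const_mul, ← integral_const_mul]
  refine integral_mono_of_nonneg ?_ ((h4.const_mul 4).const_mul Λ) ?_
  · filter_upwards [ae_restrict_mem hQ.measurableSet] with v hv
    have h5 := (hpos a v (hlo v hv).1 (1, 0)).2
    have h6 := (hpos a v (hlo v hv).1 (0, 1)).2
    simp only [Prod.smul_mk, smul_eq_mul, mul_one, mul_zero] at h5 h6
    exact add_nonneg h5 h6
  · filter_upwards [ae_restrict_mem hQ.measurableSet] with v hv
    have hv' : v ∈ e.target := (h.tgt v).2 (hlo v hv).1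
    have h5 := @H686.loc2_eq _ _ (maxCS _) (maxM _) _ h.mem_mAt (e.symm v) (e.map_target hv') b
    rw [P290.H445.toFL_apply, e.right_inv hv'] at h5
    have h6 := congrArg Complex.re (h.top_eq hP' hΘ' (hlo v hv).1)
    have h7 := pf_ge _ _ (loc_alt P v) (loc_alt Θ v) (μ := 1 / (2 * Λ)) (by positivity)
      (fun ξ => by
        have h8 := (hlo v hv).2 ξ
        have h9 := pow_le_pow_left₀ (norm_nonneg _) (norm_fst_le ξ) 2
        have h10 := pow_le_pow_left₀ (norm_nonneg _) (norm_snd_le ξ) 2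
        rw [div_mul_eq_mul_div, div_le_iff₀ (by positivity)]
        linarith) fun ξ => (hpos _ _ (hlo v hv).1 ξ).2
    rw [div_mul_eq_mul_div, div_le_iff₀ (by positivity)] at h7
    have h8 : (FL.loc2 1 (toFL e) b (φ v)).re = ((Dch (toFL e) (e.symm v)).det * b (e.symm v)).re :=
      congrArg Complex.re h5
    simp only [Complex.mul_re, Complex.re_ofNat, Complex.im_ofNat, Complex.ofReal_re,
      Complex.ofReal_im, zero_mul, sub_zero] at h6 h8
    rw [h8, En]
    rw [← h6] at h7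
    linarith

theorem en (_hL : StLoc) : StEn := en'

end Vale.Agent.P290Z.W.BR
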