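import Vale.Agent.P290Z.W.BRSpec

/-! P290Z, part III, block BR: the hypothesis of the abstract limit lemma for marked families
(`half`) and the limit lemma (`br`). -/

open Set Filter Metric MeasureTheory
open scoped Topology Manifold ContDiff

noncomputable section

namespace Vale.Agent.P290Z.W.BR

open Vale.Agent.P290 Vale.Agent.P290.H805 Vale.Agent.P267 Vale.Agent.P290Z.W.Kur
open Vale.Agent.P290Z.BR
open Vale.Agent.P267.FL (TwoF IsHerm)
open Vale.Agent.P267.BlockC (pair)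
open Vale.Agent.P290.H686 (pb2 val2 IsSm IsDiffeo)

namespace HalfA

/-- composition of a fibrewise holomorphic map with a holomorphic map between two fibres -/
theorem fh_comp {T E T' E' : Type} [TopologicalSpace T] [TopologicalSpace E] [TopologicalSpace T']
    [TopologicalSpace E'] {F : Family T E} {F' : Family T' E'} {t : T} {t' : T'}
    {g : Fib F t → Fib F' t'} {u : V2 → Fib F t} {v : V2} (hg : All.Hol g (u v))
    (hu : FH F t (fun w => (u w).val) v) : FH F' t' (fun w => (g (u w)).val) v := by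
  obtain ⟨-, h2, h3⟩ := hu
  have huc : ContinuousAt u v := isInducing_val.continuousAt_iff.2 h2
  refine ⟨Eventually.of_forall fun w => (g (u w)).prop,
    continuous_val.continuousAt.comp (ContinuousAt.comp (g := g) hg.1 huc), ?_⟩
  have h4 := DifferentiableAt.comp (f := fun w => fibChart F t (u v) (u w))
    (g := fun z => fibChart F' t' (g (u v)) (g ((fibChart F t (u v)).symm z))) v hg.2 h3
  refine h4.congr_of_eventuallyEq ?_
  filter_upwards [huc.eventually
    ((fibChart F t (u v)).open_source.mem_nhds (F.mem (u v).val))] with w hw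
  simp only [Function.comp]
  rw [(fibChart F t (u v)).left_inv hw]
  rfl

section pre

variable {X X' : K3} {T T' : Type} [TopologicalSpace T] [TopologicalSpace T']

theorem symm_eq (M : MPre X T) {x : T × X.X} {t : T} {v : V2} (h : (t, v) ∈ (M.F.triv x).target) :
    (M.F.triv x).symm (t, v) = (t, pt M x t v) := by
  have h1 := M.F.p_symm x h
  rw [M.p_eq] at h1
  exact Prod.ext h1 rfl

theorem triv_eq (M : MPre X T) {x : T × X.X} {t : T} {y : X.X}
    (h : (t, y) ∈ (M.F.triv x).source) : M.F.triv x (t, y) = (t, (M.F.triv x (t, y)).2) := by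
  have h1 := M.F.mk_eq x h
  rwa [M.p_eq] at h1

theorem mem_target (M : MPre X T) {x : T × X.X} {t : T} {y : X.X}
    (h : (t, y) ∈ (M.F.triv x).source) : (t, (M.F.triv x (t, y)).2) ∈ (M.F.triv x).target := by
  rw [← triv_eq M h]
  exact (M.F.triv x).map_source h

/-- a biholomorphic map between two members is fibrewise holomorphic in every chart -/
theorem fh_psi (M : MPre X T) (M' : MPre X' T') {t : T} {t' : T'}
    {f : (M.k3 t).X ≃ₜ (M'.k3 t').X} (hf : Bih f) {x : T × X.X} {v : V2}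
    (h : (t, v) ∈ (M.F.triv x).target) :
    FH M'.F t' (fun w => (t', psi M M' f (pt M x t w))) v := by
  have h1 : FH M.F t (fun w => (M.fibHomeo t (pt M x t w)).val) v := by
    refine (FH.mk_symm (v := fun w => w) differentiableAt_id h).congr ?_
    filter_upwards [((M.F.triv x).open_target.preimage
      (Continuous.prodMk_right t)).mem_nhds h] with w hw
    exact (symm_eq M hw).symm
  have h2 := fh_comp (g := f) (u := fun w => M.fibHomeo t (pt M x t w)) (hf.1 _) h1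
  refine h2.congr (Eventually.of_forall fun w => ?_)
  have h3 := (f (M.fibHomeo t (pt M x t w))).prop
  rw [M'.p_eq] at h3
  exact Prod.ext h3.symm rfl

theorem crd_diff (M : MPre X T) (M' : MPre X' T') {t : T} {t' : T'}
    {f : (M.k3 t).X ≃ₜ (M'.k3 t').X} (hf : Bih f) {x : T × X.X} {y : T' × X'.X} {v : V2}
    (h : (t, v) ∈ (M.F.triv x).target)
    (h' : (t', psi M M' f (pt M x t v)) ∈ (M'.F.triv y).source) :
    DifferentiableAt ℂ (crd M M' (psi M M' f) x y t t') v :=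
  (fh_psi M M' hf h).diff h'

theorem psi_symm (M : MPre X T) (M' : MPre X' T') {t : T} {t' : T'}
    (f : (M.k3 t).X ≃ₜ (M'.k3 t').X) : psi M' M f.symm = (psi M M' f).symm := rfl

end pre

theorem pair_sq {X : K3} {P Θ : TwoF X.X} (hP : P.Smooth) (hΘ : Θ.Smooth) :
    pair (P + Θ) (P + Θ) = pair P P + 2 * pair P Θ + pair Θ Θ := by
  have key : ∀ F F' G : TwoF X.X, F.Smooth → F'.Smooth → G.Smooth →
      pair (F + F') G = pair F G + pair F' G := fun F F' G h1 h2 h3 => by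
    rw [pair, H342.wedge_add_left]
    exact FL.intX_add (H332.reg2_wedge h1 h3) (H332.reg2_wedge h2 h3)
      (HasCompactSupport.of_compactSpace _) (HasCompactSupport.of_compactSpace _)
  rw [key P Θ _ hP hΘ (H332.TwoF_smooth_add hP hΘ), H342.pair_comm P, H342.pair_comm Θ,
    key P Θ P hP hΘ hP, key P Θ Θ hP hΘ hΘ, H342.pair_comm Θ P]
  ring

section fam

variable {X X' : K3} {V V' : Type} [NormedAddCommGroup V] [NormedSpace ℝ V]
  [NormedAddCommGroup V'] [NormedSpace ℝ V'] {T : Set V} {T' : Set V'}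

theorem psi_diffeo (hB : StBih) (M : MFam X V T) (M' : MFam X' V' T') {t : T} {t' : T'}
    {f : (M.k3 t).X ≃ₜ (M'.k3 t').X} (hf : Bih f) : IsDiffeo (psi M.toMPre M'.toMPre f) :=
  ((M.diffeo t).trans (hB _ _ f hf)).trans (M'.diffeo t').symm

/-- the pull back under a biholomorphic map, in charts -/
theorem loc_pb (hB : StBih) (hP : StLocPb) (M : MFam X V T) (M' : MFam X' V' T') {t : T} {t' : T'}
    {f : (M.k3 t).X ≃ₜ (M'.k3 t').X} (hf : Bih f) (P' : TwoF X'.X) {x : T × X.X} {y : T' × X'.X}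
    {v : V2} (h : (t, v) ∈ (M.F.triv x).target)
    (h' : (t', psi M.toMPre M'.toMPre f (pt M.toMPre x t v)) ∈ (M'.F.triv y).source) (ξ ζ : V2) :
    loc M.toMPre (pb2 (psi M.toMPre M'.toMPre f) P') x t v ξ ζ =
      loc M'.toMPre P' y t' (crd M.toMPre M'.toMPre (psi M.toMPre M'.toMPre f) x y t t' v)
        (fderiv ℂ (crd M.toMPre M'.toMPre (psi M.toMPre M'.toMPre f) x y t t') v ξ)
        (fderiv ℂ (crd M.toMPre M'.toMPre (psi M.toMPre M'.toMPre f) x y t t') v ζ) := by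
  rw [hP X X' V V' T T' M M' _ (psi_diffeo hB M M' hf).smooth P' x y t t' v h h' ξ ζ,
    (crd_diff M.toMPre M'.toMPre hf h h').fderiv_restrictScalars ℝ]
  rfl

theorem loc_nonneg (hT : StTameLoc) (M : MFam X V T) {P : TwoF X.X} (hP : SCR P) {t : T}
    (ht : Tames (push M.toMPre t P)) {x : T × X.X} {v : V2} (h : (t, v) ∈ (M.F.triv x).target)
    (ξ : V2) : 0 ≤ loc M.toMPre P x t v ξ (Complex.I • ξ) := by
  by_cases hξ : ξ = 0
  · simp [hξ]
  · exact ((hT X V T M P hP.1 hP.2.2 t).1 ht x v h ξ hξ).le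

/-- one map -/
theorem tm_one (hB : StBih) (hL : StLoc) (hP : StLocPb) (M : MFam X V T) (M' : MFam X' V' T')
    {t : T} {t' : T'} {f : (M.k3 t).X ≃ₜ (M'.k3 t').X} (hf : Bih f) {P' : TwoF X'.X}
    (hP' : SCR P') {ι : Type} {y : ι → T' × X'.X} {K : ι → Set V2} {δ Λ : ℝ}
    (hK : ∀ j, IsCompact (K j))
    (hΛ : ∀ j, ∀ v ∈ K j, (t', v) ∈ (M'.F.triv (y j)).target ∧ ∀ ξ ζ : V2,
      ‖ξ‖ ^ 2 ≤ Λ * loc M'.toMPre P' (y j) t' v ξ (Complex.I • ξ) ∧
        |loc M'.toMPre P' (y j) t' v ξ ζ| ≤ Λ * ‖ξ‖ * ‖ζ‖)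
    (hcov : ∀ z : X'.X, ∃ j, (t', z) ∈ (M'.F.triv (y j)).source ∧
      closedBall (M'.F.triv (y j) (t', z)).2 δ ⊆ K j) (x : T × X.X) :
    Tm K δ Λ {v | (t, v) ∈ (M.F.triv x).target}
      (fun j => {v | (t, v) ∈ (M.F.triv x).target ∧
        (t', psi M.toMPre M'.toMPre f (pt M.toMPre x t v)) ∈ (M'.F.triv (y j)).source})
      (fun j => crd M.toMPre M'.toMPre (psi M.toMPre M'.toMPre f) x (y j) t t')
      (loc M.toMPre (pb2 (psi M.toMPre M'.toMPre f) P') x t) := by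
  have hψ := psi_diffeo hB M M' hf
  have hΘ := H686.pb2_smooth hψ.smooth hP'.1
  have hΘc := H686.pb2_closed hψ.smooth hP'.1 hP'.2.1
  have hU : IsOpen {v : V2 | (t, v) ∈ (M.F.triv x).target} :=
    (M.F.triv x).open_target.preimage (Continuous.prodMk_right t)
  have hc : ∀ v : V2, (t, v) ∈ (M.F.triv x).target → ContinuousAt
      (fun w => ((t', psi M.toMPre M'.toMPre f (pt M.toMPre x t w)) : T' × X'.X)) v :=
    fun v hv => (fh_psi M.toMPre M'.toMPre hf hv).2.1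
  refine ⟨⟨hU, fun j => ?_, fun j v hv => hv.1, fun j v hv => ?_, fun v hv => ?_,
    fun j v hv hcl => ⟨hv, ?_⟩⟩, fun v hv => ?_, fun v hv => ?_, fun v hv => ?_,
    fun j v hv hk ξ => ?_, fun j v hv hk ξ ζ => ?_⟩
  · exact ContinuousOn.isOpen_inter_preimage (fun v hv => (hc v hv).continuousWithinAt) hU
      (M'.F.triv (y j)).open_source
  · exact (crd_diff M.toMPre M'.toMPre hf hv.1 hv.2).differentiableWithinAt
  · obtain ⟨j, h1, h2⟩ := hcov (psi M.toMPre M'.toMPre f (pt M.toMPre x t v))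
    exact ⟨j, ⟨hv, h1⟩, h2⟩
  · have hZ : IsCompact ((fun k : V2 => (M'.F.triv (y j)).symm (t', k)) '' K j) :=
      (hK j).image_of_continuousOn ((M'.F.triv (y j)).continuousOn_symm.comp
        (Continuous.prodMk_right t').continuousOn fun k hk => (hΛ j k hk).1)
    have h1 := (hc v hv).continuousWithinAt.mem_closure_image hcl
    have h2 := closure_minimal (t := (fun k : V2 => (M'.F.triv (y j)).symm (t', k)) '' K j)
      (by
        rintro _ ⟨w, ⟨hw1, hw2⟩, rfl⟩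
        refine ⟨_, hw2, ?_⟩
        have h3 := (M'.F.triv (y j)).left_inv hw1.2
        rw [triv_eq M'.toMPre hw1.2] at h3
        exact h3) hZ.isClosed h1
    obtain ⟨k, hk, hk'⟩ := h2
    have h4 := (M'.F.triv (y j)).map_target (hΛ j k hk).1
    have hk'' : (M'.F.triv (y j)).symm (t', k) =
      (t', psi M.toMPre M'.toMPre f (pt M.toMPre x t v)) := hk'
    rwa [hk''] at h4
  · exact (hL X V T M _ hΘ x t v hv).1.contDiffWithinAt
  · exact (hL X V T M _ hΘ x t v hv).2.2.1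
  · exact (hL X V T M _ hΘ x t v hv).2.2.2 hΘc
  · rw [loc_pb hB hP M M' hf P' hv.1 hv.2, map_smul]
    exact ((hΛ j _ hk).2 _ 0).1
  · rw [loc_pb hB hP M M' hf P' hv.1 hv.2]
    exact ((hΛ j _ hk).2 _ _).2

end fam

end HalfA

open HalfA

/-- HALF: the hypothesis of the abstract limit lemma -/
theorem half (hB : StBih) (hL : StLoc) (hP : StLocPb) (hT : StTameLoc) (hO : StTameOpen)
    (hA : StAtl) (hE : StEn) : StHalf := by
  intro X X' V V' _ _ _ _ T T' M M' s s' P P' h1 h1' h2 h2' a b ha hb f hf C hC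
  obtain ⟨hA1, ι, hι, y, K, δ, hδ, hK, hKt, hcov⟩ := hA X' V' T' M' s'
  choose L hL0 hL1 using fun j => hA1 P' h1'.1 h1'.2.2 h2' (y j).val (K j) (hK j) (hKt j)
  obtain ⟨Λ₁, hΛ₁⟩ := Finite.exists_le L
  obtain ⟨c, hc, hE'⟩ := hE
  have hΛ : ∀ᶠ t' in 𝓝 s', ∀ j, ∀ v ∈ K j, (t', v) ∈ (M'.F.triv (y j).val).target ∧ ∀ ξ ζ : V2,
      ‖ξ‖ ^ 2 ≤ max Λ₁ 1 * loc M'.toMPre P' (y j).val t' v ξ (Complex.I • ξ) ∧
        |loc M'.toMPre P' (y j).val t' v ξ ζ| ≤ max Λ₁ 1 * ‖ξ‖ * ‖ζ‖ := by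
    refine eventually_all.2 fun j => ?_
    have hle : L j ≤ max Λ₁ 1 := (hΛ₁ j).trans (le_max_left _ _)
    filter_upwards [hL1 j] with t' ht' v hv
    refine ⟨(ht' v hv).1, fun ξ ζ => ?_⟩
    obtain ⟨e1, e2⟩ := (ht' v hv).2 ξ ζ
    have e3 : 0 ≤ loc M'.toMPre P' (y j).val t' v ξ (Complex.I • ξ) :=
      nonneg_of_mul_nonneg_right ((sq_nonneg _).trans e1) (hL0 j)
    exact ⟨e1.trans (mul_le_mul_of_nonneg_right hle e3), e2.trans (by gcongr)⟩
  refine ⟨⟨ι, hι, y, K, δ, max Λ₁ 1, hδ, lt_of_lt_of_le one_pos (le_max_right _ _), hK, hKt, ha,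
    hb, fun n x v hv => fh_psi M.toMPre M'.toMPre (hf n) hv, fun x Q hQ hQt => ?_⟩⟩
  obtain ⟨Λ₀, hΛ₀, hΛ₀'⟩ := (hA X V T M s).1 P h1.1 h1.2.2 h2 x Q hQ hQt
  refine ⟨c * Λ₀ * ((pair P P).re + 2 * C + (pair P' P').re),
    fun n => loc M.toMPre (pb2 (psi M.toMPre M'.toMPre (f n)) P') x (a n), ?_⟩
  filter_upwards [hb.eventually hΛ, hb.eventually hcov, ha.eventually hΛ₀',
    ha.eventually (hO X V T M P h1.1 h1.2.2 s h2),
    hb.eventually (hO X' V' T' M' P' h1'.1 h1'.2.2 s' h2')] with n e1 e2 e3 e4 e5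
  refine ⟨tm_one hB hL hP M M' (hf n) h1' hK e1 e2 x, fun v hv => (e3 v hv).1, ?_⟩
  have hψ := psi_diffeo hB M M' (hf n)
  have hΘ := H686.pb2_smooth hψ.smooth h1'.1
  have e6 := hE' X V T M P _ h1.1 h1.2.2 hΘ (H686.pb2_real _ h1'.2.2) (a n)
    (fun z v hv ξ => ⟨loc_nonneg hT M h1 e4 hv ξ, by
      have h3 := M'.F.mem (b n, psi M.toMPre M'.toMPre (f n) (pt M.toMPre z (a n) v))
      rw [loc_pb hB hP M M' (hf n) P' hv h3, map_smul]
      exact loc_nonneg hT M' h1' e5 (mem_target M'.toMPre h3) _⟩)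
    x Q Λ₀ hQ hΛ₀ (fun v hv => ⟨(e3 v hv).1, fun ξ => ((e3 v hv).2 ξ 0).1⟩)
  refine e6.trans (mul_le_mul_of_nonneg_left ?_ (by positivity))
  rw [pair_sq h1.1 hΘ, H686.pair_pb2 _ hψ h1'.1 h1'.1]
  have e7 := hC n
  simp only [Complex.add_re, Complex.mul_re, Complex.re_ofNat, Complex.im_ofNat, zero_mul,
    sub_zero]
  linarith

/-- **BR**: the limit lemma -/
theorem br (hB : StBih) (hH : StHalf) (hJ : StJac) (hC : StCore) : StBR := by
  intro X X' V V' _ _ _ _ T T' M M' s s' P P' h1 h1' h2 h2' a b ha hb f hf C hb0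
  have hf' : ∀ n, Bih (f n).symm := fun n => ⟨(hf n).2, (hf n).1⟩
  have H1 := hH X X' V V' T T' M M' s s' P P' h1 h1' h2 h2' a b ha hb f hf C hb0
  have H2 := hH X' X V' V T' T M' M s' s P' P h1' h1 h2' h2 b a hb ha (fun n => (f n).symm) hf' C
    fun n => by
      have hψ := psi_diffeo hB M M' (hf n)
      rw [psi_symm, ← H686.pair_pb2 _ hψ h1'.1 (H686.pb2_smooth hψ.smooth' h1.1),
        H686.pb2_pb2_symm _ hψ, H342.pair_comm]
      exact hb0 n
  obtain ⟨c, hc, l1, l2⟩ := hJ X X' T T' M.toMPre M'.toMPre a b f hf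
  have : CompactSpace (Fib M.F s) := (M.k3 s).compact
  have : CompactSpace (Fib M'.F s') := (M'.k3 s').compact
  have : Nonempty (Fib M.F s) := (M.k3 s).conn.toNonempty
  have : Nonempty (Fib M'.F s') := (M'.k3 s').conn.toNonempty
  refine hC T (T × X.X) T' (T' × X'.X) M.F M'.F s s' a b _ _ H1 H2 (fun n q hq => ?_)
    (fun n q hq => ?_) M.vol M'.vol c
    (fun x q hq => ⟨(M.rel x q.1 q.2 hq).1, (M.rel x q.1 q.2 hq).2.2.1⟩)
    (fun x q hq => ⟨(M'.rel x q.1 q.2 hq).1, (M'.rel x q.1 q.2 hq).2.2.1⟩) hc l1 l2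
  · rw [M.p_eq] at hq
    exact Prod.ext hq.symm ((psi M.toMPre M'.toMPre (f n)).symm_apply_apply q.2)
  · rw [M'.p_eq] at hq
    exact Prod.ext hq.symm ((psi M.toMPre M'.toMPre (f n)).apply_symm_apply q.2)

end Vale.Agent.P290Z.W.BR
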