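import Vale.Agent.P290Z.W.BRSpec
import Vale.Agent.P290.H686.Lin

/-! P290Z, part III, block BR, step TAMELOC: taming in the charts of the members. -/

open Set Filter Metric MeasureTheory
open scoped Topology Manifold ContDiff ComplexConjugate ComplexOrder Matrix

noncomputable section

namespace Vale.Agent.P290Z.W.BR

open Vale.Agent.P290 Vale.Agent.P290.H805 Vale.Agent.P267 Vale.Agent.P290Z.W.Kur
open Vale.Agent.P290Z.BR
open Vale.Agent.P267.FL (TwoF IsHerm)
open Vale.Agent.P290.H686 (pb2 val2 IsSm IsDiffeo ev2 ev2_apply Df rep val2_pb2_apply pb2_smooth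
  pb2_real)
open Vale.Agent.P290.H445 (φ)

namespace TL

/-- value of a two-form on the pair `w`, `I w` -/
theorem ev2_I (f g : ℂ) (h : Matrix (Fin 2) (Fin 2) ℂ) (w : FL.C2) :
    ev2 f (Complex.I • h) g w (Complex.I • w) = 2 * (star (star w) ⬝ᵥ (h *ᵥ star w)) := by
  have hI : Complex.I * Complex.I = -1 := Complex.I_mul_I
  rw [ev2_apply, star_star]
  simp only [Fin.sum_univ_two, Pi.smul_apply, smul_eq_mul, Matrix.smul_apply, map_mul,
    Complex.conj_I, dotProduct, Matrix.mulVec, Pi.star_apply, Complex.star_def]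
  linear_combination (-2 * (h 0 0 * w 0 * conj (w 0) + h 0 1 * w 0 * conj (w 1) +
    h 1 0 * w 1 * conj (w 0) + h 1 1 * w 1 * conj (w 1))) * hI

section gen

variable {Y : Type*} [TopologicalSpace Y] [ChartedSpace FL.C2 Y]

theorem pos_of_herm {Q : TwoF Y} {h : Y → Matrix (Fin 2) (Fin 2) ℂ} (hh : IsHerm h)
    (hQ : Q.f11 = fun x => Complex.I • h x) (y : Y) {w : FL.C2} (hw : w ≠ 0) :
    0 < (val2 Q y w (Complex.I • w)).re := by
  have h1 : Q.f11 y = Complex.I • h y := congrFun hQ y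
  have h2 : (star w : FL.C2) ≠ 0 := fun h0 => hw (star_eq_zero.1 h0)
  have h3 := (hh.posDef y).dotProduct_mulVec_pos h2
  have h4 := (Complex.pos_iff.1 h3).1
  rw [val2, h1, ev2_I]
  simp only [Complex.mul_re, Complex.re_ofNat, Complex.im_ofNat, zero_mul, sub_zero]
  linarith

theorem herm_of_pos {Q : TwoF Y} (hs : Q.Smooth) (hr : Q.Real)
    (hp : ∀ (y : Y) (w : FL.C2), w ≠ 0 → 0 < (val2 Q y w (Complex.I • w)).re) :
    ∃ h : Y → Matrix (Fin 2) (Fin 2) ℂ, IsHerm h ∧ Q.f11 = fun x => Complex.I • h x := by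
  have hI : Complex.I * Complex.I = -1 := Complex.I_mul_I
  have key : ∀ x, Q.f11 x = Complex.I • ((-Complex.I) • Q.f11 x) := by
    intro x
    rw [smul_smul, mul_neg, hI, neg_neg, one_smul]
  refine ⟨fun x => (-Complex.I) • Q.f11 x, ⟨fun y => ?_, ?_⟩, funext key⟩
  · have hH : ((-Complex.I) • Q.f11 y).IsHermitian := by
      ext i j
      rw [Matrix.conjTranspose_apply, Matrix.smul_apply, Matrix.smul_apply, (hr y).2 i j]
      simp only [smul_eq_mul, Complex.star_def, map_mul, map_neg, Complex.conj_I,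
        Complex.conj_conj]
      ring
    refine Matrix.PosDef.of_dotProduct_mulVec_pos hH fun x hx => ?_
    have h2 : (star x : FL.C2) ≠ 0 := fun h0 => hx (star_eq_zero.1 h0)
    have h3 := hp y (star x) h2
    rw [val2, key y, ev2_I] at h3
    simp only [star_star, Complex.mul_re, Complex.re_ofNat, Complex.im_ofNat, zero_mul, sub_zero] at h3
    refine Complex.pos_iff.2 ⟨by linarith, ?_⟩
    have h4 := hH.im_star_dotProduct_mulVec_self x
    exact h4.symm
  · intro e he i j
    have h1 := (hs.s11 e he i j).const_smul (-Complex.I)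
    refine h1.congr fun z _ => ?_
    simp only [FL.loc11, Matrix.of_apply, Matrix.smul_apply, smul_eq_mul, Fin.sum_univ_two]
    ring

end gen

section fam

variable {X : K3} {T : Type} [TopologicalSpace T]

theorem mk_pt (M : MPre X T) {a : T × X.X} {t : T} {v : V2}
    (h : (t, v) ∈ (M.F.triv a).target) : (M.F.triv a).symm (t, v) = (t, pt M a t v) := by
  have h1 := M.F.p_symm a h
  rw [M.p_eq] at h1
  exact Prod.ext h1 rfl

theorem triv_mk (M : MPre X T) {a : T × X.X} {t : T} {x : X.X}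
    (h : (t, x) ∈ (M.F.triv a).source) : M.F.triv a (t, x) = (t, (M.F.triv a (t, x)).2) := by
  have h1 := M.F.mk_eq a h
  rwa [M.p_eq] at h1

theorem pt_triv (M : MPre X T) {a : T × X.X} {t : T} {x : X.X}
    (h : (t, x) ∈ (M.F.triv a).source) : pt M a t (M.F.triv a (t, x)).2 = x := by
  rw [pt, ← triv_mk M h, (M.F.triv a).left_inv h]

/-- the change of coordinates from the chart `a` to the chart `b` of the member over `t` -/
def chg (M : MPre X T) (a b : T × X.X) (t : T) (u : V2) : V2 :=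
  (M.F.triv b ((M.F.triv a).symm (t, u))).2

theorem chg_eventually (M : MPre X T) {a b : T × X.X} {t : T} {v : V2}
    (h : (t, v) ∈ (M.F.triv a).target) (h' : (M.F.triv a).symm (t, v) ∈ (M.F.triv b).source) :
    ∀ᶠ u in 𝓝 v, (t, chg M a b t u) ∈ (M.F.triv b).target ∧
      (M.F.triv b).symm (t, chg M a b t u) = (M.F.triv a).symm (t, u) ∧
      (t, u) ∈ (M.F.triv a).target := by
  have c1 : ContinuousAt (fun u : V2 => ((t, u) : T × V2)) v :=
    (Continuous.prodMk_right t).continuousAt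
  have h1 : ∀ᶠ u in 𝓝 v, (t, u) ∈ (M.F.triv a).target :=
    c1.eventually ((M.F.triv a).open_target.mem_nhds h)
  have c2 : ContinuousAt (fun u : V2 => (M.F.triv a).symm (t, u)) v :=
    ContinuousAt.comp (g := (M.F.triv a).symm) (f := fun u : V2 => ((t, u) : T × V2))
      ((M.F.triv a).continuousAt_symm h) c1
  have h2 : ∀ᶠ u in 𝓝 v, (M.F.triv a).symm (t, u) ∈ (M.F.triv b).source :=
    c2.eventually ((M.F.triv b).open_source.mem_nhds h')
  filter_upwards [h1, h2] with u hu1 hu2
  have e1 : M.F.triv b ((M.F.triv a).symm (t, u)) = (t, chg M a b t u) := by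
    have e2 := M.F.mk_eq b hu2
    rwa [M.F.p_symm a hu1] at e2
  refine ⟨?_, ?_, hu1⟩
  · rw [← e1]
    exact (M.F.triv b).map_source hu2
  · rw [← e1, (M.F.triv b).left_inv hu2]

theorem chg_diff (M : MPre X T) {a b : T × X.X} {t : T} {v : V2}
    (h : (t, v) ∈ (M.F.triv a).target) (h' : (M.F.triv a).symm (t, v) ∈ (M.F.triv b).source) :
    DifferentiableAt ℂ (chg M a b t) v :=
  (M.F.hol a b t v h h').differentiableAt (by simp)

theorem chg_bij (M : MPre X T) {a b : T × X.X} {t : T} {v : V2}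
    (h : (t, v) ∈ (M.F.triv a).target) (h' : (M.F.triv a).symm (t, v) ∈ (M.F.triv b).source) :
    Function.Bijective (fderiv ℂ (chg M a b t) v) := by
  have h1 := chg_eventually M h h'
  obtain ⟨h2, h3, -⟩ := h1.self_of_nhds
  have d1 := chg_diff M h h'
  have d2 : DifferentiableAt ℂ (chg M b a t) (chg M a b t v) :=
    chg_diff M h2 (by rw [h3]; exact (M.F.triv a).map_target h)
  have e1 : (fun u => chg M b a t (chg M a b t u)) =ᶠ[𝓝 v] id := by
    filter_upwards [h1] with u hu
    rw [chg, hu.2.1, (M.F.triv a).right_inv hu.2.2]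
    rfl
  have e2 := e1.fderiv_eq (𝕜 := ℂ)
  rw [fderiv_fun_comp v d2 d1, fderiv_id] at e2
  have hinj : Function.Injective (fderiv ℂ (chg M a b t) v) := by
    intro ξ ζ hξ
    have e3 := congrArg (fun L : V2 →L[ℂ] V2 => L ξ) e2
    have e4 := congrArg (fun L : V2 →L[ℂ] V2 => L ζ) e2
    simp only [ContinuousLinearMap.comp_apply, ContinuousLinearMap.id_apply] at e3 e4
    rw [← e3, ← e4, hξ]
  exact ⟨hinj, LinearMap.injective_iff_surjective
    (f := (fderiv ℂ (chg M a b t) v : V2 →ₗ[ℂ] V2)) |>.1 hinj⟩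

/-- the form in a chart is the form on the member, up to a complex linear isomorphism -/
theorem loc_eq (M : MPre X T) (P : TwoF X.X) {a : T × X.X} {t : T} {v : V2}
    (hs : IsSm (M.homeo t).symm) (h : (t, v) ∈ (M.F.triv a).target) :
    ∃ L : V2 →L[ℂ] FL.C2, Function.Bijective L ∧ ∀ ξ ζ, loc M P a t v ξ ζ =
      (val2 (push M t P) (M.homeo t (pt M a t v)) (L ξ) (L ζ)).re := by
  set x := pt M a t v with hx
  set y : (M.k3 t).X := M.homeo t x with hy
  have hb : (M.F.triv a).symm (t, v) ∈ (M.F.triv (t, x)).source := by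
    rw [mk_pt M h]
    exact M.F.mem _
  have h1 := chg_eventually M h hb
  have d1 := chg_diff M h hb
  have hψ : (M.homeo t).symm y = x := (M.homeo t).symm_apply_apply x
  have hc : chartAt FL.C2 y y = φ (chg M a (t, x) t v) := by
    rw [chg, mk_pt M h]
    rfl
  have d2 : DifferentiableAt ℝ (rep (M.homeo t).symm (chartAt FL.C2 y) (chartAt FL.C2 x))
      (φ (chg M a (t, x) t v)) := by
    rw [← hc]
    refine (hs.2 _ (chart_mem_atlas FL.C2 y) _ (chart_mem_atlas FL.C2 x) y
      (mem_chart_source FL.C2 y) ?_).differentiableAt (by simp)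
    rw [hψ]
    exact mem_chart_source FL.C2 x
  have e1 : (fun u => chartAt FL.C2 x (pt M a t u)) =ᶠ[𝓝 v] fun u =>
      rep (M.homeo t).symm (chartAt FL.C2 y) (chartAt FL.C2 x) (φ (chg M a (t, x) t u)) := by
    filter_upwards [h1] with u hu
    have e2 : ((fibChart M.F t y).symm (chg M a (t, x) t u)).val = (M.F.triv a).symm (t, u) :=
      (fibChart_symm_val M.F t y hu.1).trans hu.2.1
    have e3 : (M.homeo t).symm ((chartAt FL.C2 y).symm (φ (chg M a (t, x) t u))) = pt M a t u :=
      congrArg Prod.snd e2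
    rw [rep, e3]
  set L : V2 →L[ℂ] FL.C2 := (φ : V2 →L[ℂ] FL.C2).comp (fderiv ℂ (chg M a (t, x) t) v) with hL
  have d3 : HasFDerivAt (fun u => φ (chg M a (t, x) t u)) (L.restrictScalars ℝ) v :=
    HasFDerivAt.restrictScalars ℝ
      ((φ : V2 →L[ℂ] FL.C2).hasFDerivAt.comp v d1.hasFDerivAt)
  have d4 := HasFDerivAt.comp (f := fun u => φ (chg M a (t, x) t u)) v d2.hasFDerivAt d3
  have e4 : fderiv ℝ (fun u => chartAt FL.C2 x (pt M a t u)) v =
      (Df (M.homeo t).symm y).comp (L.restrictScalars ℝ) := by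
    rw [e1.fderiv_eq, Df, hψ, hc]
    exact d4.fderiv
  refine ⟨L, φ.bijective.comp (chg_bij M h hb), fun ξ ζ => ?_⟩
  rw [push, val2_pb2_apply, hψ, loc, ← hx, e4]
  rfl

end fam

end TL

open TL in
/-- TAMELOC -/
theorem tameLoc : StTameLoc := by
  intro X V _ _ T M P hP hR t
  have hs : IsSm (M.toMPre.homeo t).symm := (M.diffeo t).smooth'
  constructor
  · rintro ⟨h, hh, hQ⟩ a v hv ξ hξ
    obtain ⟨L, hL, he⟩ := loc_eq M.toMPre P hs hv
    rw [he, map_smul]
    exact pos_of_herm hh hQ _ fun h0 => hξ (hL.1 (h0.trans (map_zero L).symm))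
  · intro H
    refine herm_of_pos (pb2_smooth hs hP) (pb2_real _ hR) fun y w hw => ?_
    obtain ⟨a, ha, hp⟩ := H ((M.toMPre.homeo t).symm y)
    have hv : (t, (M.F.triv a (t, (M.toMPre.homeo t).symm y)).2) ∈ (M.F.triv a).target := by
      rw [← triv_mk M.toMPre ha]
      exact (M.F.triv a).map_source ha
    obtain ⟨L, hL, he⟩ := loc_eq M.toMPre P hs hv
    obtain ⟨ξ, rfl⟩ := hL.2 w
    have h1 := hp ξ fun h0 => hw (by rw [h0, map_zero])
    rw [he, map_smul, pt_triv M.toMPre ha, Homeomorph.apply_symm_apply] at h1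
    exact h1

end Vale.Agent.P290Z.W.BR
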