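import Vale.Agent.P290Z.BR.CoreAll
import Vale.Agent.P290Z.W.BRAtl
import Vale.Agent.P290Z.W.BRBih
import Vale.Agent.P290Z.W.BREn
import Vale.Agent.P290Z.W.BRHalf
import Vale.Agent.P290Z.W.BRJac
import Vale.Agent.P290Z.W.BRLoc
import Vale.Agent.P290Z.W.BRTameLoc

/-! P290Z, part III, block BR: the limit lemma for marked families, without hypotheses. -/

namespace Vale.Agent.P290Z.W.BR

theorem stAtl : StAtl := atl loc_ tameLoc

/-- taming is an open condition -/
theorem stTameOpen : StTameOpen := tameOpen tameLoc stAtl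

theorem stHalf : StHalf := half bih loc_ locPb tameLoc stTameOpen stAtl en'

/-- **BR**: the limit lemma -/
theorem stBR : StBR := br bih stHalf jac_ Vale.Agent.P290Z.BR.coreAll

end Vale.Agent.P290Z.W.BR
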