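import Vale.Agent.P290.H722.Neg
import Vale.Agent.P290Z.W.Defs
import Vale.Agent.P290Z.W.H416K3U
import Vale.Agent.P290Z.W.H362Iface

/-!
# P290 (helper722): the inputs NegInput and Indep of the assembly for a `Geo` on helper342's lattice

`UGeo G U` : the lattice `G.T.H` is identified by `τ` with the lattice `Fin N → ℤ` of `U`, compatibly
with the form, the classes of norm functions and the periods. For helper342's `geo` all fields are
definitional (`τ` = identity).
-/

open scoped Manifold ContDiff Topology ComplexConjugate Matrix ComplexOrder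
open Set Filter Vale.Agent.P267 Vale.Agent.P267.H757 Vale.Agent.P267.H332 Vale.Agent.P267.FL
open Vale.Agent.P290.H342 Vale.Agent.P267.BlockC Vale.Agent.P267.RR
open Vale.Agent.P290.H362 hiding Geo IsLat
open Vale.Agent.P290Z.W.H362
open Vale.Agent.P290.H445 hiding instFLCharted instManifold instManifoldFL instT2 instCompact
  instConnected instSecondCountable instLocPathConnected mem_atlas_toFL mem_atlas_iff chartAt_FL
  jacM_det Om Om_ne_zero loc_Om HolOn_Om Reg0_Om holOn_zero_iff const_of_hol holOn_one
open Vale.Agent.P290Z.W.H445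

noncomputable section

namespace Vale.Agent.P290Z.W.H722

open Vale.Agent.P290 Vale.Agent.P290.H722

variable {X : K3} {N : ℕ}

/-- `G` lives on the lattice of `U` -/
structure UGeo (G : Geo X) (U : UData X.X N) where
  τ : G.T.H ≃+ (Fin N → ℤ)
  B : ∀ x y, U.B (τ x) (τ y) = G.T.B x y
  cl : ∀ N' : X.X → ℝ, IsNormFn FL.C2 N' → U.HasCl (cF N') (τ (G.T.cl N'))
  σ : ∀ x, G.σ x = pair ⟨Om X, 0, 0⟩ (U.comb (τ x))

variable {G : Geo X} {U : UData X.X N} (T : UGeo G U)

end Vale.Agent.P290Z.W.H722
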