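import Vale.Agent.P290.H342.LatInst
import Vale.Agent.P290Z.W.Defs
import Vale.Agent.P290Z.W.H416K3FL
import Vale.Agent.P290Z.W.H445Coh
import Vale.Agent.P290Z.W.H445Lef
import Vale.Agent.P290Z.W.H445IntK
import Vale.Agent.P290Z.W.H416K3U
import Vale.Agent.P290Z.W.H470C2
import Vale.Agent.P290Z.W.H362Iface
import Vale.Agent.P290Z.W.H342GeoInst
import Vale.Agent.P290Z.W.H722Neg

/-!
# P290 (helper342): elliptic K3 surfaces with `UData`, from Riemann-Roch and the twists
-/

set_option linter.unusedSectionVars false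

open scoped Manifold ContDiff ComplexConjugate Topology
open Set

noncomputable section

namespace Vale.Agent.P290Z.W.H342

open Vale.Agent.P290 Vale.Agent.P290.H342

open Vale.Agent.P267 Vale.Agent.P267.FL Vale.Agent.P267.BlockC Vale.Agent.P267.RR
open Vale.Agent.P267.H332 Vale.Agent.P267.H757
open Vale.Agent.P290.H445 hiding instFLCharted instManifold instManifoldFL instT2 instCompact
  instConnected instSecondCountable instLocPathConnected mem_atlas_toFL mem_atlas_iff chartAt_FL
  jacM_det Om Om_ne_zero loc_Om HolOn_Om Reg0_Om holOn_zero_iff const_of_hol holOn_one H01 OmI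
  OmI_mul Om_mul loc0_Om_ne_zero HolOn_OmI Reg0_OmI isCanon_OX act_smul' db0_mul db1_mul mulOm
  H0_one h0_one sec_one act_one h0_O h1_O chi_O intX_zero curv_OX isec_OX chi_eq rr_ineq OmC
  Reg2_OmC h2_O exists_dbar1 intX_dbar1 lefschetz intFactsK rr_of_orth
open Vale.Agent.P290Z.W.H445

variable {Z : K3} {N : ℕ} (U : UData Z.X N)

theorem isLat_geo (hF : FiniteStmt Z.X) (hS : SerreStmt Z.X) (hR : RRStmt Z.X)
    (heven : ∀ k, Even (U.B k k)) : H362.IsLat (geo U hF hS hR) where
  finite := by
    show Module.Finite ℤ (Fin N → ℤ)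
    infer_instance
  free := by
    show Module.Free ℤ (Fin N → ℤ)
    infer_instance
  unimod f := by
    obtain ⟨k, hk⟩ := U.unimod f
    exact ⟨k, fun y => (hk y).symm⟩
  even := heven

theorem h02 (hS : SerreStmt Z.X) : H416.H02 Z :=
  fun _ hb h0 => exists_dbar1 Z hS (intFactsK Z) hb h0

/-- helper722's record, for `geo` -/
def uGeo (hF : FiniteStmt Z.X) (hS : SerreStmt Z.X) (hR : RRStmt Z.X) :
    H722.UGeo (geo U hF hS hR) U where
  τ := AddEquiv.refl _
  B _ _ := rfl
  cl _ h := U.clN_spec (nflbY Z.X) h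
  σ _ := rfl

end Vale.Agent.P290Z.W.H342
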