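import Vale.Agent.P290.H416.K3Hi
import Vale.Agent.P290Z.W.Defs
import Vale.Agent.P290Z.W.H416K3U

/-! P290 / H416, package F2-ISO: the Hodge index theorem for the classes of type `(1,1)` of a K3
surface (no Kaehler metric): `m² > 0`, `m.x = 0`, `σ(m) = σ(x) = 0` imply `x² ≤ 0`, with equality
only for `x = 0`. -/

open scoped Manifold ContDiff Topology ComplexConjugate Matrix ComplexOrder
open Set Filter Vale.Agent.P267 Vale.Agent.P267.H332 Vale.Agent.P267.FL
open Vale.Agent.P267.H469 Vale.Agent.P267.H661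
open Vale.Agent.P290.H342 Vale.Agent.P267.BlockC Vale.Agent.P267.RR
open Vale.Agent.P290.H445 hiding instFLCharted instManifold instManifoldFL instT2 instCompact
  instConnected instSecondCountable instLocPathConnected mem_atlas_toFL mem_atlas_iff chartAt_FL
  jacM_det Om Om_ne_zero loc_Om HolOn_Om Reg0_Om holOn_zero_iff const_of_hol holOn_one
open Vale.Agent.P290Z.W.H445

namespace Vale.Agent.P290Z.W.H416

open Vale.Agent.P290 Vale.Agent.P290.H416

noncomputable section

section abs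

variable {Ω0 Ω1 Ω2 Ω3 : Type*} [AddCommGroup Ω0] [Module ℂ Ω0] [AddCommGroup Ω1]
    [Module ℂ Ω1] [AddCommGroup Ω2] [Module ℂ Ω2] [AddCommGroup Ω3] [Module ℂ Ω3]

variable {C : Calc Ω0 Ω1 Ω2 Ω3}

namespace GFun

variable (A : GFun C)

end GFun

variable {H : Type*} [AddCommGroup H] (T : FLat C H)

namespace FLat

end FLat

end abs

section U

variable {X : K3} {N : ℕ} (U : UData X.X N)

/-- **Hodge index** for the classes of type `(1,1)`. -/
theorem hodge_pos (hS : H02 X) {m x : Fin N → ℤ} (hm : 0 < U.B m m) (hmx : U.B m x = 0)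
    (hσm : sig U m = 0) (hσ : sig U x = 0) : U.B x x ≤ 0 ∧ (U.B x x = 0 → x = 0) := by
  obtain ⟨g, hg⟩ := exists_isHerm X.X
  exact (flat hg U).hodge_pos (scal0 hg) (Om := OmL X) (D2_OmL X) rfl
    (fun b hb h0 => hS.abs hg b hb h0) hm hmx hσm hσ

/-- **Hodge index**, with the normalisation `σ(x) = pair Om (comb x)` -/
theorem hodge_pair (hS : H02 X) {m x : Fin N → ℤ} (hm : 0 < U.B m m) (hmx : U.B m x = 0)
    (hσm : pair ⟨Om X, 0, 0⟩ (U.comb m) = 0) (hσ : pair ⟨Om X, 0, 0⟩ (U.comb x) = 0) :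
    U.B x x ≤ 0 ∧ (U.B x x = 0 → x = 0) :=
  hodge_pos U hS hm hmx ((sig_zero_iff_pair U m).2 hσm) ((sig_zero_iff_pair U x).2 hσ)

end U

end

end Vale.Agent.P290Z.W.H416
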