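import Vale.Agent.P290.H416.K3Dep
import Vale.Agent.P290Z.W.Defs
import Vale.Agent.P290Z.W.H416K3U
import Vale.Agent.P290Z.W.H416K3Hi

/-! P290 / H416, package F2-ISO: two orthogonal isotropic classes of type `(1,1)` are linearly
dependent. -/

open scoped Manifold ContDiff Topology ComplexConjugate Matrix ComplexOrder
open Set Filter Vale.Agent.P267 Vale.Agent.P267.H332 Vale.Agent.P267.FL
open Vale.Agent.P267.H469 Vale.Agent.P267.H661
open Vale.Agent.P290.H342 Vale.Agent.P267.BlockC Vale.Agent.P267.RR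
open Vale.Agent.P290.H445 hiding instFLCharted instManifold instManifoldFL instT2 instCompact
  instConnected instSecondCountable instLocPathConnected mem_atlas_toFL mem_atlas_iff chartAt_FL
  jacM_det Om Om_ne_zero loc_Om HolOn_Om Reg0_Om holOn_zero_iff const_of_hol holOn_one
open Vale.Agent.P290Z.W.H445

namespace Vale.Agent.P290Z.W.H416

open Vale.Agent.P290 Vale.Agent.P290.H416

noncomputable section

section abs

variable {Ω0 Ω1 Ω2 Ω3 : Type*} [AddCommGroup Ω0] [Module ℂ Ω0] [AddCommGroup Ω1]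
    [Module ℂ Ω1] [AddCommGroup Ω2] [Module ℂ Ω2] [AddCommGroup Ω3] [Module ℂ Ω3]

variable {C : Calc Ω0 Ω1 Ω2 Ω3}

namespace GFun

variable (A : GFun C)

end GFun

variable {H : Type*} [AddCommGroup H] (T : FLat C H)

namespace FLat

end FLat

end abs

section U

variable {X : K3} {N : ℕ} (U : UData X.X N)

theorem dep (hS : H02 X) {x y : Fin N → ℤ} (hx : U.B x x = 0) (hy : U.B y y = 0)
    (hxy : U.B x y = 0) (hσx : sig U x = 0) (hσy : sig U y = 0) (w : Fin N → ℤ) :
    U.B x w • y = U.B y w • x := by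
  obtain ⟨g, hg⟩ := exists_isHerm X.X
  exact (flat hg U).dep (scal0 hg) (Om := OmL X) (D2_OmL X) rfl
    (fun b hb h0 => hS.abs hg b hb h0) hx hy hxy hσx hσy w

/-- isotropic orthogonal classes of type `(1,1)` are dependent -/
theorem dep_pair (hS : H02 X) {x y : Fin N → ℤ} (hx : U.B x x = 0) (hy : U.B y y = 0)
    (hxy : U.B x y = 0) (hσx : pair ⟨Om X, 0, 0⟩ (U.comb x) = 0)
    (hσy : pair ⟨Om X, 0, 0⟩ (U.comb y) = 0) (w : Fin N → ℤ) :
    U.B x w • y = U.B y w • x :=
  dep U hS hx hy hxy ((sig_zero_iff_pair U x).2 hσx) ((sig_zero_iff_pair U y).2 hσy) w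

theorem nondeg (x : Fin N → ℤ) (hx : x ≠ 0) : ∃ w, U.B x w ≠ 0 := by
  obtain ⟨g, hg⟩ := exists_isHerm X.X
  by_contra hcon
  push Not at hcon
  exact hx ((flat hg U).nondeg x hcon)

end U

end

end Vale.Agent.P290Z.W.H416
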