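import Vale.Agent.P290.H416.K3Iso
import Vale.Agent.P290Z.W.Defs
import Vale.Agent.P290Z.W.H416K3U
import Vale.Agent.P290Z.W.H416K3Hi
import Vale.Agent.P290Z.W.H416K3Dep
import Vale.Agent.P290Z.W.H362Iface
import Vale.Agent.P290Z.W.H722Neg

/-! P290 / H416, package F2-ISO: a K3 surface with a nonzero isotropic class of type `(1,1)` is
elliptic. -/

open scoped Manifold ContDiff Topology ComplexConjugate Matrix ComplexOrder
open Set Filter Vale.Agent.P267 Vale.Agent.P267.H332 Vale.Agent.P267.FL Vale.Agent.P267.H757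
open Vale.Agent.P267.H469 Vale.Agent.P267.H661
open Vale.Agent.P290.H342 Vale.Agent.P267.BlockC
open Vale.Agent.P290.H362 hiding Geo IsLat
open Vale.Agent.P290Z.W.H362
open Vale.Agent.P290.H445 hiding instFLCharted instManifold instManifoldFL instT2 instCompact
  instConnected instSecondCountable instLocPathConnected mem_atlas_toFL mem_atlas_iff chartAt_FL
  jacM_det Om Om_ne_zero loc_Om HolOn_Om Reg0_Om holOn_zero_iff const_of_hol holOn_one
open Vale.Agent.P290Z.W.H445
open Vale.Agent.P267.RR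
open Vale.Agent.P290.K (P1)

namespace Vale.Agent.P290Z.W.H416

open Vale.Agent.P290 Vale.Agent.P290.H416

noncomputable section

variable {Z : K3} {N : ℕ} {G : Geo Z} {U : UData Z.X N}

/-- the inputs of `IsoIn.exists_bpf` for the divisor theory of a K3 surface -/
theorem isoIn (T : H722.UGeo G U) (hS : H02 Z) (hev : ∀ x, Even (G.T.B x x)) :
    IsoIn G.T G.σ.ker where
  cl_mem := G.σ_cl
  hz := G.hz
  self := G.self
  even _ := hev _
  rr := G.rr
  hHI m hm y hy hmm hmy := by
    have h1 : ∀ x ∈ G.σ.ker, pair ⟨Om Z, 0, 0⟩ (U.comb (T.τ x)) = 0 := fun x hx => by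
      rw [← T.σ]; exact hx
    have h2 := hodge_pair U hS (m := T.τ m) (x := T.τ y) (by rw [T.B]; exact hmm)
      (by rw [T.B]; exact hmy) (h1 m hm) (h1 y hy)
    rw [T.B] at h2
    exact ⟨h2.1, fun h => (map_eq_zero_iff T.τ T.τ.injective).1 (h2.2 h)⟩
  hLD x hx y hy hxx hyy hxy w := by
    have h1 : ∀ x ∈ G.σ.ker, pair ⟨Om Z, 0, 0⟩ (U.comb (T.τ x)) = 0 := fun x hx => by
      rw [← T.σ]; exact hx
    have h2 := dep_pair U hS (x := T.τ x) (y := T.τ y) (by rw [T.B]; exact hxx)
      (by rw [T.B]; exact hyy) (by rw [T.B]; exact hxy) (h1 x hx) (h1 y hy) (T.τ w)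
    rw [T.B, T.B, ← map_zsmul, ← map_zsmul] at h2
    exact T.τ.injective h2
  nondeg x hx := by
    obtain ⟨w, hw⟩ := nondeg U (T.τ x) fun h => hx ((map_eq_zero_iff T.τ T.τ.injective).1 h)
    obtain ⟨w', rfl⟩ := T.τ.surjective w
    exact ⟨w', by rwa [T.B] at hw⟩
  fin := Module.Finite.equiv T.τ.symm.toIntLinearEquiv

end

end Vale.Agent.P290Z.W.H416
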