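import Vale.Agent.P290.H722.Per
import Vale.Agent.P290Z.W.Defs
import Vale.Agent.P290Z.W.H445Coh
import Vale.Agent.P290Z.W.H445Lef
import Vale.Agent.P290Z.W.H445IntK
import Vale.Agent.P290Z.W.H445Sec
import Vale.Agent.P290Z.W.H445Rrf

/-!
# P290, Phase 2 (helper722): the period map of a family of K3 surfaces is holomorphic

`S.T t` : the two-form of the fibre over `t`, transported to the fibre over `t₀` by the smooth
trivialisation `S`. It is a smooth family of closed forms, `S.dTb_eq`: its derivatives in the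
directions `ū` are exact, and `S.hasFDerivAt_per`: its periods are holomorphic functions of `t`.
-/

set_option linter.unusedSectionVars false
set_option linter.unusedVariables false

open scoped Manifold ContDiff Topology
open Set Filter Vale.Agent.P267 Vale.Agent.P267.FL Vale.Agent.P290.H805 Vale.Agent.P290.H95
  Vale.Agent.P290.H686 Vale.Agent.P267.RR Vale.Agent.P267.H332 Vale.Agent.P267.BlockC
open Vale.Agent.P290.H445 hiding instFLCharted instManifold instManifoldFL instT2 instCompact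
  instConnected instSecondCountable instLocPathConnected mem_atlas_toFL mem_atlas_iff chartAt_FL
  jacM_det Om Om_ne_zero loc_Om HolOn_Om Reg0_Om holOn_zero_iff const_of_hol holOn_one H01 OmI
  OmI_mul Om_mul loc0_Om_ne_zero HolOn_OmI Reg0_OmI isCanon_OX act_smul' db0_mul db1_mul mulOm
  H0_one h0_one sec_one act_one h0_O h1_O chi_O intX_zero curv_OX isec_OX chi_eq rr_ineq OmC
  Reg2_OmC h2_O exists_dbar1 intX_dbar1 lefschetz intFactsK rr_of_orth isSection_of_mem
  exists_pencil OmF OmF_smooth OmF_closed pair_OmF period_eq rr_uData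
open Vale.Agent.P290Z.W.H445

noncomputable section

namespace Vale.Agent.P290Z.W.H722

open Vale.Agent.P290 Vale.Agent.P290.H722

section gen

/-- the form `OmF` in a chart -/
theorem E2_OmF (Y : K3) {e : OpenPartialHomeomorph Y.X (ℂ × ℂ)} (he : e ∈ atlas (ℂ × ℂ) Y.X)
    {p : ℂ × ℂ} (hp : p ∈ e.target) (a b : ℂ × ℂ) :
    E2 (toFL e) (OmF Y) (φ p) (φ a) (φ b) = Y.vol e p * det2 a b := by
  rw [E2, ev2_apply]
  have h11 : ∀ i j, loc11 (toFL e) (OmF Y).f11 (φ p) i j = 0 := by
    intro i j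
    simp [loc11, OmF]
  have h02 : loc2 0 (toFL e) (OmF Y).f02 (φ p) = 0 := by
    simp [loc2, OmF]
  have h20 : loc0 1 (toFL e) (OmF Y).f20 (φ p) = Y.vol e p := by
    have h := loc_Om Y he (z := φ p) (by simpa using hp)
    rw [ContinuousLinearEquiv.symm_apply_apply] at h
    exact h
  simp only [h11, h02, h20, zero_mul, Finset.sum_const_zero, add_zero]
  rw [det2]
  simp [φ_apply]

variable {X : Type*} [TopologicalSpace X] [ChartedSpace FL.C2 X] [IsManifold 𝓘(ℂ, FL.C2) ω X]

/-- the pullback of `OmF` in charts -/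
theorem E2_pb2_OmF (Y : K3) {ψ : X → Y.X} (hψ : IsSm ψ) {e : Ch X} (he : e ∈ atlas FL.C2 X)
    {e' : OpenPartialHomeomorph Y.X (ℂ × ℂ)} (he' : e' ∈ atlas (ℂ × ℂ) Y.X) {x : X}
    (hx : x ∈ e.source) (hx' : ψ x ∈ e'.source) (ρ : FL.C2 → ℂ × ℂ)
    (hρ : ∀ z, ρ z = e' (ψ (e.symm z))) {ρ' : FL.C2 →L[ℝ] ℂ × ℂ} (hd : HasFDerivAt ρ ρ' (e x))
    (a b : FL.C2) :
    E2 e (pb2 ψ (OmF Y)) (e x) a b = Y.vol e' (ρ (e x)) * det2 (ρ' a) (ρ' b) := by
  have h1 := E2_pb2 hψ (OmF Y) he (mem_atlas_toFL Y he') hx hx'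
  have hrep : rep ψ e (toFL e') = fun z => φ (ρ z) := by
    funext z
    rw [hρ, rep, toFL_apply]
  have h2 : HasFDerivAt (fun z => φ (ρ z))
      (((φ : (ℂ × ℂ) →L[ℂ] FL.C2).restrictScalars ℝ).comp ρ') (e x) :=
    ((φ : (ℂ × ℂ) →L[ℂ] FL.C2).restrictScalars ℝ).hasFDerivAt.comp (e x) hd
  have hpt : toFL e' (ψ x) = φ (ρ (e x)) := by
    rw [hρ, toFL_apply, e.left_inv hx]
  have hp : ρ (e x) ∈ e'.target := by
    rw [hρ, e.left_inv hx]
    exact e'.map_source hx'
  rw [h1, ContinuousLinearMap.bilinearComp_apply, hrep, h2.fderiv, hpt]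
  exact E2_OmF Y he' hp _ _

end gen

variable {V : Type} [NormedAddCommGroup V] [NormedSpace ℂ V] {D : Set V}
  {E : Type} [TopologicalSpace E] [T2Space E] {𝓕 : K3Family V D E} {t₀ : D}

namespace SmTriv

variable (S : SmTriv 𝓕 t₀)

/-! ### the representatives -/

variable {t : V} {e : Ch (𝓕.k3 t₀).X} {x : (𝓕.k3 t₀).X}

/-! ### the chart formula -/

/-! ### `S.T` is a smooth family -/

/-! ### the primitive of the `ū`-derivative -/

/-! ### the periods -/

end SmTriv

end Vale.Agent.P290Z.W.H722
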