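import Vale.Agent.P290.H362.F2Asm
import Vale.Agent.P290Z.W.Defs
import Vale.Agent.P290Z.W.H416K3FL
import Vale.Agent.P290Z.W.H445Coh
import Vale.Agent.P290Z.W.H445Lef
import Vale.Agent.P290Z.W.H445IntK
import Vale.Agent.P290Z.W.H445Sec
import Vale.Agent.P290Z.W.H445Rrf
import Vale.Agent.P290Z.W.H416K3U
import Vale.Agent.P290Z.W.H416K3Hi
import Vale.Agent.P290Z.W.H416K3Dep
import Vale.Agent.P290Z.W.H470C2
import Vale.Agent.P290Z.W.H362Iface
import Vale.Agent.P290Z.W.H342GeoInst
import Vale.Agent.P290Z.W.H722Neg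
import Vale.Agent.P290Z.W.H342LatInst
import Vale.Agent.P290Z.W.H416K3Iso
import Vale.Agent.P290Z.W.H722Per

/-!
# P290, F2-ASM (helper362): elliptic members are dense in a family of K3 surfaces

The assembly of Phase 2 from: the smooth trivialisation `SmTriv` (helper470), the holomorphy of the
periods (helper722), the Kodaira-Spencer argument `KSStmt` (helper867), the isotropic class
criterion (helper416), the lattice of an elliptic K3 surface (helper445).
-/

set_option linter.unusedSectionVars false
set_option linter.unusedVariables false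

open scoped Manifold ContDiff ComplexConjugate Topology
open Set Filter

noncomputable section

namespace Vale.Agent.P290Z.W.H362

open Vale.Agent.P290 Vale.Agent.P290.H362

open Vale.Agent.P267.FL Vale.Agent.P267.BlockC Vale.Agent.P267.RR Vale.Agent.P267.H332
open Vale.Agent.P267.H757 Vale.Agent.P267.H469
open Vale.Agent.P290.H342 hiding OmT OmT_mem perU perU_apply pair_OmT wedge_OmT perU_clN dbarSolve
  h01 exists_pen_of_rr geo isLat_geo h02 uGeo
open Vale.Agent.P290Z.W.H342
open Vale.Agent.P290.H445 hiding instFLCharted instManifold instManifoldFL instT2 instCompact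
  instConnected instSecondCountable instLocPathConnected mem_atlas_toFL mem_atlas_iff chartAt_FL
  jacM_det Om Om_ne_zero loc_Om HolOn_Om Reg0_Om holOn_zero_iff const_of_hol holOn_one H01 OmI
  OmI_mul Om_mul loc0_Om_ne_zero HolOn_OmI Reg0_OmI isCanon_OX act_smul' db0_mul db1_mul mulOm
  H0_one h0_one sec_one act_one h0_O h1_O chi_O intX_zero curv_OX isec_OX chi_eq rr_ineq OmC
  Reg2_OmC h2_O exists_dbar1 intX_dbar1 lefschetz intFactsK rr_of_orth isSection_of_mem
  exists_pencil OmF OmF_smooth OmF_closed pair_OmF period_eq rr_uData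
open Vale.Agent.P290Z.W.H445
open Vale.Agent.P290.H726 Vale.Agent.P290.H805
open Vale.Agent.P290.H416 hiding exact_one dbar_solve dbar_Om OmL toF_OmL OmL_ne D2_OmL D2_C2L H02
  sig sig_eq sig_apply sig_apply' sig_per phi_smul phi_of_hasCl sig_of_11 sig_of_11' neg
  sig_eq_zero_iff indep' sig_eq_pair sig_zero_iff_pair neg_pair indep_pair hodge_pos hodge_pair
  dep dep_pair nondeg isoIn
open Vale.Agent.P290Z.W.H416
open Vale.Agent.P290.H722 hiding UGeo E2_OmF E2_pb2_OmF
open Vale.Agent.P290Z.W.H722
open Vale.Agent.P290.H95 Vale.Agent.P290.H686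

/-- lattice data with an isotropic class and three positive classes -/
def LatP (X : K3) : Prop :=
  ∃ (N : ℕ) (U : UData X.X N), (∀ k, Even (U.B k k)) ∧ PosIso U.G

theorem LatP.trans {X Y : K3} (h : LatP X) (φ : X.X ≃ₜ Y.X) (hφ : IsDiffeo φ) : LatP Y := by
  obtain ⟨N, U, h1, h2⟩ := h
  exact ⟨N, uTrans φ hφ U, h1, h2⟩

/-! ### the holomorphic two-form -/

section form

variable (Z : K3)

theorem pair_OmT_self : pair (OmT Z) (OmT Z) = 0 := by
  have h : (OmT Z).wedge (OmT Z) = fun _ => 0 := by
    funext x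
    simp [TwoF.wedge, OmT]
  rw [pair, h]
  have h1 := pair_smul_left (Y := Z.X) intAx 0 (OmT_mem Z).1 (OmT_mem Z).1
  rw [zero_mul, pair, wedge_smul_left] at h1
  simp only [zero_mul] at h1
  exact h1

theorem pair_OmT_bar_pos : 0 < (pair (OmT Z) (OmT Z).bar).re := by
  obtain ⟨g, hg⟩ := exists_isHerm Z.X
  by_contra hcon
  push Not at hcon
  exact OmL_ne Z ((calc0 hg).pos20 (OmL Z) rfl hcon)

variable {Z}

end form

/-! ### families -/

section family

variable {V : Type} [NormedAddCommGroup V] [NormedSpace ℂ V] {D : Set V}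
  {E : Type} [TopologicalSpace E] [T2Space E] {𝓕 : K3Family V D E} {t₀ : D}

end family

end Vale.Agent.P290Z.W.H362
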