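import Vale.Agent.P290.H867.OmB
import Vale.Agent.P290Z.W.Defs

/-!
# P290: the holomorphic two-form of the twisted surface on the original surface
-/

set_option linter.unusedVariables false
set_option linter.unusedSectionVars false

open scoped Manifold ContDiff ComplexConjugate Topology
open Set Filter Metric

noncomputable section

namespace Vale.Agent.P290Z.W.H867

open Vale.Agent.P290 Vale.Agent.P290.H867

open Vale.Agent.P267 Vale.Agent.P290.H686
open Vale.Agent.P290.H445 hiding instFLCharted instManifold instManifoldFL instT2 instCompact
  instConnected instSecondCountable instLocPathConnected mem_atlas_toFL mem_atlas_iff chartAt_FL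
  jacM_det Om Om_ne_zero loc_Om HolOn_Om Reg0_Om holOn_zero_iff const_of_hol holOn_one
open Vale.Agent.P290Z.W.H445

section tw

/-- the two-form `Ω` of a K3 surface as a `TwoF` -/
def OmF (X : K3) : FL.TwoF X.X := ⟨Om X, fun _ => 0, fun _ => 0⟩

theorem val2_OmF (X : K3) (x : X.X) (u v : FL.C2) :
    val2 (OmF X) x u v = Om X x * area (φ.symm u) (φ.symm v) := by
  rw [val2, ev2_apply]
  simp [OmF, area]

end tw

/-! ### the twist over a disc -/

section cut

end cut

end Vale.Agent.P290Z.W.H867
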