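import Vale.Agent.P290.H445.Twist
import Vale.Agent.P290Z.W.Defs
import Vale.Agent.P290Z.W.H416K3FL
import Vale.Agent.P290Z.W.H445Coh
import Vale.Agent.P290Z.W.H445Lef
import Vale.Agent.P290Z.W.H445IntK
import Vale.Agent.P290Z.W.H445Sec
import Vale.Agent.P290Z.W.H445Rrf
import Vale.Agent.P290Z.W.H867OmB

/-!
# P290: integrality and evenness of the intersection form of an elliptic K3 surface

Riemann-Roch on the twists `X_b`: a line bundle `L` with `L.e ≠ 0` becomes holomorphic on `X_b` for
one `b`, hence `L²` is even; integrality follows for all line bundles.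
-/

set_option linter.unusedVariables false
set_option linter.unusedSectionVars false

open scoped Manifold ContDiff ComplexConjugate Topology
open Set Filter

noncomputable section

namespace Vale.Agent.P290Z.W.H445

open Vale.Agent.P290 Vale.Agent.P290.H445

open Vale.Agent.P267 Vale.Agent.P267.FL Vale.Agent.P267.RR Vale.Agent.P267.BlockC
  Vale.Agent.P267.H332 Vale.Agent.P267.H757 Vale.Agent.P290.H342 Vale.Agent.P290.H686

/-- the vanishing of `H^{0,1}` holds (helper416) -/
theorem h01 (X : K3) : H01 X := fun _ ha h0 => H416.dbar_solve ha h0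

/-- the form facts hold -/
theorem ff (X : K3) : FormFacts X.X := formFacts (H662.curvFacts X.X)

/-- Riemann-Roch on a twist. -/
theorem even_of_pair_zero (X Y : K3) (hS : SerreStmt Y.X) (hR : RRStmt Y.X)
    (φ : X.X ≃ₜ Y.X) (hφ : IsDiffeo φ) {ι : Type} [Fintype ι] [DecidableEq ι] (L : LB X.X ι)
    (h0 : pair (pb2 φ (OmF Y)) L.curv = 0) : ∃ k : ℤ, isec L L = 2 * k := by
  set L' : LB Y.X ι := pbL φ.symm hφ.smooth' L with hL'
  have hc : L'.curv = pb2 φ.symm L.curv := curv_pbL _ _
  have h1 : isec L' L' = isec L L := by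
    rw [isec_eq_pair, isec_eq_pair, hc, pair, pair,
      intX_wedge_pb2' φ.symm hφ.symm L.curv_smooth L.curv_smooth]
  have h2 : intX (fun x => Om Y x * L'.F02 x) = 0 := by
    have h3 : pair (OmF Y) L'.curv = 0 := by
      rw [hc, pair, ← intX_wedge_pb2' φ hφ (OmF_smooth Y) (by
        rw [← hc]; exact L'.curv_smooth), pb2_pb2_symm φ hφ]
      exact h0
    rw [pair_OmF] at h3
    exact h3
  obtain ⟨a, n, -, h4, -⟩ := rr_of_orth Y hS hR (h01 Y) L' L'.reg_F02 h2
  exact ⟨n, by rw [← h1, h4]⟩

end Vale.Agent.P290Z.W.H445
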