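import Vale.Agent.P290.H722.IntFam
import Vale.Agent.P290Z.W.Defs
import Vale.Agent.P290Z.W.H416K3FL
import Vale.Agent.P290Z.W.H445Coh
import Vale.Agent.P290Z.W.H445Lef
import Vale.Agent.P290Z.W.H445IntK
import Vale.Agent.P290Z.W.H445Sec
import Vale.Agent.P290Z.W.H445Rrf
import Vale.Agent.P290Z.W.H416K3U
import Vale.Agent.P290Z.W.H445Twist
import Vale.Agent.P290Z.W.H867OmB
import Vale.Agent.P290Z.W.H722Per

/-!
# P290, F3-INT (helper722): integrality and evenness at a member with nonzero Kodaira-Spencer class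
-/

set_option linter.unusedVariables false
set_option linter.unusedSectionVars false

open scoped Manifold ContDiff ComplexConjugate Topology
open Set Filter

noncomputable section

namespace Vale.Agent.P290Z.W.H722

open Vale.Agent.P290 Vale.Agent.P290.H722

open Vale.Agent.P267 Vale.Agent.P267.FL Vale.Agent.P267.RR Vale.Agent.P267.BlockC
  Vale.Agent.P267.H332 Vale.Agent.P267.H757 Vale.Agent.P267.H469 Vale.Agent.P290.H342
  Vale.Agent.P290.H362 Vale.Agent.P290.H686 Vale.Agent.P290.H805 Vale.Agent.P290.H95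
open Vale.Agent.P290.H445 hiding instFLCharted instManifold instManifoldFL instT2 instCompact
  instConnected instSecondCountable instLocPathConnected mem_atlas_toFL mem_atlas_iff chartAt_FL
  jacM_det Om Om_ne_zero loc_Om HolOn_Om Reg0_Om holOn_zero_iff const_of_hol holOn_one H01 OmI
  OmI_mul Om_mul loc0_Om_ne_zero HolOn_OmI Reg0_OmI isCanon_OX act_smul' db0_mul db1_mul mulOm
  H0_one h0_one sec_one act_one h0_O h1_O chi_O intX_zero curv_OX isec_OX chi_eq rr_ineq OmC
  Reg2_OmC h2_O exists_dbar1 intX_dbar1 lefschetz intFactsK rr_of_orth isSection_of_mem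
  exists_pencil OmF OmF_smooth OmF_closed pair_OmF period_eq rr_uData h01 ff even_of_pair_zero
open Vale.Agent.P290Z.W.H445
open Vale.Agent.P290.H416 hiding exact_one dbar_solve dbar_Om OmL toF_OmL OmL_ne D2_OmL D2_C2L H02
  sig sig_eq sig_apply sig_apply' sig_per phi_smul phi_of_hasCl sig_of_11 sig_of_11' neg
  sig_eq_zero_iff indep' sig_eq_pair sig_zero_iff_pair neg_pair indep_pair
open Vale.Agent.P290Z.W.H416

/-! ### the square of a family -/

section sq

variable {X : Type*} [TopologicalSpace X] [ChartedSpace FL.C2 X] [IsManifold 𝓘(ℂ, FL.C2) ω X]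
variable {V : Type*} [NormedAddCommGroup V] [NormedSpace ℝ V] {T : V → TwoF X} {N : Set V} {t₁ : V}

end sq

variable {V : Type} [NormedAddCommGroup V] [NormedSpace ℂ V] {D : Set V}
  {E : Type} [TopologicalSpace E] [T2Space E] {𝓕 : K3Family V D E} {t₀ : D}

namespace SmTriv

variable (S : SmTriv 𝓕 t₀) {t : V}

theorem intX_zero' (X : K3) : intX (0 : X.X → ℂ) = 0 := by
  have h1 := pair_smul_left (intAx (X := X.X)) 0 (F := OmF X) (G := OmF X) (OmF_smooth X)
    (OmF_smooth X)
  have h2 : ((0 : ℂ) • OmF X).wedge (OmF X) = 0 := by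
    funext x
    simp [TwoF.wedge]
  rw [zero_mul, pair, h2] at h1
  exact h1

theorem pair_OmF_bar_ne (X : K3) : pair (OmF X).bar (OmF X) ≠ 0 := by
  intro h
  have h1 : mk2 (OmF X) (OmF_smooth X) = 0 := by
    refine pos20L _ ?_ ?_
    · refine Prod.ext rfl (Prod.ext (Subtype.ext ?_) (Subtype.ext ?_))
      · rfl
      · rfl
    · have h2 : I22L (mk2 (OmF X) (OmF_smooth X)) (C2L (mk2 (OmF X) (OmF_smooth X))) =
          pair (OmF X) (OmF X).bar := rfl
      rw [h2, H342.pair_comm, h]
      simp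
  have h2 := congrArg (fun F : Om2 X.X => toF F) h1
  have h3 : OmF X = 0 := h2
  obtain ⟨x⟩ : Nonempty X.X := inferInstance
  have h4 := congrArg (fun F : TwoF X.X => F.f20 x) h3
  exact Om_ne_zero X x h4

end SmTriv

end Vale.Agent.P290Z.W.H722
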