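import Vale.Agent.P290.H867.KS
import Vale.Agent.P290Z.W.Defs
import Vale.Agent.P290Z.W.H416K3FL

/-!
# P290, Phase 2 (helper867): vanishing of the Kodaira-Spencer class

`SmLift F t v` : a smooth lift of the vector `v` to the total space along the fibre over `t`.
`infTrivial_of_exact` : if the `(1,1)`-part of the derivative of the two-form in the direction of the
lift is the `(1,1)`-part of an exact two-form without `(0,2)`-part, then the Kodaira-Spencer class of
the family at `t` in the direction `v` vanishes.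
-/

set_option linter.unusedVariables false
set_option linter.unusedSectionVars false

open scoped Manifold ContDiff ComplexConjugate Topology
open Set Filter

noncomputable section

namespace Vale.Agent.P290Z.W.H867

open Vale.Agent.P290 Vale.Agent.P290.H867

open Vale.Agent.P267 Vale.Agent.P290.All Vale.Agent.P290.H805 Vale.Agent.P290.H95
  Vale.Agent.P290.H445

/-! ### general surfaces -/

section gen

variable {X : Type*} [TopologicalSpace X] [ChartedSpace FL.C2 X] [IsManifold 𝓘(ℂ, FL.C2) ω X]
variable [T2Space X] [CompactSpace X] [ConnectedSpace X] [B1 X]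

/-- on a compact simply connected surface the `(1,1)`-part of an exact two-form without `(0,2)`-part
is `∂̄` of a `(1,0)`-form -/
theorem exists_ten {A : FL.OneF X} (hA : A.Smooth) (h02 : A.d.f02 = 0) :
    ∃ c : X → Fin 2 → ℂ, FL.Reg10 ∞ c ∧ FL.dbar10 c = A.d.f11 := by
  obtain ⟨u, hu, h⟩ := H416.dbar_solve (a := A.f01) hA.s01 (fun x => congrFun h02 x)
  have h1 : FL.dbar0 0 u = A.f01 := by
    funext x i
    exact h x i
  have hr : FL.Reg10 ∞ (FL.del0 u) := H469.reg_del0 hu
  have hr' : FL.Reg10 ∞ ((-1 : ℂ) • FL.del0 u) := by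
    intro e he
    rw [contDiffOn_pi]
    intro i
    refine ((contDiffOn_pi.1 (hr e he) i).const_smul (-1 : ℂ)).congr fun z hz => ?_
    exact H469.loc10_smul e z (-1) _ i
  have hc : FL.Reg10 ∞ (A.f10 + (-1 : ℂ) • FL.del0 u) := by
    intro e he
    rw [contDiffOn_pi]
    intro i
    refine ((contDiffOn_pi.1 (hA.s10 e he) i).add (contDiffOn_pi.1 (hr' e he) i)).congr
      fun z hz => ?_
    exact H469.loc10_add e z _ _ i
  refine ⟨A.f10 + (-1 : ℂ) • FL.del0 u, hc, ?_⟩
  funext x
  ext i j
  have h2 := congrFun (H469.del1_dbar0 hu) x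
  have h3 : FL.del1 (FL.dbar0 0 u) x i j + FL.dbar10 (FL.del0 u) x i j = 0 := by
    have := congrFun (congrFun h2 i) j
    exact this
  have hd : ∀ c : X → Fin 2 → ℂ, FL.Reg10 ∞ c → ∀ i, DifferentiableAt ℝ
      (fun z => FL.loc10 (chartAt FL.C2 x) c z i) (chartAt FL.C2 x x) := by
    intro c hc i
    have h4 := (hc _ (chart_mem_atlas FL.C2 x)).contDiffAt ((chartAt FL.C2 x).open_target.mem_nhds
      (mem_chart_target FL.C2 x))
    exact (contDiffAt_pi.1 h4 i).differentiableAt (by simp)
  have h5 : FL.dbar10 (A.f10 + (-1 : ℂ) • FL.del0 u) x i j =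
      FL.dbar10 A.f10 x i j - FL.dbar10 (FL.del0 u) x i j := by
    simp only [FL.dbar10, Matrix.of_apply]
    have h6 : (fun z => FL.loc10 (chartAt FL.C2 x) (A.f10 + (-1 : ℂ) • FL.del0 u) z i) =
        fun z => FL.loc10 (chartAt FL.C2 x) A.f10 z i +
          (-1 : ℂ) • FL.loc10 (chartAt FL.C2 x) (FL.del0 u) z i := by
      funext z
      rw [H469.loc10_add, H469.loc10_smul]
    have h7 : DifferentiableAt ℝ (fun z => (-1 : ℂ) • FL.loc10 (chartAt FL.C2 x) (FL.del0 u) z i)
        (chartAt FL.C2 x x) := (hd _ hr i).const_smul (-1 : ℂ)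
    rw [h6, FL.dzb_add (hd _ hA.s10 i) h7, FL.dzb_const_smul (-1) (hd _ hr i)]
    rw [smul_eq_mul]
    ring
  rw [h5]
  change _ = FL.del1 A.f01 x i j + FL.dbar10 A.f10 x i j
  rw [← h1]
  linear_combination (-1 : ℂ) * h3

end gen

/-! ### families -/

section fam

variable {V : Type} [NormedAddCommGroup V] [NormedSpace ℂ V] {D : Set V}
  {E : Type} [TopologicalSpace E]

end fam

section main

variable {V : Type} [NormedAddCommGroup V] [NormedSpace ℂ V] {D : Set V}
  {E : Type} [TopologicalSpace E] [T2Space E]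

end main

end Vale.Agent.P290Z.W.H867
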