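import Vale.Agent.P290.H362.F3Final
import Vale.Agent.P290Z.W.Defs
import Vale.Agent.P290Z.W.H416K3FL
import Vale.Agent.P290Z.W.H445Coh
import Vale.Agent.P290Z.W.H445Lef
import Vale.Agent.P290Z.W.H445IntK
import Vale.Agent.P290Z.W.H445Sec
import Vale.Agent.P290Z.W.H445Rrf
import Vale.Agent.P290Z.W.H416K3U
import Vale.Agent.P290Z.W.H416K3Hi
import Vale.Agent.P290Z.W.H416K3Dep
import Vale.Agent.P290Z.W.H470C2
import Vale.Agent.P290Z.W.H362Iface
import Vale.Agent.P290Z.W.H342GeoInst
import Vale.Agent.P290Z.W.H722Neg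
import Vale.Agent.P290Z.W.H342LatInst
import Vale.Agent.P290Z.W.H416K3Iso
import Vale.Agent.P290Z.W.H445Twist
import Vale.Agent.P290Z.W.H867OmB
import Vale.Agent.P290Z.W.H722Per
import Vale.Agent.P290Z.W.H722IntFam
import Vale.Agent.P290Z.W.H867KS
import Vale.Agent.P290Z.W.H362F2Asm
import Vale.Agent.P290Z.W.H362F3Lat

/-!
# P290, F3-ASM (helper362): Theorem F3

Elliptic members are dense, and the Oka members residual, in every family of K3 surfaces which is
infinitesimally trivial in all directions only for a set of parameters with dense complement.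
-/

set_option linter.unusedSectionVars false

open scoped Manifold ContDiff ComplexConjugate Topology
open Set Filter

noncomputable section

namespace Vale.Agent.P290Z.W.H362

open Vale.Agent.P290 Vale.Agent.P290.H362

open Vale.Agent.P267.FL Vale.Agent.P267.BlockC Vale.Agent.P267.RR
open Vale.Agent.P290.H342 hiding OmT OmT_mem perU perU_apply pair_OmT wedge_OmT perU_clN dbarSolve
  h01 exists_pen_of_rr geo isLat_geo h02 uGeo
open Vale.Agent.P290Z.W.H342
open Vale.Agent.P290.H805 Vale.Agent.P290.H95
open Vale.Agent.P290.H722 hiding UGeo E2_OmF E2_pb2_OmF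
open Vale.Agent.P290Z.W.H722

/-- the output of F3-GAUD (helper158) -/
def PsiStmt (X : K3) : Prop :=
  ∃ P : TwoF X.X, P.Smooth ∧ P.Closed ∧ P.Real ∧ pair (OmT X) P = 0 ∧ 0 < (pair P P).re

end Vale.Agent.P290Z.W.H362
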