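import Vale.Agent.P290.H362.Psi
import Vale.Agent.P290Z.W.Defs
import Vale.Agent.P290Z.W.H416K3FL
import Vale.Agent.P290Z.W.H445Coh
import Vale.Agent.P290Z.W.H445Lef
import Vale.Agent.P290Z.W.H445IntK
import Vale.Agent.P290Z.W.H445Sec
import Vale.Agent.P290Z.W.H445Rrf
import Vale.Agent.P290Z.W.H416K3U
import Vale.Agent.P290Z.W.H416K3Hi
import Vale.Agent.P290Z.W.H416K3Dep
import Vale.Agent.P290Z.W.H470C2
import Vale.Agent.P290Z.W.H362Iface
import Vale.Agent.P290Z.W.H342GeoInst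
import Vale.Agent.P290Z.W.H722Neg
import Vale.Agent.P290Z.W.H342LatInst
import Vale.Agent.P290Z.W.H416K3Iso
import Vale.Agent.P290Z.W.H445Twist
import Vale.Agent.P290Z.W.H867OmB
import Vale.Agent.P290Z.W.H722Per
import Vale.Agent.P290Z.W.H722IntFam
import Vale.Agent.P290Z.W.H867KS
import Vale.Agent.P290Z.W.H362F2Asm
import Vale.Agent.P290Z.W.H362F3Lat
import Vale.Agent.P290Z.W.H362F3Final

/-!
# P290, F3-GAUD, half (B) (helper362): the third positive class of a K3 surface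

`u` a smooth real function, not identically zero, with `∂̄∂(u ω) = 0` for the fundamental form `ω`
of a Hermitian metric. Then there is a smooth `f` such that
`P = -f Om + u ω - conj(f Om)` is closed and orthogonal to `Om`, with positive square.
-/

set_option linter.unusedSectionVars false
set_option linter.unusedVariables false

open scoped Manifold ContDiff ComplexConjugate Topology
open Set Filter

noncomputable section

namespace Vale.Agent.P290Z.W.H362

open Vale.Agent.P290 Vale.Agent.P290.H362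

open Vale.Agent.P267.FL Vale.Agent.P267.BlockC Vale.Agent.P267.RR Vale.Agent.P267.H332
open Vale.Agent.P267.H757 Vale.Agent.P267.H469
open Vale.Agent.P290.H342 hiding OmT OmT_mem perU perU_apply pair_OmT wedge_OmT perU_clN dbarSolve
  h01 exists_pen_of_rr geo isLat_geo h02 uGeo
open Vale.Agent.P290Z.W.H342
open Vale.Agent.P290.H445 hiding instFLCharted instManifold instManifoldFL instT2 instCompact
  instConnected instSecondCountable instLocPathConnected mem_atlas_toFL mem_atlas_iff chartAt_FL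
  jacM_det Om Om_ne_zero loc_Om HolOn_Om Reg0_Om holOn_zero_iff const_of_hol holOn_one H01 OmI
  OmI_mul Om_mul loc0_Om_ne_zero HolOn_OmI Reg0_OmI isCanon_OX act_smul' db0_mul db1_mul mulOm
  H0_one h0_one sec_one act_one h0_O h1_O chi_O intX_zero curv_OX isec_OX chi_eq rr_ineq OmC
  Reg2_OmC h2_O exists_dbar1 intX_dbar1 lefschetz intFactsK rr_of_orth isSection_of_mem
  exists_pencil OmF OmF_smooth OmF_closed pair_OmF period_eq rr_uData h01 ff even_of_pair_zero
open Vale.Agent.P290Z.W.H445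
open Vale.Agent.P290.H805
open Vale.Agent.P290.H416 hiding exact_one dbar_solve dbar_Om OmL toF_OmL OmL_ne D2_OmL D2_C2L H02
  sig sig_eq sig_apply sig_apply' sig_per phi_smul phi_of_hasCl sig_of_11 sig_of_11' neg
  sig_eq_zero_iff indep' sig_eq_pair sig_zero_iff_pair neg_pair indep_pair hodge_pos hodge_pair
  dep dep_pair nondeg isoIn
open Vale.Agent.P290Z.W.H416
open Vale.Agent.P290.H722 hiding UGeo E2_OmF E2_pb2_OmF
open Vale.Agent.P290Z.W.H722
open Vale.Agent.P290.H95 Vale.Agent.P290.H686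

/-- the solution of `∂̄ g = b` for a `∂̄`-closed `(2,1)`-form `b` -/
theorem exists_20 (X : K3) {b : X.X → Fin 2 → ℂ} (hb : Reg1 ∞ 1 b)
    (h0 : ∀ x, dbar1 1 b x = 0) :
    ∃ g : X.X → ℂ, Reg0 ∞ 1 g ∧ ∀ x i, dbar0 1 g x i = b x i := by
  have h1 : Reg1 ∞ (-1 + 1) (fun x i => OmI X x • b x i) := Reg1.smul' (Reg0_OmI X) hb
  rw [neg_add_cancel] at h1
  obtain ⟨f, hf, hf2⟩ := dbar_solve h1 fun x => by
    have h2 := dbar1_mul (HolOn_OmI X) hb x
    rw [neg_add_cancel, h0 x, smul_zero] at h2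
    exact h2
  refine ⟨fun x => Om X x • f x, Reg0.smul' (Reg0_Om X) hf, fun x i => ?_⟩
  have h3 := dbar0_mul (HolOn_Om X) hf x i
  rw [add_zero, hf2] at h3
  rw [h3, smul_smul, Om_mul, one_smul]

/-- the closed real form with given `(1,1)`-part, orthogonal to `Om` -/
theorem exists_closed (X : K3) {w : X.X → Matrix (Fin 2) (Fin 2) ℂ} (hw : Reg11 ∞ w)
    (hr : ∀ x i j, w x j i = -conj (w x i j)) (h0 : ∀ x, dbar1 1 (del11 w) x = 0) :
    ∃ g : X.X → ℂ, (⟨g, w, fun x => conj (g x)⟩ : TwoF X.X).Smooth ∧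
      (⟨g, w, fun x => conj (g x)⟩ : TwoF X.X).Closed ∧
      (⟨g, w, fun x => conj (g x)⟩ : TwoF X.X).Real ∧
      pair (OmT X) (⟨g, w, fun x => conj (g x)⟩ : TwoF X.X) = 0 := by
  obtain ⟨g0, hg0, hg1⟩ := exists_20 X (reg_del11 hw) h0
  set G0 : S20 X.X := ⟨g0, hg0⟩ with hG0
  set O : S20 X.X := ⟨Om X, Reg0_Om X⟩ with hO
  set B0 : TwoF X.X := ⟨fun _ => 0, fun _ => 0, cj0 g0⟩ with hB0
  set BO : TwoF X.X := ⟨fun _ => 0, fun _ => 0, cj0 (Om X)⟩ with hBO
  have hB0s : B0.Smooth := toF_smooth ((0, 0, ⟨cj0 g0, r0cj' hg0⟩) : Om2 X.X)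
  have hBOs : BO.Smooth := toF_smooth ((0, 0, ⟨cj0 (Om X), r0cj' (Reg0_Om X)⟩) : Om2 X.X)
  have hOs := (OmT_mem X).1
  set K : ℂ := pair BO (OmT X) with hK
  have hKne : K ≠ 0 := by
    have h1 := pair_OmT_bar_pos X
    have h2 : pair (OmT X) (OmT X).bar = K := by
      rw [H342.pair_comm, hK, pair, pair]
      congr 1
      funext x
      simp [TwoF.wedge, TwoF.bar, OmT, hBO, cj0]
    intro h3
    rw [h2, h3] at h1
    simp at h1
  set c : ℂ := conj (-(pair B0 (OmT X) / K)) with hc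
  set G : S20 X.X := -(G0 + c • O) with hG
  have hGg : ∀ x, (G : X.X → ℂ) x = -(g0 x + c * Om X x) := fun x => rfl
  refine ⟨(G : X.X → ℂ), ?_⟩
  set P : TwoF X.X := ⟨(G : X.X → ℂ), w, fun x => conj ((G : X.X → ℂ) x)⟩ with hP
  have hPs : P.Smooth := ⟨G.2, hw, r0cj' G.2⟩
  have hPr : P.Real := fun x => ⟨(Complex.conj_conj _).symm, fun i j => hr x i j⟩
  have h21 : P.d21 = 0 := by
    funext x j
    rw [d21_eq]
    have h1 : dbar0 1 P.f20 x j = ((dbar20L G : S21 X.X) : X.X → Fin 2 → ℂ) x j := rfl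
    have h2 : dbar20L O = 0 := by
      refine Subtype.ext ?_
      funext x i
      exact dbar_Om X x i
    have h3 : ((dbar20L G0 : S21 X.X) : X.X → Fin 2 → ℂ) x j = del11 w x j := hg1 x j
    change dbar0 1 P.f20 x j + del11 w x j = 0
    rw [h1, hG, map_neg, map_add, map_smul, h2, smul_zero, add_zero]
    change -((dbar20L G0 : S21 X.X) : X.X → Fin 2 → ℂ) x j + del11 w x j = 0
    rw [h3, neg_add_cancel]
  have hcj : cjF P = P := bar_of_real hPr
  have h12 : P.d12 = 0 := by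
    rw [← hcj, d12_cj, h21]
    funext x i
    simp [cj1]
  refine ⟨hPs, ⟨fun x j => congrFun (congrFun h21 x) j, fun x i => congrFun (congrFun h12 x) i⟩,
    hPr, ?_⟩
  have h1 : P.wedge (OmT X) = ((-1 : ℂ) • (B0 + conj c • BO)).wedge (OmT X) := by
    funext x
    have h2 : P.wedge (OmT X) x = conj ((G : X.X → ℂ) x) * Om X x := by
      simp [TwoF.wedge, OmT, hP]
    have h3 : ((-1 : ℂ) • (B0 + conj c • BO)).wedge (OmT X) x =
        (-1 * (conj (g0 x) + conj c * conj (Om X x))) * Om X x := by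
      have h4 : ((-1 : ℂ) • (B0 + conj c • BO)).f02 x =
          -1 * (conj (g0 x) + conj c * conj (Om X x)) := rfl
      simp only [TwoF.wedge, OmT, h4, Pi.zero_apply, Matrix.zero_apply, mul_zero, sub_zero,
        add_zero, zero_add]
    rw [h2, h3, hGg, map_neg, map_add, map_mul]
    ring
  rw [H342.pair_comm, pair, h1]
  change pair ((-1 : ℂ) • (B0 + conj c • BO)) (OmT X) = 0
  rw [pair_smul_left intAx _ (TwoF_smooth_add hB0s (TwoF_smooth_smul _ hBOs)) hOs,
    pair_add_left intAx hB0s (TwoF_smooth_smul _ hBOs) hOs, pair_smul_left intAx _ hBOs hOs,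
    ← hK, hc, Complex.conj_conj]
  field_simp
  ring

open scoped ComplexOrder in
/-- **F3-GAUD, half (B).** -/
theorem psi_of_ker (X : K3) {h : X.X → Matrix (Fin 2) (Fin 2) ℂ} (hh : IsHerm h)
    {u : X.X → ℝ} (hu : Vale.Agent.P272.K.LIN.CkFn Vale.Agent.P267.FL.C2 ∞ u) (hne : ∃ x, u x ≠ 0)
    (h0 : ∀ x, dbar1 1 (TwoF.d21 (⟨0, fun y => (u y : ℂ) • (Complex.I • h y), 0⟩ :
      TwoF X.X)) x = 0) : PsiStmt X := by
  set w : X.X → Matrix (Fin 2) (Fin 2) ℂ := fun y => (u y : ℂ) • (Complex.I • h y) with hw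
  have hws : Reg11 ∞ w := reg11_cx_smul hh.smooth hu
  have hr : ∀ x i j, w x j i = -conj (w x i j) := by
    intro x i j
    have h1 := congrFun (congrFun (hh.posDef x).1 j) i
    rw [Matrix.conjTranspose_apply] at h1
    simp only [hw, Matrix.smul_apply, smul_eq_mul, map_mul, Complex.conj_ofReal, Complex.conj_I]
    rw [← h1]
    simp
  have h1 : TwoF.d21 (⟨0, w, 0⟩ : TwoF X.X) = del11 w := by
    rw [d21_eq]
    funext x j
    have h2 : dbar0 1 (0 : X.X → ℂ) x j = 0 := by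
      have h3 : dbar20L (0 : S20 X.X) = 0 := map_zero _
      exact congrFun (congrFun (congrArg (fun s : S21 X.X => (s : X.X → Fin 2 → ℂ)) h3) x) j
    change dbar0 1 (0 : X.X → ℂ) x j + del11 w x j = _
    rw [h2, zero_add]
  rw [h1] at h0
  obtain ⟨g, hs, hc, hre, hO⟩ := exists_closed X hws hr h0
  refine ⟨_, hs, hc, hre, hO, ?_⟩
  set P : TwoF X.X := ⟨g, w, fun x => conj (g x)⟩ with hP
  have hdet : ∀ x, 0 < (h x).det.re ∧ ((h x).det.re : ℂ) = (h x).det := by
    intro x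
    have h2 := (hh.posDef x).det_pos
    rw [Complex.lt_def] at h2
    exact ⟨h2.1, Complex.ext rfl h2.2⟩
  set β : X.X → ℝ := fun x => 2 * ‖g x‖ ^ 2 + 2 * u x ^ 2 * (h x).det.re with hβ
  have hwe : P.wedge P = fun x => (β x : ℂ) := by
    funext x
    have h2 : conj (g x) * g x = ((‖g x‖ ^ 2 : ℝ) : ℂ) := by
      rw [Complex.conj_mul']
      push_cast
      rfl
    have h3 := (hdet x).2
    rw [Matrix.det_fin_two] at h3
    have h4 : ((β x : ℝ) : ℂ) = 2 * (conj (g x) * g x) + 2 * (u x : ℂ) ^ 2 *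
        (h x 0 0 * h x 1 1 - h x 0 1 * h x 1 0) := by
      rw [h2, ← h3, hβ]
      simp only [Matrix.det_fin_two]
      push_cast
      ring
    rw [h4]
    simp only [TwoF.wedge, hP, hw, Matrix.smul_apply, smul_eq_mul]
    linear_combination (-2 * (u x : ℂ) ^ 2 * (h x 0 0 * h x 1 1 - h x 0 1 * h x 1 0)) *
      Complex.I_mul_I
  have hreg : Reg2 0 1 (fun x => (β x : ℂ)) := by
    rw [← hwe]
    have h2 : Reg2 ∞ 1 (P.wedge P) := wedge_mem hs hs
    exact fun e he => (h2 e he).of_le (by simp)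
  obtain ⟨x, hx⟩ := hne
  have hβ0 : ∀ x, 0 ≤ β x := fun x => by
    have := (hdet x).1
    positivity
  have hβx : β x ≠ 0 := by
    have h2 := (hdet x).1
    have h3 : 0 < u x ^ 2 := by positivity
    have h4 : 0 < 2 * u x ^ 2 * (h x).det.re := by positivity
    have h5 : 0 ≤ 2 * ‖g x‖ ^ 2 := by positivity
    exact (add_pos_of_nonneg_of_pos h5 h4).ne'
  rw [pair, hwe]
  exact intX_re_pos hreg (HasCompactSupport.of_compactSpace _) hβ0 hβx

end Vale.Agent.P290Z.W.H362
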