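import Vale.Agent.P290.H867.Conv
import Vale.Agent.P290Z.W.Defs
import Vale.Agent.P290Z.W.H416K3FL
import Vale.Agent.P290Z.W.H445Coh
import Vale.Agent.P290Z.W.H445Lef
import Vale.Agent.P290Z.W.H445IntK
import Vale.Agent.P290Z.W.H445Sec
import Vale.Agent.P290Z.W.H445Rrf
import Vale.Agent.P290Z.W.H416K3U
import Vale.Agent.P290Z.W.H416K3Hi
import Vale.Agent.P290Z.W.H416K3Dep
import Vale.Agent.P290Z.W.H470C2
import Vale.Agent.P290Z.W.H362Iface
import Vale.Agent.P290Z.W.H342GeoInst
import Vale.Agent.P290Z.W.H722Neg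
import Vale.Agent.P290Z.W.H342LatInst
import Vale.Agent.P290Z.W.H416K3Iso
import Vale.Agent.P290Z.W.H445Twist
import Vale.Agent.P290Z.W.H867OmB
import Vale.Agent.P290Z.W.H722Per
import Vale.Agent.P290Z.W.H722IntFam
import Vale.Agent.P290Z.W.H867KS
import Vale.Agent.P290Z.W.H362F2Asm

/-!
# P290, F4 (helper867): the derivative of the class of the two-form

`exact_of_infTrivial` : if the Kodaira-Spencer class of the family at `t₀` in the direction `v`
vanishes, then the derivative of the transported two-forms in the direction `v` is cohomologous to a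
multiple of the two-form of the fibre over `t₀`.
-/

set_option linter.unusedVariables false
set_option linter.unusedSectionVars false

open scoped Manifold ContDiff ComplexConjugate Topology
open Set Filter

noncomputable section

namespace Vale.Agent.P290Z.W.H867

open Vale.Agent.P290 Vale.Agent.P290.H867

open Vale.Agent.P267 Vale.Agent.P267.RR Vale.Agent.P267.H332 Vale.Agent.P290.All
  Vale.Agent.P290.H805 Vale.Agent.P290.H95 Vale.Agent.P290.H686
open Vale.Agent.P290.H445 hiding instFLCharted instManifold instManifoldFL instT2 instCompact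
  instConnected instSecondCountable instLocPathConnected mem_atlas_toFL mem_atlas_iff chartAt_FL
  jacM_det Om Om_ne_zero loc_Om HolOn_Om Reg0_Om holOn_zero_iff const_of_hol holOn_one H01 OmI
  OmI_mul Om_mul loc0_Om_ne_zero HolOn_OmI Reg0_OmI isCanon_OX act_smul' db0_mul db1_mul mulOm
  H0_one h0_one sec_one act_one h0_O h1_O chi_O intX_zero curv_OX isec_OX chi_eq rr_ineq OmC
  Reg2_OmC h2_O exists_dbar1 intX_dbar1 lefschetz intFactsK rr_of_orth isSection_of_mem
  exists_pencil OmF OmF_smooth OmF_closed pair_OmF period_eq rr_uData h01 ff even_of_pair_zero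
open Vale.Agent.P290Z.W.H445
open Vale.Agent.P290.H722 hiding UGeo E2_OmF E2_pb2_OmF
open Vale.Agent.P290Z.W.H722

/-! ### two-forms -/

section two

variable {X : Type*} [TopologicalSpace X] [ChartedSpace FL.C2 X] [IsManifold 𝓘(ℂ, FL.C2) ω X]

end two

/-- a closed form of type `(2,0)` on a K3 surface is a multiple of the holomorphic two-form -/
theorem eq_smul_OmF (Z : K3) {F : FL.TwoF Z.X} (hF : F ∈ HC Z.X) (h11 : ∀ x, F.f11 x = 0)
    (h02 : ∀ x, F.f02 x = 0) : ∃ a : ℂ, F = a • H445.OmF Z := by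
  have hc := (H342.mem_HC_iff.1 hF).2
  have hs := (H342.mem_HC_iff.1 hF).1
  have hl : ∀ (x : Z.X) (i j : Fin 2), (fun z => FL.loc11 (chartAt FL.C2 x) F.f11 z i j) =
      fun _ => 0 := by
    intro x i j
    funext z
    simp [FL.loc11, h11]
  have hd : ∀ x i, FL.dbar0 1 F.f20 x i = 0 := by
    intro x i
    have h1 := hc.1 x i
    rw [FL.TwoF.d21, hl, hl] at h1
    have h2 : ∀ j, FL.dz j (fun _ : FL.C2 => (0 : ℂ)) (chartAt FL.C2 x x) = 0 := by
      intro j
      simp [FL.dz]
    rw [h2, h2, sub_zero, add_zero] at h1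
    exact h1
  obtain ⟨a, ha⟩ := holOn_one Z (holOn_of_dbar hs.s20 hd)
  refine ⟨a, ?_⟩
  refine FL.TwoF.ext ?_ ?_ ?_
  · funext x
    exact ha x
  · funext x
    rw [h11]
    change (0 : Matrix (Fin 2) (Fin 2) ℂ) = a • (0 : Matrix (Fin 2) (Fin 2) ℂ)
    rw [smul_zero]
  · funext x
    rw [h02]
    change (0 : ℂ) = a • (0 : ℂ)
    rw [smul_zero]

end Vale.Agent.P290Z.W.H867
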