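import Vale.Agent.P290Z.K.SpecG
import Vale.Agent.P290Z.W.KurDefs

/-!
# P290Z, part III (K): the statements `B`, `C` of `K/SpecG` over `W.K3`
-/

open scoped Manifold ContDiff Topology NNReal
open Set Filter

noncomputable section

namespace Vale.Agent.P290Z.W.Kur

open Vale.Agent.P290Z.Kur
open Vale.Agent.P272.K Vale.Agent.P272.K.LIN Vale.Agent.P290.H158

/-! ### B. the forms -/

open Vale.Agent.P290 Vale.Agent.P267 Vale.Agent.P290.H686 Vale.Agent.P290.H722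
open Vale.Agent.P267.FL (TwoF OneF IsHerm)

/-- LAM: a first order operator `al` from pairs of real functions to one-forms with
`σ ∧ d (al u v) = i det h (Q u + i Q v)` -/
def StLam : Prop :=
  ∀ (X : K3) (P : TwoF X.X) (h : X.X → Matrix (Fin 2) (Fin 2) ℂ) (hh : IsHerm h),
    P.Smooth → P.Closed → (P.f11 = fun y => Complex.I • h y) →
    (∀ x, (gLOp hh).c x = 0) ∧
    ∃ (al : (X.X → ℝ) → (X.X → ℝ) → OneF X.X)
      (Λ : FL.Ch X.X → FL.C2 → ((FL.C2 →L[ℝ] ℝ) × (FL.C2 →L[ℝ] ℝ)) →L[ℝ] (FL.C2 →L[ℝ] ℂ)),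
      (∀ e ∈ atlas FL.C2 X.X, ∀ y ∈ e.target, ContDiffAt ℝ ∞ (Λ e) y) ∧
      ∀ u v, CkFn FL.C2 ∞ u → CkFn FL.C2 ∞ v →
        (∀ e ∈ atlas FL.C2 X.X, ∀ y ∈ e.target, E1 e (al u v) y =
          Λ e y (fderiv ℝ (fun z => u (e.symm z)) y, fderiv ℝ (fun z => v (e.symm z)) y)) ∧
        ∀ x, (omF X).wedge (al u v).d x =
          Complex.I * (h x).det * ((gLOp hh).Q u x + Complex.I * (gLOp hh).Q v x)

/-- SIG: the forms `σ + η t + d (A t)` have squares proportional to the volume form -/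
def StSig : Prop :=
  ∀ (X : K3) (P : TwoF X.X) (h : X.X → Matrix (Fin 2) (Fin 2) ℂ), IsHerm h →
    P.Smooth → P.Closed → (P.f11 = fun y => Complex.I • h y) →
    ∀ (V : Type) [NormedAddCommGroup V] [NormedSpace ℝ V] [FiniteDimensional ℝ V]
      (η : V → TwoF X.X), SmFam η univ → η 0 = 0 →
      ∃ (N : Set V) (A : V → OneF X.X) (c : V → ℂ), IsOpen N ∧ 0 ∈ N ∧
        (∀ t ∈ N, (A t).Smooth) ∧ SmFam (fun t => (A t).d) N ∧ (A 0).d = 0 ∧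
        ∀ t ∈ N, ∀ x, (omF X + η t + (A t).d).wedge (omF X + η t + (A t).d) x = c t * (h x).det

/-! ### C. the family -/

/-- coordinates which are holomorphic for the forms `sig t`, `t ∈ T₀` -/
structure NNChart (X : K3) {V : Type} [NormedAddCommGroup V] [NormedSpace ℝ V]
    (sig : V → TwoF X.X) (T₀ : Set V) where
  e : FL.Ch X.X
  mem : e ∈ atlas FL.C2 X.X
  H : OpenPartialHomeomorph (V × FL.C2) (V × CC)
  g : V × CC → ℂ
  src : ∀ q ∈ H.source, q.2 ∈ e.target ∧ (H q).1 = q.1 ∧ ContDiffAt ℝ ∞ H q ∧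
    0 < (Dv (fun q => H445.φ (H q).2) q).det ∧
    (q.1 ∈ T₀ → ∀ u v, E2 e (sig q.1) q.2 u v =
      g (H q) * dt (Dv (fun q => (H q).2) q u) (Dv (fun q => (H q).2) q v))
  tgt : ∀ r ∈ H.target, ContDiffAt ℝ ∞ H.symm r ∧ ContDiffAt ℝ ∞ g r ∧ g r ≠ 0 ∧
    (r.1 ∈ T₀ → DifferentiableAt ℂ (fun w => g (r.1, w)) r.2)

/-- CHART: such coordinates exist near every point -/
def StChart : Prop :=
  ∀ (X : K3) (V : Type) [NormedAddCommGroup V] [NormedSpace ℝ V] [FiniteDimensional ℝ V]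
    (sig : V → TwoF X.X) (N T₀ : Set V) (v₀ : V), IsOpen N → v₀ ∈ N → SmFam sig N →
    (∀ t ∈ N, (sig t).Closed) → sig v₀ = omF X →
    (∀ t ∈ N, t ∈ T₀ → ∀ x, (sig t).wedge (sig t) x = 0) →
    ∀ x : X.X, ∃ C : NNChart X sig T₀, x ∈ C.e.source ∧ (v₀, C.e x) ∈ C.H.source

/-- ASM: the family defined by the coordinates -/
def StAsm : Prop :=
  ∀ (X : K3) (V : Type) [NormedAddCommGroup V] [NormedSpace ℝ V] [FiniteDimensional ℝ V]
    (sig : V → TwoF X.X) (N T₀ : Set V) (v₀ : V), IsOpen N → v₀ ∈ N → v₀ ∈ T₀ → SmFam sig N →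
    sig v₀ = omF X →
    (∀ x : X.X, ∃ C : NNChart X sig T₀, x ∈ C.e.source ∧ (v₀, C.e x) ∈ C.H.source) →
    ∃ r > (0 : ℝ), ∃ (M : MFam X V {t | t ∈ T₀ ∧ ‖t - v₀‖ < r})
      (h₀ : v₀ ∈ {t | t ∈ T₀ ∧ ‖t - v₀‖ < r}), M.sig = sig ∧ M.N = N ∧
      (∀ x, All.Hol (M.homeo ⟨v₀, h₀⟩) x) ∧ ∀ y, All.Hol (M.homeo ⟨v₀, h₀⟩).symm y

end Vale.Agent.P290Z.W.Kur
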